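import Vale.Agent.P146.H412.K8g
import Vale.Agent.P146.H418.Skel
import Vale.Agent.P146.H529.LinkAP

/-!
A-priori sizes in canonical form: `K8` on the numbers of `H418.Skel` (hidden bond share `1 - t`,
hidden share `1 - u` of the plain field).
-/

open MeasureTheory ProbabilityTheory Filter Topology Set

namespace Vale.Agent.P146.H412

open Vale.Agent.P157.Lv Vale.Agent.P146.H425 Vale.Agent.P146.H646 Vale.Agent.P146.H196
  Vale.Agent.P146.H475 Vale.Agent.P146.H325 Vale.Agent.P146.H317 Vale.Agent.P146.H615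
  Vale.Agent.P146.H418 Vale.Agent.P146.H9 Vale.Agent.P146.H529 Vale.Agent.P146.H347

set_option linter.unusedSectionVars false

section can

variable (L : Law)

/-- the gain of the doubled exponent, in the law with the two levels -/
noncomputable def gn (t u : ℝ) : ℝ :=
  gain (muA (Xs L.n) L.lam L.η L.c) 1 L.x (Sm (LB := Bool) (LF := Bool) L.b (cb t) (cf L.vp u)
    L.s L.η)

/-- the second moment of the overlap over `S` given the revealed set -/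
noncomputable def CC (S : Finset (Fin L.n)) (t u : ℝ) (z : Co L.n Bool Bool → ℝ) : ℝ :=
  (∑ i ∈ S, ∑ j ∈ S, L.cx' S t u (fun w => sp w.2 i * sp w.2 j) z ^ 2) / (L.n : ℝ) ^ 2

variable {L} (hl : 0 < L.lam) (hη : 0 ≤ L.η) {t u : ℝ}
include hl hη

lemma wtL (t u : ℝ) : Wt (g1 (Co L.n Bool Bool)) (L.wt t u) :=
  wtA L.b (H418.cb t) (cf L.vp u) L.s hl hη L.c L.x

lemma CC_eq (S : Finset (Fin L.n)) (t u : ℝ) (z : Co L.n Bool Bool → ℝ) :
    CC L S t u z = CCz L.n L.b (cb t) (cf L.vp u) L.s L.η L.lam L.c L.x (Kt L.n S) S z := by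
  unfold CC CCz
  congr 1
  exact mo_two_cx L.b (H418.cb t) (cf L.vp u) L.s hl hη L.c L.x (Kt L.n S) S z

lemma CC_nonneg (S : Finset (Fin L.n)) (t u : ℝ) (z : Co L.n Bool Bool → ℝ) :
    0 ≤ CC L S t u z := by
  rw [CC_eq hl hη]
  exact CCz_nonneg hl hη _ _ _ _ _ _ _ _ _

lemma bm_CC (S : Finset (Fin L.n)) (t u : ℝ) : BM (CC L S t u) := by
  have e : CC L S t u = CCz L.n L.b (cb t) (cf L.vp u) L.s L.η L.lam L.c L.x (Kt L.n S) S := by
    funext z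
    exact CC_eq hl hη S t u z
  rw [e]
  exact bm_CCz hl hη _ _ _ _ _ _ _ _

omit hl hη in
lemma tB_cb (n : ℕ) (b : ℝ) {t : ℝ} (ht : t ≤ 1) :
    tB n b (cb t) {false} = b ^ 2 / n * (1 - t) := by
  unfold tB
  rw [Finset.sum_singleton]
  simp [H418.cb, Real.sq_sqrt (show 0 ≤ 1 - t by linarith)]

omit hl hη in
lemma dj : Disjoint ({true} : Finset Bool) {false} := by simp

/-- **Tail of the second moment of the overlap.** -/
theorem tail_CC (hx : 0 < L.x) (hn : 0 < L.n) (h0 : 0 ≤ t) (h1 : t ≤ 1)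
    (hxb : L.x ^ 2 * L.b ^ 2 ≤ 4) (S : Finset (Fin L.n)) (u r : ℝ) :
    L.ex' t u (ind r (CC L S t u)) ≤
      Real.exp (gn L t u + 1 - L.x ^ 2 * L.b ^ 2 * (1 - t) * L.n / 4 * r) := by
  have hn0 : (0 : ℝ) < L.n := by exact_mod_cast hn
  have e : CC L S t u = CCz L.n L.b (cb t) (cf L.vp u) L.s L.η L.lam L.c L.x (Kt L.n S) S := by
    funext z
    exact CC_eq hl hη S t u z
  have h2 := tail_cc (n := L.n) hl hη L.c L.b (cb t) (cf L.vp u) L.s hx hn dj S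
    ({true} : Finset Bool) r
  rw [tB_cb L.n L.b h1] at h2
  rw [e]
  refine h2.trans (Real.exp_le_exp.2 ?_)
  have hS : (S.card : ℝ) ≤ L.n := by
    have := Finset.card_le_univ S
    rw [Fintype.card_fin] at this
    exact_mod_cast this
  have h3 : L.x ^ 2 / 4 * (L.b ^ 2 / L.n * (1 - t) * S.card) ≤ 1 := by
    have h4 : L.b ^ 2 / L.n * (1 - t) * S.card ≤ L.b ^ 2 / L.n * 1 * L.n := by
      have h5 : 0 ≤ 1 - t := by linarith
      gcongr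
      linarith
    have h6 : L.b ^ 2 / L.n * 1 * (L.n : ℝ) = L.b ^ 2 := by field_simp
    rw [h6] at h4
    have h7 := mul_le_mul_of_nonneg_left h4 (show 0 ≤ L.x ^ 2 / 4 by positivity)
    linarith
  have h8 : L.x ^ 2 / 4 * (L.b ^ 2 / L.n * (1 - t) * (L.n : ℝ) ^ 2) * r =
      L.x ^ 2 * L.b ^ 2 * (1 - t) * L.n / 4 * r := by
    field_simp
  rw [h8]
  show gn L t u + _ - _ ≤ _
  linarith

omit hl hη in
/-- the constant of the moments -/
noncomputable def Cp (p : ℕ) : ℝ := 2 ^ (p - 1) * (1 + 2 ^ (p - 1) * (1 + p.factorial))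

/-- **Powers of the second moment of the overlap.** -/
theorem mom_CC (hx : 0 < L.x) (hn : 0 < L.n) (hb : L.b ≠ 0) (h0 : 0 ≤ t) (h1 : t < 1)
    (hxb : L.x ^ 2 * L.b ^ 2 ≤ 4) (S : Finset (Fin L.n)) (u : ℝ) {g : ℝ} (hg : gn L t u ≤ g)
    (hg1 : 1 ≤ g) (p : ℕ) :
    L.ex' t u (fun z => CC L S t u z ^ p) ≤
      Cp p * (4 * g / (L.x ^ 2 * L.b ^ 2 * (1 - t) * L.n)) ^ p := by
  have hn0 : (0 : ℝ) < L.n := by exact_mod_cast hn
  have ht : 0 < 1 - t := by linarith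
  have hb2 : 0 < L.b ^ 2 := by positivity
  have e : (fun z => CC L S t u z ^ p) = fun z =>
      CCz L.n L.b (cb t) (cf L.vp u) L.s L.η L.lam L.c L.x (Kt L.n S) S z ^ p := by
    funext z
    rw [CC_eq hl hη S t u z]
  have hB : 0 < tB L.n L.b (cb t) {false} := by
    rw [tB_cb L.n L.b h1.le]
    positivity
  have h2 := mom_cc (n := L.n) hl hη L.c L.b (cb t) (cf L.vp u) L.s hx hn dj S
    ({true} : Finset Bool) hB p
  rw [tB_cb L.n L.b h1.le] at h2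
  rw [e]
  refine h2.trans ?_
  set q := 4 / (L.x ^ 2 * L.b ^ 2 * (1 - t) * L.n) with hq
  have hq0 : 0 < q := by
    rw [hq]
    positivity
  have e1 : 4 / (L.x ^ 2 * (L.b ^ 2 / L.n * (1 - t) * (L.n : ℝ) ^ 2)) = q := by
    rw [hq]
    congr 1
    field_simp
  have e2 : 4 * g / (L.x ^ 2 * L.b ^ 2 * (1 - t) * L.n) = q * g := by
    rw [hq]
    ring
  rw [e1, e2]
  have hS : (S.card : ℝ) ≤ L.n := by
    have := Finset.card_le_univ S
    rw [Fintype.card_fin] at this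
    exact_mod_cast this
  have h3 : (S.card : ℝ) / (L.n : ℝ) ^ 2 ≤ q * g := by
    have h4 : (S.card : ℝ) / (L.n : ℝ) ^ 2 ≤ 1 / L.n := by
      rw [div_le_div_iff₀ (by positivity) hn0]
      nlinarith
    have h5 : 1 / (L.n : ℝ) ≤ q := by
      rw [hq, div_le_div_iff₀ hn0 (by positivity)]
      have h6 : L.x ^ 2 * L.b ^ 2 * (1 - t) ≤ 4 * 1 :=
        mul_le_mul hxb (by linarith) ht.le (by norm_num)
      nlinarith
    nlinarith
  have hgn : 0 ≤ gn L t u := gain_nonneg (gm_sk (n := L.n) hl hη L.c L.b (cb t) (cf L.vp u)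
    L.s).choose_spec 1 hx
  have h6 : gn L t u ^ p ≤ g ^ p := pow_le_pow_left₀ hgn hg p
  have h7 : (1 : ℝ) ≤ g ^ p := one_le_pow₀ hg1
  have h8 : (p.factorial : ℝ) ≤ p.factorial * g ^ p :=
    le_mul_of_one_le_right (by positivity) h7
  have h9 : ((S.card : ℝ) / (L.n : ℝ) ^ 2) ^ p ≤ (q * g) ^ p :=
    pow_le_pow_left₀ (by positivity) h3 p
  calc 2 ^ (p - 1) * (((S.card : ℝ) / (L.n : ℝ) ^ 2) ^ p + q ^ p * (2 ^ (p - 1) *
        (gain (muA (Xs L.n) L.lam L.η L.c) 1 L.x (Sm (LB := Bool) (LF := Bool) L.b (cb t)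
          (cf L.vp u) L.s L.η) ^ p + p.factorial)))
      ≤ 2 ^ (p - 1) * ((q * g) ^ p + q ^ p * (2 ^ (p - 1) * (g ^ p + p.factorial * g ^ p))) := by
        gcongr
        exact hg
    _ = Cp p * (q * g) ^ p := by
        unfold Cp
        rw [mul_pow]
        ring

/-- `Q ≤ (1 + η)² √CC` -/
lemma Q_le (hn : 0 < L.n) (S : Finset (Fin L.n)) (t u : ℝ) (z : Co L.n Bool Bool → ℝ) :
    L.Q S t u z ≤ (1 + L.η) ^ 2 * √(CC L S t u z) := by
  rw [CC_eq hl hη]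
  exact Qz_le hl hη (bm_of_al hη) (fun w => by
    have h1 := _root_.abs_le.1 (abs_al_sub hη w.1)
    rw [_root_.abs_le]
    constructor <;> linarith [h1.1, h1.2]) (by linarith) L.c L.x L.b (cb t) (cf L.vp u) L.s hn
    (Kt L.n S) S z

lemma Q0_eq (S : Finset (Fin L.n)) (t u : ℝ) (z : Co L.n Bool Bool → ℝ) :
    L.Q0 S t u z = Qz L.n L.b (cb t) (cf L.vp u) L.s L.η L.lam L.c L.x (fun _ => 1) (Kt L.n S)
      S z := by
  unfold Law.Q0 Qz
  congr 1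
  refine Finset.sum_congr rfl fun j _ => ?_
  have e1 : (fun w : ℝ × Xs L.n => (fun _ => (1 : ℝ)) w * H325.sp w.2 j) =
      fun w => H325.sp w.2 j := by
    funext w
    exact one_mul _
  rw [e1]
  rfl

/-- `Q0 ≤ √CC` -/
lemma Q0_le (hn : 0 < L.n) (S : Finset (Fin L.n)) (t u : ℝ) (z : Co L.n Bool Bool → ℝ) :
    L.Q0 S t u z ≤ √(CC L S t u z) := by
  rw [CC_eq hl hη, Q0_eq hl hη]
  have h1 := Qz_le hl hη (h := fun _ => (1 : ℝ)) (Bm.const 1) (C := 1)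
    (fun w => by norm_num) zero_le_one L.c L.x L.b (H418.cb t) (cf L.vp u) L.s hn (Kt L.n S) S z
  rwa [one_pow, one_mul] at h1

lemma bm_Q (S : Finset (Fin L.n)) (t u : ℝ) : BM (L.Q S t u) := by
  have e : L.Q S t u = fun z => 1 / (L.n : ℝ) *
      ∑ i ∈ S, L.cx' S t u (fun w => al L.η w.1 * H325.sp w.2 i) z ^ 2 := by
    funext z
    unfold Law.Q
    ring
  rw [e]
  exact bcm _ (bm_sum_sq _ fun j _ => (wtL hl hη t u).bm_cx _
    (bmA L.b (H418.cb t) (cf L.vp u) L.s hl hη L.c ((bm_of_al hη).mul (bm_sp j))))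

lemma bm_Q0 (S : Finset (Fin L.n)) (t u : ℝ) : BM (L.Q0 S t u) := by
  have e : L.Q0 S t u = fun z => 1 / (L.n : ℝ) *
      ∑ i ∈ S, L.cx' S t u (fun w => H325.sp w.2 i) z ^ 2 := by
    funext z
    unfold Law.Q0
    ring
  rw [e]
  exact bcm _ (bm_sum_sq _ fun j _ => (wtL hl hη t u).bm_cx _
    (bmA L.b (H418.cb t) (cf L.vp u) L.s hl hη L.c (bm_sp j)))

omit hl hη in
lemma Q_nonneg (S : Finset (Fin L.n)) (t u : ℝ) (z : Co L.n Bool Bool → ℝ) :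
    0 ≤ L.Q S t u z :=
  div_nonneg (Finset.sum_nonneg fun _ _ => sq_nonneg _) (Nat.cast_nonneg _)

omit hl hη in
lemma Q0_nonneg (S : Finset (Fin L.n)) (t u : ℝ) (z : Co L.n Bool Bool → ℝ) :
    0 ≤ L.Q0 S t u z :=
  div_nonneg (Finset.sum_nonneg fun _ _ => sq_nonneg _) (Nat.cast_nonneg _)

/-- `{C² r < f} ⊆ {r² < g}` for `f ≤ C² √g` -/
lemma ex_ind_sqrt {f g : (Co L.n Bool Bool → ℝ) → ℝ} (hf : BM f) (hg : BM g) {C r : ℝ}
    (hC : 0 < C) (hr : 0 ≤ r) (h : ∀ z, f z ≤ C ^ 2 * √(g z)) (t u : ℝ) :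
    L.ex' t u (ind (C ^ 2 * r) f) ≤ L.ex' t u (ind (r ^ 2) g) := by
  refine ex_mono (wtL hl hη t u) (bm_ind hf.meas _) (bm_ind hg.meas _) fun z => ?_
  unfold H317.ind
  split_ifs with h3 h4 h4
  · exact le_rfl
  · exfalso
    have h5 : C ^ 2 * r < C ^ 2 * √(g z) := h3.trans_le (h z)
    have h6 := lt_of_mul_lt_mul_left h5 (by positivity)
    exact h4 ((Real.lt_sqrt hr).1 h6)
  · exact zero_le_one
  · exact le_rfl

/-- **Tail of `Q`.** -/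
theorem tail_Q' (hx : 0 < L.x) (hn : 0 < L.n) (h0 : 0 ≤ t) (h1 : t ≤ 1)
    (hxb : L.x ^ 2 * L.b ^ 2 ≤ 4) (S : Finset (Fin L.n)) (u : ℝ) {r : ℝ} (hr : 0 ≤ r) :
    L.ex' t u (ind ((1 + L.η) ^ 2 * r) (L.Q S t u)) ≤
      Real.exp (gn L t u + 1 - L.x ^ 2 * L.b ^ 2 * (1 - t) * L.n / 4 * r ^ 2) :=
  (ex_ind_sqrt hl hη (bm_Q hl hη S t u) (bm_CC hl hη S t u) (by linarith) hr
    (fun z => Q_le hl hη hn S t u z) t u).trans (tail_CC hl hη hx hn h0 h1 hxb S u _)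

/-- **Tail of `Q0`.** -/
theorem tail_Q0 (hx : 0 < L.x) (hn : 0 < L.n) (h0 : 0 ≤ t) (h1 : t ≤ 1)
    (hxb : L.x ^ 2 * L.b ^ 2 ≤ 4) (S : Finset (Fin L.n)) (u : ℝ) {r : ℝ} (hr : 0 ≤ r) :
    L.ex' t u (ind r (L.Q0 S t u)) ≤
      Real.exp (gn L t u + 1 - L.x ^ 2 * L.b ^ 2 * (1 - t) * L.n / 4 * r ^ 2) := by
  have h2 := ex_ind_sqrt hl hη (C := 1) (bm_Q0 hl hη S t u) (bm_CC hl hη S t u) one_pos hr
    (fun z => by rw [one_pow, one_mul]; exact Q0_le hl hη hn S t u z) t u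
  rw [one_pow, one_mul] at h2
  exact h2.trans (tail_CC hl hη hx hn h0 h1 hxb S u _)

/-- **Powers of `Q`.** -/
theorem mom_Q (hn : 0 < L.n) (S : Finset (Fin L.n)) (t u : ℝ) (p : ℕ) :
    L.ex' t u (fun z => L.Q S t u z ^ (2 * p)) ≤
      (1 + L.η) ^ (4 * p) * L.ex' t u (fun z => CC L S t u z ^ p) := by
  have bpow : ∀ {f : (Co L.n Bool Bool → ℝ) → ℝ}, BM f → ∀ q : ℕ, BM fun z => f z ^ q := by
    intro f hf q
    induction q with
    | zero => simpa using BM.const (κ := Co L.n Bool Bool) 1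
    | succ q ih => simpa only [pow_succ] using ih.mul hf
  have e : (1 + L.η) ^ (4 * p) * L.ex' t u (fun z => CC L S t u z ^ p) =
      L.ex' t u (fun z => (1 + L.η) ^ (4 * p) * CC L S t u z ^ p) :=
    (H615.ex_cmul _ _).symm
  rw [e]
  refine ex_mono (wtL hl hη t u) (bpow (bm_Q hl hη S t u) _)
    (bcm _ (bpow (bm_CC hl hη S t u) p)) fun z => ?_
  have h1 := pow_le_pow_left₀ (Q_nonneg S t u z) (Q_le hl hη hn S t u z) (2 * p)
  refine h1.trans (le_of_eq ?_)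
  have h2 := CC_nonneg hl hη S t u z
  rw [mul_pow, ← pow_mul, pow_mul (√(CC L S t u z)), Real.sq_sqrt h2]
  congr 2
  ring

/-- **Powers of `Q0`.** -/
theorem mom_Q0 (hn : 0 < L.n) (S : Finset (Fin L.n)) (t u : ℝ) (p : ℕ) :
    L.ex' t u (fun z => L.Q0 S t u z ^ (2 * p)) ≤ L.ex' t u (fun z => CC L S t u z ^ p) := by
  have bpow : ∀ {f : (Co L.n Bool Bool → ℝ) → ℝ}, BM f → ∀ q : ℕ, BM fun z => f z ^ q := by
    intro f hf q
    induction q with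
    | zero => simpa using BM.const (κ := Co L.n Bool Bool) 1
    | succ q ih => simpa only [pow_succ] using ih.mul hf
  refine ex_mono (wtL hl hη t u) (bpow (bm_Q0 hl hη S t u) _)
    (bpow (bm_CC hl hη S t u) p) fun z => ?_
  have h1 := pow_le_pow_left₀ (Q0_nonneg S t u z) (Q0_le hl hη hn S t u z) (2 * p)
  refine h1.trans (le_of_eq ?_)
  rw [pow_mul, Real.sq_sqrt (CC_nonneg hl hη S t u z)]

omit hl hη in
lemma gn_nonneg (hl : 0 < L.lam) (hη : 0 ≤ L.η) (hx : 0 < L.x) (t u : ℝ) : 0 ≤ gn L t u :=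
  gain_nonneg (gm_sk (n := L.n) hl hη L.c L.b (H418.cb t) (cf L.vp u) L.s).choose_spec 1 hx

end can

/-! ### the gain -/

/-- **The gain in canonical form**, uniformly in the shares. -/
theorem gn_ev {b e s0 s1 : ℝ} (hb : 0 < b) (he : 0 < e) (hs0 : 0 ≤ s0) (hs : s0 < s1) :
    ∀ᶠ n : ℕ in atTop, ∀ (vp s lam η y V a : ℝ), 0 ≤ vp → V = vp + s ^ 2 → V ≤ 1 → 0 < s →
      1 ≤ lam → 0 < η → η < 1 → 1 ≤ lam * η → (n : ℝ) ^ (-(1 / 6) + e) ≤ y → 2 * y ≤ 1 →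
      H178.AP b s0 n y (2 * V) → H178.AP b s0 n (2 * y) (2 * V) → SG n b y V a →
      ∀ t ∈ Icc (0 : ℝ) 1, ∀ u ∈ Icc (0 : ℝ) 1,
      gn ⟨n, b, vp, s, lam, η, cc n b s a, y⟩ t u ≤ (n : ℝ) ^ (1 + s1) * y ^ 6 := by
  have hd : 0 < s1 - s0 := by linarith
  filter_upwards [H178.ev_pow hd (2 * 400), H178.ev_log (show 0 < 6 * e by positivity) 5,
    eventually_ge_atTop 1] with n g1 g2 g3
  intro vp s lam η y V a hvp hV hV1 hs' hlam hη hη1 hle hy hy1 hap hap2 ha t ht u hu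
  have hn1 : (1 : ℝ) ≤ n := by exact_mod_cast g3
  have hn0 : (0 : ℝ) < n := by linarith
  have hy0 : 0 < y := lt_of_lt_of_le (Real.rpow_pos_of_pos hn0 _) hy
  have hV0 : 0 < V := by rw [hV]; positivity
  have hB : ∑ l, H418.cb t l ^ 2 = 1 := sum_cb ht.1 ht.2
  have hF : V = ∑ l, cf vp u l ^ 2 + s ^ 2 := by rw [sum_cf hvp hu.1 hu.2, hV]
  obtain ⟨a', ha'⟩ := exists_SG g3 hb (show 0 < 2 * y by linarith) hy1 hV0
  set A := 4 * b * ((n : ℝ) ^ s0 * (2 * y) ^ 5 / V) with hA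
  have hA1 : |a| ≤ A := by
    refine (ha.abs_le g3 hb hy0.le hap hV0).trans ?_
    rw [hA]
    gcongr
    linarith
  have hA2 : |a'| ≤ A := ha'.abs_le g3 hb (by positivity) hap2 hV0
  have h1 := gain_ap (LB := Bool) (LF := Bool) (cB := H418.cb t) (cF := cf vp u) g3 hb hB hF hV1
    hs' hlam hη hη1 hle hy0 hy1 hap (by linarith) ha ha' hA1 hA2
  refine (show gn ⟨n, b, vp, s, lam, η, cc n b s a, y⟩ t u ≤ _ from h1).trans ?_
  have h2 : 3 * y * (n * s ^ 2 * η * A / b) ≤ 384 * ((n : ℝ) ^ (1 + s0) * y ^ 6) := by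
    have e1 : 3 * y * (n * s ^ 2 * η * A / b) =
        384 * (n * (n : ℝ) ^ s0 * y ^ 6) * (η * (s ^ 2 / V)) := by
      rw [hA]
      field_simp
      ring
    rw [e1, Real.rpow_add hn0, Real.rpow_one]
    have h3 : s ^ 2 / V ≤ 1 := by
      rw [div_le_one hV0]
      linarith
    have h4 : η * (s ^ 2 / V) ≤ 1 := by
      have : 0 ≤ s ^ 2 / V := by positivity
      nlinarith
    have h5 : 0 ≤ 384 * (n * (n : ℝ) ^ s0 * y ^ 6) := by positivity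
    nlinarith
  have h3 : 5 * (1 + Real.log n) ≤ (n : ℝ) ^ (1 + s0) * y ^ 6 := by
    refine g2.trans ?_
    have h6 : (n : ℝ) ^ (-1 + 6 * e) ≤ y ^ 6 := by
      have h7 := pow_le_pow_left₀ (Real.rpow_pos_of_pos hn0 _).le hy 6
      rw [← Real.rpow_natCast ((n : ℝ) ^ (-(1 / 6) + e)), ← Real.rpow_mul hn0.le] at h7
      refine le_trans (le_of_eq ?_) h7
      congr 1
      push_cast
      ring
    calc (n : ℝ) ^ (6 * e) = (n : ℝ) ^ (1 : ℝ) * (n : ℝ) ^ (-1 + 6 * e) := by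
          rw [← Real.rpow_add hn0]
          congr 1
          ring
      _ ≤ (n : ℝ) ^ (1 + s0) * y ^ 6 := by
          have := Real.rpow_le_rpow_of_exponent_le hn1 (show (1 : ℝ) ≤ 1 + s0 by linarith)
          gcongr
  have h4 : (n : ℝ) ^ (1 + s1) = (n : ℝ) ^ (s1 - s0) * (n : ℝ) ^ (1 + s0) := by
    rw [← Real.rpow_add hn0]
    congr 1
    ring
  have h5 : 0 < (n : ℝ) ^ (1 + s0) * y ^ 6 := by positivity
  rw [h4]
  nlinarith

/-- the standing hypotheses on the parameters of one amplitude law at `(y, V)` -/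
structure Par (b s0 e : ℝ) (n : ℕ) (vp s lam η y V a : ℝ) : Prop where
  vp0 : 0 ≤ vp
  hV : V = vp + s ^ 2
  V1 : V ≤ 1
  s0' : 0 < s
  lam1 : 1 ≤ lam
  η0 : 0 < η
  η1 : η < 1
  lamη : 1 ≤ lam * η
  y0 : (n : ℝ) ^ (-(1 / 6) + e) ≤ y
  y1 : 2 * y ≤ 1
  ap : H178.AP b s0 n y (2 * V)
  ap2 : H178.AP b s0 n (2 * y) (2 * V)
  sg : SG n b y V a

lemma ypow {n : ℕ} (hn : 1 ≤ n) {e y : ℝ} (hy : (n : ℝ) ^ (-(1 / 6) + e) ≤ y) :
    (n : ℝ) ^ (-1 + 6 * e) ≤ y ^ 6 := by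
  have hn0 : (0 : ℝ) < n := by exact_mod_cast hn
  have h7 := pow_le_pow_left₀ (Real.rpow_pos_of_pos hn0 _).le hy 6
  rw [← Real.rpow_natCast ((n : ℝ) ^ (-(1 / 6) + e)), ← Real.rpow_mul hn0.le] at h7
  refine le_trans (le_of_eq ?_) h7
  congr 1
  push_cast
  ring

/-- **Moments of the second moment of the overlap, eventually.** -/
theorem mom_ev {b e s0 s1 : ℝ} (hb : 0 < b) (he : 0 < e) (hs0 : 0 ≤ s0) (hs : s0 < s1) :
    ∀ᶠ n : ℕ in atTop, ∀ (vp s lam η y V a : ℝ), Par b s0 e n vp s lam η y V a →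
      y ^ 2 * b ^ 2 ≤ 4 → ∀ t : ℝ, 0 ≤ t → t < 1 → ∀ u ∈ Icc (0 : ℝ) 1,
      ∀ (S : Finset (Fin n)) (p : ℕ),
      Law.ex' ⟨n, b, vp, s, lam, η, cc n b s a, y⟩ t u
        (fun z => CC ⟨n, b, vp, s, lam, η, cc n b s a, y⟩ S t u z ^ p) ≤
      Cp p * (4 * ((n : ℝ) ^ s1 * y ^ 4) / (b ^ 2 * (1 - t))) ^ p := by
  filter_upwards [gn_ev hb he hs0 hs, eventually_ge_atTop 1] with n g1 g2
  intro vp s lam η y V a h hyb t ht0 ht1 u hu S p
  have hn1 : (1 : ℝ) ≤ n := by exact_mod_cast g2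
  have hn0 : (0 : ℝ) < n := by linarith
  have hy0 : 0 < y := lt_of_lt_of_le (Real.rpow_pos_of_pos hn0 _) h.y0
  have hg := g1 vp s lam η y V a h.vp0 h.hV h.V1 h.s0' h.lam1 h.η0 h.η1 h.lamη h.y0 h.y1 h.ap
    h.ap2 h.sg t ⟨ht0, ht1.le⟩ u hu
  have h1 : 1 ≤ (n : ℝ) ^ (1 + s1) * y ^ 6 := by
    have h2 := ypow g2 h.y0
    calc (1 : ℝ) ≤ (n : ℝ) ^ (s1 + 6 * e) := Real.one_le_rpow hn1 (by linarith)
      _ = (n : ℝ) ^ (1 + s1) * (n : ℝ) ^ (-1 + 6 * e) := by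
          rw [← Real.rpow_add hn0]
          congr 1
          ring
      _ ≤ _ := by gcongr
  have ht : 0 < 1 - t := by linarith
  have h3 := mom_CC (L := ⟨n, b, vp, s, lam, η, cc n b s a, y⟩) (by
    show 0 < lam
    linarith [h.lam1]) h.η0.le hy0 (by show 0 < n; omega) hb.ne' ht0 ht1 hyb S u hg h1 p
  refine h3.trans (le_of_eq ?_)
  congr 2
  show 4 * ((n : ℝ) ^ (1 + s1) * y ^ 6) / (y ^ 2 * b ^ 2 * (1 - t) * n) = _
  rw [Real.rpow_add hn0, Real.rpow_one]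
  field_simp

/-- **Tails, eventually**: `U² (1 - t) ≥ (n ^ s2 y²)²`. -/
theorem tail_ev {b e s0 s1 s2 : ℝ} (D : ℝ) (hb : 0 < b) (he : 0 < e) (hs0 : 0 ≤ s0)
    (hs : s0 < s1) (hs2 : s1 < 2 * s2) :
    ∀ᶠ n : ℕ in atTop, ∀ (vp s lam η y V a : ℝ), Par b s0 e n vp s lam η y V a →
      y ^ 2 * b ^ 2 ≤ 4 → ∀ t : ℝ, 0 ≤ t → t < 1 → ∀ u ∈ Icc (0 : ℝ) 1,
      ∀ (S : Finset (Fin n)) (U : ℝ), 0 ≤ U → ((n : ℝ) ^ s2 * y ^ 2) ^ 2 ≤ U ^ 2 * (1 - t) →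
      Law.ex' ⟨n, b, vp, s, lam, η, cc n b s a, y⟩ t u
        (H317.ind (U ^ 2) (CC ⟨n, b, vp, s, lam, η, cc n b s a, y⟩ S t u)) ≤
          (n : ℝ) ^ (-D) ∧
      Law.ex' ⟨n, b, vp, s, lam, η, cc n b s a, y⟩ t u
        (H317.ind U (Law.Q ⟨n, b, vp, s, lam, η, cc n b s a, y⟩ S t u)) ≤ (n : ℝ) ^ (-D) ∧
      Law.ex' ⟨n, b, vp, s, lam, η, cc n b s a, y⟩ t u
        (H317.ind U (Law.Q0 ⟨n, b, vp, s, lam, η, cc n b s a, y⟩ S t u)) ≤ (n : ℝ) ^ (-D) := by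
  filter_upwards [gn_ev hb he hs0 hs, eventually_ge_atTop 1,
    H178.ev_pow (show 0 < 2 * s2 - s1 by linarith) (64 * 3 / b ^ 2),
    H178.ev_log (show 0 < 6 * e by positivity) (1 + |D|)] with n g1 g2 g3 g4
  intro vp s lam η y V a h hyb t ht0 ht1 u hu S U hU hU2
  have hn1 : (1 : ℝ) ≤ n := by exact_mod_cast g2
  have hn0 : (0 : ℝ) < n := by linarith
  have hlog : 0 ≤ Real.log n := Real.log_nonneg hn1
  have hy0 : 0 < y := lt_of_lt_of_le (Real.rpow_pos_of_pos hn0 _) h.y0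
  have hg := g1 vp s lam η y V a h.vp0 h.hV h.V1 h.s0' h.lam1 h.η0 h.η1 h.lamη h.y0 h.y1 h.ap
    h.ap2 h.sg t ⟨ht0, ht1.le⟩ u hu
  have ht : 0 < 1 - t := by linarith
  set G := (n : ℝ) ^ (1 + s1) * y ^ 6 with hG
  have h1 : (n : ℝ) ^ (6 * e) ≤ G := by
    have h2 := ypow g2 h.y0
    calc (n : ℝ) ^ (6 * e) ≤ (n : ℝ) ^ (s1 + 6 * e) :=
          Real.rpow_le_rpow_of_exponent_le hn1 (by linarith)
      _ = (n : ℝ) ^ (1 + s1) * (n : ℝ) ^ (-1 + 6 * e) := by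
          rw [← Real.rpow_add hn0]
          congr 1
          ring
      _ ≤ _ := by
          rw [hG]
          gcongr
  have hD : (1 + |D|) * (1 + Real.log n) ≤ G := g4.trans h1
  -- the quadratic term
  have h3 : 3 * G ≤ y ^ 2 * b ^ 2 * (1 - t) * n / 4 * (U / 4) ^ 2 := by
    have h4 : y ^ 2 * b ^ 2 * (1 - t) * n / 4 * (U / 4) ^ 2 =
        y ^ 2 * b ^ 2 * n / 64 * (U ^ 2 * (1 - t)) := by ring
    rw [h4]
    have h5 : y ^ 2 * b ^ 2 * n / 64 * ((n : ℝ) ^ s2 * y ^ 2) ^ 2 ≤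
        y ^ 2 * b ^ 2 * n / 64 * (U ^ 2 * (1 - t)) :=
      mul_le_mul_of_nonneg_left hU2 (by positivity)
    refine le_trans ?_ h5
    have e1 : y ^ 2 * b ^ 2 * n / 64 * ((n : ℝ) ^ s2 * y ^ 2) ^ 2 =
        b ^ 2 / 64 * (n * ((n : ℝ) ^ s2) ^ 2 * y ^ 6) := by ring
    have e2 : n * ((n : ℝ) ^ s2) ^ 2 = (n : ℝ) ^ (1 + s1) * (n : ℝ) ^ (2 * s2 - s1) := by
      rw [← Real.rpow_natCast, ← Real.rpow_mul hn0.le, ← Real.rpow_add hn0]
      nth_rewrite 1 [← Real.rpow_one (n : ℝ)]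
      rw [← Real.rpow_add hn0]
      congr 1
      push_cast
      ring
    rw [e1, e2]
    have h6 : 3 ≤ b ^ 2 / 64 * (n : ℝ) ^ (2 * s2 - s1) := by
      rw [div_le_iff₀ (by positivity)] at g3
      linarith
    have h7 := mul_le_mul_of_nonneg_right h6
      (show 0 ≤ (n : ℝ) ^ (1 + s1) * y ^ 6 by positivity)
    rw [hG]
    linarith
  have key : ∀ q : ℝ, y ^ 2 * b ^ 2 * (1 - t) * n / 4 * (U / 4) ^ 2 ≤ q →
      Real.exp (gn ⟨n, b, vp, s, lam, η, cc n b s a, y⟩ t u + 1 - q) ≤ (n : ℝ) ^ (-D) := by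
    intro q hq
    rw [Real.rpow_def_of_pos hn0]
    refine Real.exp_le_exp.2 ?_
    have h8 : -|D| * Real.log n ≤ Real.log n * -D := by
      have := le_abs_self D
      nlinarith
    have h9 : (1 + |D|) * (1 + Real.log n) = 1 + |D| + Real.log n + |D| * Real.log n := by ring
    have h10 : 0 ≤ |D| := abs_nonneg D
    nlinarith
  have hc : 0 ≤ y ^ 2 * b ^ 2 * (1 - t) * n / 4 := by positivity
  have hl : 0 < lam := by linarith [h.lam1]
  have hnn : 0 < n := by omega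
  have hηη : (1 + η) ^ 2 ≤ 4 := by nlinarith [h.η0, h.η1]
  refine ⟨?_, ?_, ?_⟩
  · refine (tail_CC (L := ⟨n, b, vp, s, lam, η, cc n b s a, y⟩) hl h.η0.le hy0 hnn ht0 ht1.le hyb
      S u (U ^ 2)).trans (key _ ?_)
    show _ ≤ y ^ 2 * b ^ 2 * (1 - t) * n / 4 * U ^ 2
    refine mul_le_mul_of_nonneg_left ?_ hc
    nlinarith
  · have h5 := tail_Q' (L := ⟨n, b, vp, s, lam, η, cc n b s a, y⟩) hl h.η0.le hy0 hnn ht0 ht1.le
      hyb S u (show 0 ≤ U / (1 + η) ^ 2 by have := h.η0; positivity)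
    have e1 : (1 + η) ^ 2 * (U / (1 + η) ^ 2) = U := by
      have := h.η0
      field_simp
    rw [show (1 + (⟨n, b, vp, s, lam, η, cc n b s a, y⟩ : Law).η) ^ 2 *
      (U / (1 + η) ^ 2) = U from e1] at h5
    refine h5.trans (key _ ?_)
    show _ ≤ y ^ 2 * b ^ 2 * (1 - t) * n / 4 * (U / (1 + η) ^ 2) ^ 2
    refine mul_le_mul_of_nonneg_left (pow_le_pow_left₀ (by positivity) ?_ 2) hc
    have := h.η0
    gcongr
  · refine (tail_Q0 (L := ⟨n, b, vp, s, lam, η, cc n b s a, y⟩) hl h.η0.le hy0 hnn ht0 ht1.le hyb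
      S u hU).trans (key _ ?_)
    show _ ≤ y ^ 2 * b ^ 2 * (1 - t) * n / 4 * U ^ 2
    refine mul_le_mul_of_nonneg_left ?_ hc
    nlinarith

end Vale.Agent.P146.H412
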