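import Vale.Agent.P146.H412.MomU
import Vale.Agent.P146.H698.KgridU
import Vale.Agent.P146.H516.Ap2

/-!
A-priori sizes of `L.rrg`, `L.ffg`, `L.fag` (modulated field revealed at any share `g`), in terms of
the gain, and eventually.
-/

open MeasureTheory ProbabilityTheory Filter Topology Set

namespace Vale.Agent.P146.H412.U

open Vale.Agent.P157.Lv hiding Dep
open Vale.Agent.P146.H425 Vale.Agent.P146.H332 Vale.Agent.P146.H646
open Vale.Agent.P146.H196 Vale.Agent.P146.H246 Vale.Agent.P146.H347 Vale.Agent.P146.H325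
  Vale.Agent.P146.H816 Vale.Agent.P146.H475 Vale.Agent.P146.H9 Vale.Agent.P146.H281.U
  Vale.Agent.P146.H698 Vale.Agent.P146.H698.Br Vale.Agent.P146.H412 Vale.Agent.P146.H412.G
  Vale.Agent.P146.H529 Vale.Agent.P146.H463 Vale.Agent.P146.H418 Vale.Agent.P146.H317
  Vale.Agent.P146.H615
open Vale.Agent.P146.H9.U hiding lvlU

/-- the block with the modulated field revealed contains no hidden bond -/
lemma disj_gs {n : ℕ} {LB LF : Type} [Fintype LB] [DecidableEq LB] [Fintype LF] [DecidableEq LF]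
    {BL BL1 : Finset LB} (h : Disjoint BL BL1) (S : Finset (Fin n)) (FL : Finset LF) (g : Bool) :
    Disjoint (Br.Kgs S BL FL g) (Bst LF S BL1) := by
  rw [Finset.disjoint_left]
  intro e he he'
  rcases e with (⟨p, l⟩ | ⟨j, l⟩) | j
  · rw [bd_memKg] at he
    rw [bd_memB] at he'
    exact Finset.disjoint_left.1 h he.2 he'.2
  · exact fd_memB j l he'
  · exact gd_memB j he'

lemma shb {t : ℝ} (h : 0 ≤ t) : ∑ l ∈ {true}, H418.cb t l ^ 2 = t := by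
  simp [H418.cb, Real.sq_sqrt h]

lemma shf {v u : ℝ} (hv : 0 ≤ v) (h : 0 ≤ u) : ∑ l ∈ {true}, H418.cf v u l ^ 2 = u * v := by
  simp [H418.cf, H418.cb, mul_pow, Real.sq_sqrt h, Real.sq_sqrt hv, mul_comm]

/-- the mean is at most the root of the mean of the square -/
lemma eG_sqrt {n : ℕ} {LB LF : Type} [Fintype LB] [DecidableEq LB] [Fintype LF] [DecidableEq LF]
    {Ω : Type} [MeasurableSpace Ω] {μ : Measure Ω} {E : Co n LB LF → Ω → ℝ} {M0 x B : ℝ}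
    (hG : GM μ E M0) {f : (Co n LB LF → ℝ) → ℝ} (hf : BM f)
    (h : eG μ E x (fun z => f z ^ 2) ≤ B) : eG μ E x f ≤ √B :=
  Real.le_sqrt_of_sq_le ((Wt.ex_sq_le (hG.wt 1 x) hf).trans h)

section num

variable (L : Law) {t u g G : ℝ}

variable (hl : 0 < L.lam) (hη : 0 ≤ L.η) (hη1 : L.η ≤ 1) (hv : 0 < L.vp) (hs : 0 < L.s)
  (hx : 0 < L.x) (hn : 0 < L.n) (hb : L.b ≠ 0) (hxb : L.x ^ 2 * L.b ^ 2 ≤ 4)
  (ht0 : 0 ≤ t) (ht1 : t < 1) (hu0 : 0 ≤ u) (hu1 : u ≤ 1) (hg0 : 0 ≤ g) (hg1 : g ≤ 1)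
  (hG : gn L t u ≤ G) (hG1 : 1 ≤ G)

/-- the number which bounds the two-spin number -/
noncomputable def c1n (L : Law) (t G : ℝ) : ℝ := 12 * G / (L.x ^ 2 * L.b ^ 2 * (1 - t) * L.n)

include hl hη hx hn hb hxb ht0 ht1 hG hG1 in
/-- the two-spin number, the modulated field revealed -/
lemma ccg_one (S : Finset (Fin L.n)) (k : Bool) :
    eG (muA (Xs L.n) L.lam L.η L.c) (Sm L.b (H418.cb t) (H418.cf L.vp u) L.s L.η) L.x
      (CCg (muA (Xs L.n) L.lam L.η L.c) (Sm L.b (H418.cb t) (H418.cf L.vp u) L.s L.η) L.x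
        Prod.snd (Br.Kgs S {true} {true} k) S) ≤ c1n L t G := by
  obtain ⟨M0, hM⟩ := gm_sk (n := L.n) hl hη L.c L.b (H418.cb t) (H418.cf L.vp u) L.s
  have h1 := mom_num (S := S) (K := Br.Kgs S {true} {true} k) (BL1 := {false}) (T := 1 - t)
    (cB := H418.cb t) hM measurable_snd (fun _ _ => rfl) hx hn hb (disj_gs dj S {true} k)
    (by simp [H418.cb, Real.sq_sqrt (show 0 ≤ 1 - t by linarith)]) (by linarith) (by linarith)
    hxb hG hG1 1
  simp only [pow_one] at h1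
  refine h1.trans (le_of_eq ?_)
  unfold c1n Cp
  norm_num
  ring

include hl hη hv hs hx hn hb hxb ht0 ht1 hu0 hu1 hg0 hg1 hG hG1 in
/-- **The pairs, the modulated field revealed at the share `g`.** -/
theorem rrg_num (S : Finset (Fin L.n)) : L.rrg S t u g ≤ c1n L t G := by
  obtain ⟨M0, hM⟩ := gm_sk (n := L.n) hl hη L.c L.b (H418.cb t) (H418.cf L.vp u) L.s
  have hn0 : (0 : ℝ) < L.n := by exact_mod_cast hn
  refine (rrg_mono L hl hη hv.le (Finset.Subset.refl S) ht0 le_rfl ht1.le hu0 le_rfl hu1 hg0 hg1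
    le_rfl).trans ((?_ : L.rrg S t u 1 ≤ _).trans
      (ccg_one L hl hη hx hn hb hxb ht0 ht1 hG hG1 S true))
  have h4 : H119.Q2 L.n L.b (H418.cb t) (H418.cf L.vp u) L.s L.lam L.η L.c L.x S
      (Br.Kgs S {true} {true} true) = L.ppg S t u 1 :=
    Q2_gcan L hl hη hv hs (sum_cb ht0 ht1.le) (sum_cf hv.le hu0 hu1) (shf hv.le hu0)
      (shb ht0) ht0 ht1.le hu0 hu1 true S
  unfold Law.rrg
  rw [← h4]
  have hw : Wt (gs (Co L.n Bool Bool)) (Zxm (muA (Xs L.n) L.lam L.η L.c) 1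
    (Sm L.b (H418.cb t) (H418.cf L.vp u) L.s L.η) L.x) := hM.wt 1 L.x
  have hb1 : BM fun z => ∑ p ∈ prs S, cG (muA (Xs L.n) L.lam L.η L.c)
      (Sm L.b (H418.cb t) (H418.cf L.vp u) L.s L.η) L.x (Br.Kgs S {true} {true} true)
      (fun w => SkS p w.2) z ^ 2 :=
    bm_sum_sq _ fun p _ => hw.bm_cx _ ((av_gm hM 1).bm (H347.bm_SkS p))
  have e1 : 2 * H119.Q2 L.n L.b (H418.cb t) (H418.cf L.vp u) L.s L.lam L.η L.c L.x S
      (Br.Kgs S {true} {true} true) / (L.n : ℝ) ^ 2 =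
      eG (muA (Xs L.n) L.lam L.η L.c) (Sm L.b (H418.cb t) (H418.cf L.vp u) L.s L.η) L.x
        fun z => 2 / (L.n : ℝ) ^ 2 * ∑ p ∈ prs S, cG (muA (Xs L.n) L.lam L.η L.c)
        (Sm L.b (H418.cb t) (H418.cf L.vp u) L.s L.η) L.x (Br.Kgs S {true} {true} true)
        (fun w => SkS p w.2) z ^ 2 := by
    rw [mul_div_right_comm]
    exact (H615.ex_cmul _ _).symm
  rw [e1]
  refine ex_mono hw (bcm _ hb1) (bm_CCg hM measurable_snd _ S) fun z => ?_
  unfold CCg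
  rw [F2_prs hM]
  rw [div_mul_eq_mul_div]
  gcongr
  have : (0 : ℝ) ≤ S.card := Nat.cast_nonneg _
  linarith

include hl hη hx hn hb hxb ht0 ht1 hG hG1 in
/-- the mean square of the magnetisations weighted with `h` -/
lemma qg_one (S : Finset (Fin L.n)) (k : Bool) {h : ℝ × Xs L.n → ℝ} (hh : Bd h) {C : ℝ}
    (hC : ∀ w, |h w| ≤ C) :
    eG (muA (Xs L.n) L.lam L.η L.c) (Sm L.b (H418.cb t) (H418.cf L.vp u) L.s L.η) L.x
      (Qg (muA (Xs L.n) L.lam L.η L.c) (Sm L.b (H418.cb t) (H418.cf L.vp u) L.s L.η) L.x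
        Prod.snd h (Br.Kgs S {true} {true} k) S) ≤ C ^ 2 * √(c1n L t G) := by
  obtain ⟨M0, hM⟩ := gm_sk (n := L.n) hl hη L.c L.b (H418.cb t) (H418.cf L.vp u) L.s
  have h1 := mom_Qg (x := L.x) hM measurable_snd hn hh hC (Br.Kgs S {true} {true} k) S 1
  simp only [pow_one, mul_one] at h1
  have h2 := ccg_one L hl hη hx hn hb hxb ht0 ht1 hG hG1 S k
  have h3 := eG_sqrt hM (bm_Qg hM measurable_snd hh (Br.Kgs S {true} {true} k) S)
    (h1.trans (mul_le_mul_of_nonneg_left h2 (by positivity)))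
  refine h3.trans (le_of_eq ?_)
  rw [Real.sqrt_mul (by positivity), show C ^ 4 = (C ^ 2) ^ 2 by ring,
    Real.sqrt_sq (by positivity)]

include hl hη hv hs hx hn hb hxb ht0 ht1 hu0 hu1 hg0 hg1 hG hG1 in
/-- **The sites, the modulated field revealed at the share `g`.** -/
theorem ffg_num (S : Finset (Fin L.n)) : L.ffg S t u g ≤ L.n * √(c1n L t G) := by
  have hn0 : (0 : ℝ) < L.n := by exact_mod_cast hn
  refine (ffg_mono L hl hη hv.le (Finset.Subset.refl S) ht0 le_rfl ht1.le hu0 le_rfl hu1 hg0 hg1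
    le_rfl).trans ?_
  have h4 : H119.Q1 L.n L.b (H418.cb t) (H418.cf L.vp u) L.s L.lam L.η L.c L.x S
      (Br.Kgs S {true} {true} true) = L.ffg S t u 1 :=
    Q1_gcan L hl hη hv hs (sum_cb ht0 ht1.le) (sum_cf hv.le hu0 hu1) (shf hv.le hu0)
      (shb ht0) ht0 ht1.le hu0 hu1 true S
  rw [← h4]
  have h5 := qg_one L hl hη hx hn hb hxb ht0 ht1 hG hG1 S true (h := fun _ => 1)
    (Bd.const 1) (C := 1) (fun _ => by norm_num)
  rw [one_pow, one_mul] at h5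
  refine le_trans (le_of_eq ?_) (mul_le_mul_of_nonneg_left h5 hn0.le)
  rw [← H615.ex_cmul]
  unfold H119.Q1 Qg
  congr 1
  funext z
  rw [mul_div_cancel₀ _ hn0.ne']
  simp only [one_mul]
  rfl

include hl hη hη1 hv hs hx hn hb hxb ht0 ht1 hu0 hu1 hg0 hg1 hG hG1 in
/-- **The sites with the amplitude, the modulated field revealed at the share `g`.** -/
theorem fag_num (S : Finset (Fin L.n)) : L.fag S t u g ≤ L.n * (4 * √(c1n L t G)) := by
  have hn0 : (0 : ℝ) < L.n := by exact_mod_cast hn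
  refine (fag_mono L hl hη hv.le (Finset.Subset.refl S) ht0 le_rfl ht1.le hu0 le_rfl hu1 hg0 hg1
    le_rfl).trans ?_
  have h4 : H119.QG L.n L.b (H418.cb t) (H418.cf L.vp u) L.s L.lam L.η L.c L.x S
      (Br.Kgs S {true} {true} true) = L.fag S t u 1 :=
    QG_gcan L hl hη hv hs (sum_cb ht0 ht1.le) (sum_cf hv.le hu0 hu1) (shf hv.le hu0)
      (shb ht0) ht0 ht1.le hu0 hu1 true S
  rw [← h4]
  have h5 := qg_one L hl hη hx hn hb hxb ht0 ht1 hG hG1 S true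
    (h := fun w => al L.η w.1) (bm_of_al hη) (C := 2)
    (fun w => (H119.abs_al_le' hη w.1).trans (by linarith))
  rw [show (2 : ℝ) ^ 2 = 4 by norm_num] at h5
  refine le_trans (le_of_eq ?_) (mul_le_mul_of_nonneg_left h5 hn0.le)
  rw [← H615.ex_cmul]
  unfold H119.QG Qg
  congr 1
  funext z
  rw [mul_div_cancel₀ _ hn0.ne']
  rfl

end num

/-- **The numbers with the modulated field revealed at the share `g`, eventually.** -/
theorem q1g_ev {b e s0 s1 : ℝ} (hb : 0 < b) (he : 0 < e) (hs0 : 0 ≤ s0) (hs : s0 < s1) :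
    ∀ᶠ n : ℕ in atTop, ∀ (vp s lam η y V a : ℝ), H516.Par1 b s0 e n vp s lam η y V a → 0 < vp →
      y ^ 2 * b ^ 2 ≤ 4 → ∀ t : ℝ, 0 ≤ t → t < 1 → ∀ u ∈ Icc (0 : ℝ) 1, ∀ g ∈ Icc (0 : ℝ) 1,
      ∀ S : Finset (Fin n),
      Law.rrg ⟨n, b, vp, s, lam, η, cc n b s a, y⟩ S t u g ≤
        12 * ((n : ℝ) ^ s1 * y ^ 4) / (b ^ 2 * (1 - t)) ∧
      Law.ffg ⟨n, b, vp, s, lam, η, cc n b s a, y⟩ S t u g ≤
        n * √(12 * ((n : ℝ) ^ s1 * y ^ 4) / (b ^ 2 * (1 - t))) ∧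
      Law.fag ⟨n, b, vp, s, lam, η, cc n b s a, y⟩ S t u g ≤
        n * (4 * √(12 * ((n : ℝ) ^ s1 * y ^ 4) / (b ^ 2 * (1 - t)))) := by
  filter_upwards [H516.gn_ev1 hb he hs0 hs, eventually_ge_atTop 1] with n g1 g2
  intro vp s lam η y V a h hv hyb t ht0 ht1 u hu g hg S
  have hn1 : (1 : ℝ) ≤ n := by exact_mod_cast g2
  have hn0 : (0 : ℝ) < n := by linarith
  have hy0 : 0 < y := lt_of_lt_of_le (Real.rpow_pos_of_pos hn0 _) h.y0
  have hl : 0 < lam := by linarith [h.lam1]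
  have hgn := g1 vp s lam η y V a h t ⟨ht0, ht1.le⟩ u hu
  have hG1 : 1 ≤ (n : ℝ) ^ (1 + s1) * y ^ 6 :=
    (Real.one_le_rpow hn1 (by positivity)).trans (G_ge (by linarith) g2 h.y0)
  have e1 : c1n ⟨n, b, vp, s, lam, η, cc n b s a, y⟩ t ((n : ℝ) ^ (1 + s1) * y ^ 6) =
      12 * ((n : ℝ) ^ s1 * y ^ 4) / (b ^ 2 * (1 - t)) := by
    have ht : 0 < 1 - t := by linarith
    unfold c1n
    simp only
    rw [Real.rpow_add hn0, Real.rpow_one]
    field_simp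
  rw [← e1]
  have hn' : 0 < n := by omega
  exact ⟨rrg_num ⟨n, b, vp, s, lam, η, cc n b s a, y⟩ hl h.η0.le hv h.s0' hy0 hn'
      hb.ne' hyb ht0 ht1 hu.1 hu.2 hg.1 hg.2 hgn hG1 S,
    ffg_num ⟨n, b, vp, s, lam, η, cc n b s a, y⟩ hl h.η0.le hv h.s0' hy0 hn'
      hb.ne' hyb ht0 ht1 hu.1 hu.2 hg.1 hg.2 hgn hG1 S,
    fag_num ⟨n, b, vp, s, lam, η, cc n b s a, y⟩ hl h.η0.le h.η1.le hv h.s0' hy0 hn'
      hb.ne' hyb ht0 ht1 hu.1 hu.2 hg.1 hg.2 hgn hG1 S⟩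

end Vale.Agent.P146.H412.U
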