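import Vale.Agent.P146.H122.UpA
import Vale.Agent.P146.H698.KgridU
import Vale.Agent.P146.H412.Q1g

/-!
# P146: the upper bound of the relative entropy, the modulated field revealed at the near end

* `KEg`, `kupU2`, `kupU_typ`: `H698.kupU` and `H197.kamp_up5` composed;
* `N7g`: the near end; `end_numU`: the numbers at the two ends of the path;
* `kup_kwU`: the upper bound of the relative entropy on the window of the data, second choice.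
-/

open MeasureTheory ProbabilityTheory Filter Topology Set

namespace Vale.Agent.P146.H412.U

open Vale.Agent.P157.Lv hiding Dep
open Vale.Agent.P146.H425 Vale.Agent.P146.H646 Vale.Agent.P146.H317 Vale.Agent.P146.H418
  Vale.Agent.P146.H470 Vale.Agent.P146.H529 Vale.Agent.P146.H197

/-- the stage terms of the path, the modulated field revealed at the near end -/
noncomputable def KEg (L : Law) (δ u u' q0 q1 qa C1 X TN TN' : ℝ) : ℝ :=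
  2 / L.b ^ 2 * L.vp * (u * q0 + (δ + (u' - u)) * q1 + (1 - u')) +
    2 / L.b ^ 2 * (L.s ^ 2 * qa) + 2 * δ * C1 + 2 * X * Real.log (TN / TN') + TN'

section law

variable (L : Law) (hl : 0 < L.lam) (hη : 0 ≤ L.η) (hv : 0 < L.vp) (hs : 0 < L.s) (hx : 0 < L.x)
  (hb : L.b ≠ 0) (hn : 0 < L.n)
include hl hη hv hs hx hb hn

/-- **The upper bound of the relative entropy of one law.** -/
theorem kupU2 {h u u' q0 q1 qa C1 X c a w e T₂ T₃ R E1 W2 W3 : ℝ} {N N' : ℕ}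
    (S : Finset (Fin L.n))
    (hh : 0 < h) (hh4 : h ≤ 1 / 4) (h0 : 0 ≤ u) (hu : u ≤ u') (hu1 : u' ≤ 1) (hN : N ≤ N')
    (hX0 : 0 ≤ X)
    (hq0 : L.ff S 0 u ≤ L.n * q0) (hq1 : L.ffg Finset.univ (1 - gg h N) u' 1 ≤ L.n * q1)
    (hqa : L.fag Finset.univ (1 - gg h N) u' 1 ≤ L.n * qa)
    (hC1 : L.rrg Finset.univ (1 - gg h N) u' 1 ≤ C1)
    (hX : ∀ T ∈ Icc (gg h N') (gg h N), T * L.rrg Finset.univ (1 - T) u' 1 ≤ X)
    (hc : 0 < c) (hw : 0 < w) (ha : 0 ≤ a) (he : 0 ≤ e) (hE1 : 0 ≤ E1) (hW2 : 0 ≤ W2)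
    (hW3 : 0 ≤ W3) (hNT : gg h (N + 1) ≤ T₂) (h23 : T₂ ≤ T₃) (h3 : T₃ ≤ 1)
    (hR : rho ((1 - h) * c) ((1 + h) * a + e) ((1 + h) * w) 0 ≤ R)
    (h1 : ∀ T ∈ Icc (gg h (N + 1)) T₂, ∃ T' ∈ Icc (T / (1 + h)) T,
      L.rr S (1 - T') u ≤ rho ((1 - h) * c) ((1 + h) * a + e) ((1 + h) * w) T' ^ 2 + E1)
    (h2 : ∀ T ∈ Icc T₂ T₃, ∃ T' ∈ Icc (T / (1 + h)) T,
      L.rr S (1 - T') u ≤ W2 / T' ^ 2 + W3 / T') :
    L.KA ≤ L.n * L.x ^ 2 * L.b ^ 2 / 4 * (J c a w + (7 * h * (w * R + c * R ^ 3) +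
      3 * (h * a + e) * R ^ 2 + 3 * T₂ * E1 +
      (4 * (W2 / T₂ + W2 / T₃ ^ 2) + 4 * W3 * (Real.log (T₃ / T₂) + 1 / T₃)) +
      KEg L (((L.n : ℝ) - S.card) / L.n) u u' q0 q1 qa C1 X (gg h N) (gg h N'))) := by
  have hK := H698.kupU L hl hη hx hv hs hb hn hh (by linarith) h0 hu hu1 hN S hX0 hq0 hq1 hqa
    hC1 hX
  exact kamp_up5 (r := fun T => L.rr S (1 - T) u) (by positivity) hc hw ha hh.le hh4 he hE1 hW2
    hW3 hNT h23 h3 hR (rr_anti' L hl hη hv S h0 (hu.trans hu1))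
    (fun T _ => rr_nonneg L hl hη S _ _) hK h1 h2

/-- `kupU2` with the root equation at one point `(T', u'', m)` of every window, `m ≤ m2`
hidden sites and the field share `u'' ∈ [u, u1]`. -/
theorem kupU_typ {h u u1 u' q0 q1 qa C1 X c a w e T₂ T₃ R E1 W2 W3 : ℝ} {N N' m2 : ℕ}
    (hm2 : m2 ≤ L.n)
    (hh : 0 < h) (hh4 : h ≤ 1 / 4) (h0 : 0 ≤ u) (hu : u ≤ u') (hu1 : u' ≤ 1) (hu11 : u1 ≤ 1)
    (hN : N ≤ N') (hX0 : 0 ≤ X)
    (hq0 : L.ff (Sn L.n m2) 0 u ≤ L.n * q0)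
    (hq1 : L.ffg Finset.univ (1 - gg h N) u' 1 ≤ L.n * q1)
    (hqa : L.fag Finset.univ (1 - gg h N) u' 1 ≤ L.n * qa)
    (hC1 : L.rrg Finset.univ (1 - gg h N) u' 1 ≤ C1)
    (hX : ∀ T ∈ Icc (gg h N') (gg h N), T * L.rrg Finset.univ (1 - T) u' 1 ≤ X)
    (hc : 0 < c) (hw : 0 < w) (ha : 0 ≤ a) (he : 0 ≤ e) (hE1 : 0 ≤ E1) (hW2 : 0 ≤ W2)
    (hW3 : 0 ≤ W3) (hNT : gg h (N + 1) ≤ T₂) (h23 : T₂ ≤ T₃) (h3 : T₃ ≤ 1)
    (hR : rho ((1 - h) * c) ((1 + h) * a + e) ((1 + h) * w) 0 ≤ R)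
    (h1 : ∀ T ∈ Icc (gg h (N + 1)) T₂, ∃ T' ∈ Icc (T / (1 + h)) T, ∃ u'' ∈ Icc u u1, ∃ m ≤ m2,
      L.rr (Sn L.n m) (1 - T') u'' ≤
        rho ((1 - h) * c) ((1 + h) * a + e) ((1 + h) * w) T' ^ 2 + E1)
    (h2 : ∀ T ∈ Icc T₂ T₃, ∃ T' ∈ Icc (T / (1 + h)) T, ∃ u'' ∈ Icc u u1, ∃ m ≤ m2,
      L.rr (Sn L.n m) (1 - T') u'' ≤ W2 / T' ^ 2 + W3 / T') :
    L.KA ≤ L.n * L.x ^ 2 * L.b ^ 2 / 4 * (J c a w + (7 * h * (w * R + c * R ^ 3) +
      3 * (h * a + e) * R ^ 2 + 3 * T₂ * E1 +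
      (4 * (W2 / T₂ + W2 / T₃ ^ 2) + 4 * W3 * (Real.log (T₃ / T₂) + 1 / T₃)) +
      KEg L (m2 / L.n) u u' q0 q1 qa C1 X (gg h N) (gg h N'))) := by
  have hT0 : 0 < gg h (N + 1) := gg_pos hh.le _
  have key : ∀ T, gg h (N + 1) ≤ T → T ≤ 1 → ∀ T' ∈ Icc (T / (1 + h)) T, ∀ u'' ∈ Icc u u1,
      ∀ m ≤ m2, L.rr (Sn L.n m2) (1 - T') u ≤ L.rr (Sn L.n m) (1 - T') u'' := by
    intro T hT hT1 T' hT' u'' hu'' m hm
    have hTp : 0 < T := hT0.trans_le hT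
    have hT'0 : 0 < T' := lt_of_lt_of_le (by positivity) hT'.1
    exact rr_mono L hl hη hv (Sn_anti' hm) (by linarith [hT'.2]) le_rfl (by linarith) h0
      hu''.1 (hu''.2.trans hu11)
  have hcard : ((L.n : ℝ) - (Sn L.n m2).card) / L.n = m2 / L.n := by
    rw [card_Sn' hm2]
    congr 1
    ring
  have k := kupU2 L hl hη hv hs hx hb hn (S := Sn L.n m2) (h := h) (u := u) (u' := u') (q0 := q0)
    (q1 := q1) (qa := qa) (C1 := C1) (X := X) (c := c) (a := a) (w := w) (e := e) (T₂ := T₂)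
    (T₃ := T₃) (R := R) (E1 := E1) (W2 := W2) (W3 := W3) (N := N) (N' := N') hh hh4 h0 hu hu1 hN
    hX0 hq0 hq1 hqa hC1 hX hc hw ha he hE1 hW2 hW3 hNT h23 h3 hR ?_ ?_
  · rw [hcard] at k
    exact k
  · intro T hT
    obtain ⟨T', hT', u'', hu'', m, hm, hr⟩ := h1 T hT
    exact ⟨T', hT', (key T hT.1 (hT.2.trans (h23.trans h3)) T' hT' u'' hu'' m hm).trans hr⟩
  · intro T hT
    obtain ⟨T', hT', u'', hu'', m, hm, hr⟩ := h2 T hT
    exact ⟨T', hT', (key T (hNT.trans hT.1) (hT.2.trans h3) T' hT' u'' hu'' m hm).trans hr⟩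

end law

/-! ### on the window of the data -/

/-- **near end**, all of the modulated field revealed -/
def N7g (q b : ℝ) (n : ℕ) (y V al s lam η : ℝ) : Prop :=
  ∀ T ∈ Icc ((n : ℝ) ^ (-(37 * q)) * y ^ 4) (H122.T1 q n y),
    T * (lawOf n b y V al s lam η).rrg Finset.univ (1 - T) (H122.uN q n y (V - s ^ 2)) 1 ≤
      (n : ℝ) ^ (-(37 * q)) * y ^ 4

/-- the a-priori numbers with the modulated field revealed, on the window of the data -/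
theorem apr_g {a0 b₁ q A b : ℝ} (hb : 0 < b) (hq : 0 < q) (ha6 : a0 ≤ 1 / 6)
    (hb1 : 100 * q ≤ b₁) (hA : 1 ≤ A) :
    ∀ᶠ n : ℕ in atTop, ∀ y V al s lam η : ℝ, KW a0 b₁ q A b n y V al s lam η →
      ∀ (S : Finset (Fin n)) (T u : ℝ), 0 < T → T ≤ 1 → u ∈ Icc (0 : ℝ) 1 →
        (lawOf n b y V al s lam η).rrg S (1 - T) u 1 ≤ (n : ℝ) ^ q * y ^ 4 / T ∧
        (lawOf n b y V al s lam η).ffg S (1 - T) u 1 ≤ n * √((n : ℝ) ^ q * y ^ 4 / T) ∧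
        (lawOf n b y V al s lam η).fag S (1 - T) u 1 ≤ n * (4 * √((n : ℝ) ^ q * y ^ 4 / T)) := by
  filter_upwards [H122.apr_CC hb hq ha6 hb1 hA,
    q1g_ev (s0 := q / 2) (s1 := 3 * q / 4) (e := 500 * q) hb (by positivity) (by positivity)
      (by linarith),
    ev_pow (show 0 < q / 4 by positivity) (12 / b ^ 2) 0] with n g1 g2 g3
  intro y V al s lam η hK S T u hT0 hT1 hu
  rw [pow_zero, mul_one] at g3
  obtain ⟨hE, W, -, -⟩ := g1 y V al s lam η hK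
  have n0 : (0 : ℝ) < n := hE.n0
  obtain ⟨h1, h2, h3⟩ := g2 (V - s ^ 2) s lam η y V al (H122.par_of hK W) W.vp0
    (H122.yb_le hb W) (1 - T) (by linarith) (by linarith) u hu 1 ⟨zero_le_one, le_rfl⟩ S
  rw [sub_sub_cancel] at h1 h2 h3
  have e2 : (n : ℝ) ^ q = (n : ℝ) ^ (q / 4) * (n : ℝ) ^ (3 * q / 4) := by
    rw [← Real.rpow_add n0]
    congr 1
    ring
  have k : 12 * ((n : ℝ) ^ (3 * q / 4) * y ^ 4) / (b ^ 2 * T) ≤ (n : ℝ) ^ q * y ^ 4 / T := by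
    have e1 : 12 * ((n : ℝ) ^ (3 * q / 4) * y ^ 4) / (b ^ 2 * T) =
        12 / b ^ 2 * ((n : ℝ) ^ (3 * q / 4) * y ^ 4 / T) := by
      field_simp
    rw [e1, e2]
    refine (mul_le_mul_of_nonneg_right g3 (show 0 ≤ (n : ℝ) ^ (3 * q / 4) * y ^ 4 / T by
      positivity)).trans (le_of_eq ?_)
    ring
  have k' := Real.sqrt_le_sqrt k
  refine ⟨h1.trans k, h2.trans (mul_le_mul_of_nonneg_left k' n0.le),
    h3.trans (mul_le_mul_of_nonneg_left (by linarith) n0.le)⟩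

/-- the numbers at the near end of the path -/
lemma end_numU {q b : ℝ} {n : ℕ} {y V al s lam η : ℝ} (hq : 0 < q)
    (W : H122.WF q b n y V s lam η) (h2 : 2 ≤ (n : ℝ) ^ q) {TN u' : ℝ}
    (hCC : (lawOf n b y V al s lam η).rrg Finset.univ (1 - TN) u' 1 ≤ (n : ℝ) ^ q * y ^ 4 / TN ∧
        (lawOf n b y V al s lam η).ffg Finset.univ (1 - TN) u' 1 ≤
          n * √((n : ℝ) ^ q * y ^ 4 / TN) ∧
        (lawOf n b y V al s lam η).fag Finset.univ (1 - TN) u' 1 ≤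
          n * (4 * √((n : ℝ) ^ q * y ^ 4 / TN)))
    (hTN : H122.T1 q n y / 2 ≤ TN) (hTN0 : 0 < TN) :
    (lawOf n b y V al s lam η).ffg Finset.univ (1 - TN) u' 1 ≤ n * ((n : ℝ) ^ (37 * q) * y) ∧
    (lawOf n b y V al s lam η).fag Finset.univ (1 - TN) u' 1 ≤
      n * (4 * ((n : ℝ) ^ (37 * q) * y)) ∧
    (lawOf n b y V al s lam η).rrg Finset.univ (1 - TN) u' 1 ≤ (n : ℝ) ^ (72 * q) * y ^ 2 := by
  have n0 : (0 : ℝ) < n := by linarith [W.n1]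
  have y0 := W.y0
  have hS := H122.pow_T1 n0 h2 hTN hTN0
  have k : √((n : ℝ) ^ q * y ^ 4 / TN) ≤ (n : ℝ) ^ (37 * q) * y := by
    refine (Real.sqrt_le_sqrt hS).trans ?_
    refine Real.sqrt_le_iff.2 ⟨by positivity, ?_⟩
    have h2 : ((n : ℝ) ^ (37 * q) * y) ^ 2 = (n : ℝ) ^ (74 * q) * y ^ 2 := by
      rw [mul_pow, ← Real.rpow_natCast, ← Real.rpow_mul n0.le]
      congr 2
      push_cast
      ring
    rw [h2]
    refine mul_le_mul_of_nonneg_right ?_ (by positivity)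
    have hn1 := W.n1
    exact Real.rpow_le_rpow_of_exponent_le hn1.le (by linarith)
  exact ⟨hCC.2.1.trans (mul_le_mul_of_nonneg_left k n0.le),
    hCC.2.2.trans (mul_le_mul_of_nonneg_left (by linarith) n0.le), hCC.1.trans hS⟩

/-- the cost of the modulated field -/
lemma mod_cost {a0 b₁ q K b A : ℝ} {n : ℕ} {y V s : ℝ} (hC : H122.Cst q K b₁ b A)
    (h : Env a0 b₁ (24 * q) q K n y V) (hs2 : s ^ 2 ≤ (n : ℝ) ^ (-(80 * q)) * V) :
    s ^ 2 * (4 * ((n : ℝ) ^ (37 * q) * y)) ≤ (n : ℝ) ^ (-(37 * q)) * y ^ 4 := by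
  obtain ⟨b0, A1, qq0, qq1, K1⟩ := hC
  obtain ⟨n0, y0, V0, L1, qL, cst, ll, yl, yu, Vl, Vu⟩ := h
  have hA := Real.log_nonneg A1
  have hb1 := le_abs_self (Real.log b)
  have hb2 := neg_abs_le (Real.log b)
  have n4 := H122.log_num (show (1 : ℝ) ≤ 4 by norm_num)
  refine (mul_le_mul_of_nonneg_right hs2 (by positivity)).trans ?_
  refine le_of_log (by positivity) (by positivity) ?_
  simp (disch := positivity) only [Real.log_mul, Real.log_rpow, Real.log_pow]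
  push_cast
  linarith

/-- **The upper bound of the relative entropy on the window of the data**, second choice. -/
theorem kup_kwU {a0 b₁ q A b : ℝ} (hb : 0 < b) (hq : 0 < q) (ha6 : a0 ≤ 1 / 6)
    (hb1 : 100 * q ≤ b₁) (hA : 1 ≤ A) :
    ∀ᶠ n : ℕ in atTop, ∀ y V al s lam η a : ℝ, KW a0 b₁ q A b n y V al s lam η →
      0 < a → a ≤ A * ((n : ℝ) ^ (-(10 * q)) * y ^ 2) →
      H122.RowUp1 q b n y V al s lam η a → H122.RowUp2 q b n y V al s lam η →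
      N7g q b n y V al s lam η →
      (lawOf n b y V al s lam η).KA ≤ n * y ^ 2 * b ^ 2 / 4 * (J (b * y) (2 * a) (V / b ^ 2) +
        (n : ℝ) ^ (-(36 * q)) * y ^ 4) := by
  filter_upwards [H122.apr_CC hb hq ha6 hb1 hA, apr_g hb hq ha6 hb1 hA] with n g1 g2
  intro y V al s lam η a hK ha0 ha hr1 hr2 hN7
  obtain ⟨hE, W, g4, hCC⟩ := g1 y V al s lam η hK
  have hCg := g2 y V al s lam η hK
  have hC : H122.Cst q (4000 + 20 * |Real.log b| + 20 * Real.log A) b₁ b A :=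
    ⟨hb, hA, hq, hb1, le_rfl⟩
  have n0 : (0 : ℝ) < n := hE.n0
  have y0 := W.y0
  have hl : 0 < (lawOf n b y V al s lam η).lam := hK.l0
  have hη : 0 ≤ (lawOf n b y V al s lam η).η := hK.η0.le
  have hnn : 0 < (lawOf n b y V al s lam η).n := W.n0
  have h0 : 0 < H122.hh q n := W.h0
  obtain ⟨N, N', hNN, hN1, hTN, hTN1, hTN1', hN'1, hN'2⟩ := H122.levels W
  have hTN0 : 0 < gg (H122.hh q n) N := gg_pos h0.le _
  have hTNN : gg (H122.hh q n) N ≤ 1 := gg_le_one h0.le _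
  -- the shares
  have hw8 : (0 : ℝ) < (n : ℝ) ^ (-(80 * q)) := Real.rpow_pos_of_pos n0 _
  have hu00 : 0 ≤ H122.u0 q n := by unfold H122.u0; linarith [W.w8]
  have hzv : (n : ℝ) ^ (-(37 * q)) * y ^ 4 / (V - s ^ 2) ≤ 2 * (n : ℝ) ^ (-(80 * q)) := by
    rw [div_le_iff₀ W.vp0]
    exact W.z2
  have hzv0 : 0 ≤ (n : ℝ) ^ (-(37 * q)) * y ^ 4 / (V - s ^ 2) :=
    div_nonneg (by positivity) W.vp0.le
  have huu : H122.u0 q n ≤ H122.uN q n y (V - s ^ 2) := by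
    unfold H122.u0 H122.uN
    linarith
  have huN1 : H122.uN q n y (V - s ^ 2) ≤ 1 := by
    unfold H122.uN
    linarith
  have hu11 : H122.u1 q n ≤ 1 := by unfold H122.u1; linarith
  have hudiff : H122.uN q n y (V - s ^ 2) - H122.u0 q n ≤ 2 * (n : ℝ) ^ (-(80 * q)) := by
    unfold H122.u0 H122.uN
    linarith
  have huv : (1 - H122.uN q n y (V - s ^ 2)) * (V - s ^ 2) = (n : ℝ) ^ (-(37 * q)) * y ^ 4 := by
    unfold H122.uN
    have := W.vp0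
    field_simp
    ring
  obtain ⟨hq0, -, -⟩ := H122.end_numbers (al := al) hq hK.l0 hK.η0.le W g4 hCC hTN hTN0 hTNN
    (u := H122.u0 q n) (u' := H122.uN q n y (V - s ^ 2)) ⟨hu00, huu.trans huN1⟩
    ⟨hu00.trans huu, huN1⟩ (Sn n (2 * H122.m1 q n y))
  obtain ⟨hq1, hqa, hC1⟩ := end_numU (al := al) hq W g4
    (hCg Finset.univ (gg (H122.hh q n) N) (H122.uN q n y (V - s ^ 2)) hTN0 hTNN
      ⟨hu00.trans huu, huN1⟩) hTN hTN0
  have hR := H122.R_up hC hE h0.le W.h4 ha0 ha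
  have key := kupU_typ (lawOf n b y V al s lam η) hl hη (show 0 < V - s ^ 2 from W.vp0)
    (show 0 < s from hK.s0) (show 0 < y from y0)
    (show b ≠ 0 from hb.ne') hnn (h := H122.hh q n) (u := H122.u0 q n) (u1 := H122.u1 q n)
    (u' := H122.uN q n y (V - s ^ 2)) (q0 := (n : ℝ) ^ q * y ^ 2) (q1 := (n : ℝ) ^ (37 * q) * y)
    (qa := 4 * ((n : ℝ) ^ (37 * q) * y))
    (C1 := (n : ℝ) ^ (72 * q) * y ^ 2) (X := (n : ℝ) ^ (-(37 * q)) * y ^ 4) (c := b * y)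
    (a := 2 * a) (w := V / b ^ 2)
    (e := 0) (T₂ := H122.T2 q n y) (T₃ := 1 / 2) (R := (n : ℝ) ^ (-(49 / 5 * q)) * y)
    (E1 := (n : ℝ) ^ (-(67 * q)) * y ^ 2) (W2 := (n : ℝ) ^ (-(7 * q)) * y ^ 6)
    (W3 := (n : ℝ) ^ (-(37 * q)) * y ^ 4) (N := N) (N' := N') (m2 := 2 * H122.m1 q n y)
    W.m2'.le h0 W.h4 hu00 huu huN1 hu11 hNN (by positivity) hq0 hq1 hqa hC1
    (fun T hT => hN7 T ⟨hN'1.trans hT.1, hT.2.trans hN1⟩)
    (mul_pos hb y0) (div_pos hE.V0 (by positivity)) (by positivity) le_rfl (by positivity)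
    (by positivity) (by positivity) hTN1 (by linarith [W.T21]) (by norm_num)
    (by rw [add_zero]; exact hR)
    (fun T hT => by
      obtain ⟨T', hT', u, hu, m, hm, hr⟩ := hr1 T ⟨hTN1'.trans hT.1, hT.2⟩
      exact ⟨T', hT', u, hu, m, hm, by rw [add_zero]; exact hr⟩)
    (fun T hT => hr2 T hT)
  have hcost := mod_cost hC hE hK.s2
  have hsq : √(s ^ 2 * (4 * ((n : ℝ) ^ (37 * q) * y))) ^ 2 =
      s ^ 2 * (4 * ((n : ℝ) ^ (37 * q) * y)) := Real.sq_sqrt (by positivity)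
  have hfin := H122.err_sum (s := √(s ^ 2 * (4 * ((n : ℝ) ^ (37 * q) * y)))) (η := 0) hC hE ha6
    ha0 ha (vp := V - s ^ 2) (by linarith [sq_nonneg s]) W.vp0.le
    (by rw [hsq]; exact hcost) le_rfl zero_le_one (by positivity) W.m2 hu00 (huu.trans huN1)
    (by linarith) hudiff huv hN1 hTN0 hN'1 hN'2
  rw [hsq, show (1 + (0 : ℝ)) ^ 2 = 1 by norm_num, mul_one] at hfin
  refine (show (lawOf n b y V al s lam η).KA ≤ n * y ^ 2 * b ^ 2 / 4 * _ from key).trans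
    (mul_le_mul_of_nonneg_left ?_ (by positivity))
  exact add_le_add le_rfl hfin

end Vale.Agent.P146.H412.U
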