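import Vale.Agent.P146.H347.Mod5

/-!
The sums `∑ L (s_i s_j)²` and `∑ L (s_i s_j s_k s_l)²` over the sites of `S`, for a functional `L`
with `L 1 = 1`, in terms of the pairs inside `S`; the fourth moment of the overlap against the
square of the second moment, with the covariances of the pairs as the error.
-/

namespace Vale.Agent.P146.H412

open Vale.Agent.P146.H325 Vale.Agent.P146.H347

variable {n : ℕ}

/-- the second moment of the overlap over `S` (times `n²`) -/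
def m2L (S : Finset (Fin n)) (L : (Xs n → ℝ) → ℝ) : ℝ :=
  ∑ i ∈ S, ∑ j ∈ S, L (fun σ => sp σ i * sp σ j) ^ 2

/-- the fourth moment of the overlap over `S` (times `n⁴`) -/
def m4L (S : Finset (Fin n)) (L : (Xs n → ℝ) → ℝ) : ℝ :=
  ∑ i ∈ S, ∑ j ∈ S, ∑ k ∈ S, ∑ l ∈ S, L (fun σ => sp σ i * sp σ j * (sp σ k * sp σ l)) ^ 2

/-- the covariance of two pairs -/
def cvL (L : (Xs n → ℝ) → ℝ) (p q : Pair n) : ℝ :=
  L (fun σ => SkS p σ * SkS q σ) - L (SkS p) * L (SkS q)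

/-- the sum of the squares of the covariances of the pairs inside `S` -/
def k4L (S : Finset (Fin n)) (L : (Xs n → ℝ) → ℝ) : ℝ :=
  ∑ p ∈ Pin S, ∑ q ∈ Pin S, cvL L p q ^ 2

variable {L : (Xs n → ℝ) → ℝ} {S : Finset (Fin n)}

lemma k4L_nonneg : 0 ≤ k4L S L :=
  Finset.sum_nonneg fun _ _ => Finset.sum_nonneg fun _ _ => sq_nonneg _

lemma m2L_nonneg : 0 ≤ m2L S L :=
  Finset.sum_nonneg fun _ _ => Finset.sum_nonneg fun _ _ => sq_nonneg _

lemma m4L_nonneg : 0 ≤ m4L S L :=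
  Finset.sum_nonneg fun _ _ => Finset.sum_nonneg fun _ _ => Finset.sum_nonneg fun _ _ =>
    Finset.sum_nonneg fun _ _ => sq_nonneg _

/-- the second moment in terms of the pairs -/
theorem m2L_eq (h1 : L (fun _ => 1) = 1) :
    m2L S L = S.card + 2 * ∑ p ∈ Pin S, L (SkS p) ^ 2 := by
  unfold m2L
  rw [sum_prs_in S (fun i j => L (fun σ => sp σ i * sp σ j) ^ 2) fun i j => by
    have : (fun σ : Xs n => sp σ i * sp σ j) = fun σ => sp σ j * sp σ i := by
      funext σ; ring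
    rw [this]]
  congr 1
  have : ∀ i : Fin n, L (fun σ => sp σ i * sp σ i) ^ 2 = 1 := by
    intro i
    have : (fun σ : Xs n => sp σ i * sp σ i) = fun _ => 1 := by
      funext σ; exact sp_mul_self σ i
    rw [this, h1, one_pow]
  simp only [this, Finset.sum_const, nsmul_eq_mul, mul_one]

/-- the inner sum of the fourth moment -/
lemma inner_eq (f : Xs n → ℝ) : ∑ k ∈ S, ∑ l ∈ S, L (fun σ => f σ * (sp σ k * sp σ l)) ^ 2 =
    S.card * L f ^ 2 + 2 * ∑ q ∈ Pin S, L (fun σ => f σ * SkS q σ) ^ 2 := by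
  rw [sum_prs_in S (fun i j => L (fun σ => f σ * (sp σ i * sp σ j)) ^ 2) fun i j => by
    have : (fun σ : Xs n => f σ * (sp σ i * sp σ j)) = fun σ => f σ * (sp σ j * sp σ i) := by
      funext σ; ring
    rw [this]]
  congr 1
  have : ∀ i : Fin n, L (fun σ => f σ * (sp σ i * sp σ i)) ^ 2 = L f ^ 2 := by
    intro i
    have : (fun σ : Xs n => f σ * (sp σ i * sp σ i)) = f := by
      funext σ; rw [sp_mul_self, mul_one]
    rw [this]
  simp only [this, Finset.sum_const, nsmul_eq_mul]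

/-- the fourth moment in terms of the pairs -/
theorem m4L_eq (h1 : L (fun _ => 1) = 1) :
    m4L S L = (S.card : ℝ) ^ 2 + 4 * (S.card * ∑ p ∈ Pin S, L (SkS p) ^ 2) +
      4 * ∑ p ∈ Pin S, ∑ q ∈ Pin S, L (fun σ => SkS p σ * SkS q σ) ^ 2 := by
  unfold m4L
  have e1 : ∀ i j : Fin n, ∑ k ∈ S, ∑ l ∈ S,
      L (fun σ => sp σ i * sp σ j * (sp σ k * sp σ l)) ^ 2 =
      S.card * L (fun σ => sp σ i * sp σ j) ^ 2 +
        2 * ∑ q ∈ Pin S, L (fun σ => sp σ i * sp σ j * SkS q σ) ^ 2 := fun i j =>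
    inner_eq fun σ => sp σ i * sp σ j
  simp only [e1]
  rw [sum_prs_in S (fun i j => (S.card : ℝ) * L (fun σ => sp σ i * sp σ j) ^ 2 +
    2 * ∑ q ∈ Pin S, L (fun σ => sp σ i * sp σ j * SkS q σ) ^ 2) fun i j => by
    have : (fun σ : Xs n => sp σ i * sp σ j) = fun σ => sp σ j * sp σ i := by
      funext σ; ring
    rw [this]
    have h2 : ∀ q : Pair n, (fun σ : Xs n => sp σ i * sp σ j * SkS q σ) =
        fun σ => sp σ j * sp σ i * SkS q σ := by
      intro q; funext σ; ring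
    simp only [h2]]
  have e2 : ∀ i : Fin n, (S.card : ℝ) * L (fun σ => sp σ i * sp σ i) ^ 2 +
      2 * ∑ q ∈ Pin S, L (fun σ => sp σ i * sp σ i * SkS q σ) ^ 2 =
      S.card + 2 * ∑ q ∈ Pin S, L (SkS q) ^ 2 := by
    intro i
    have h2 : (fun σ : Xs n => sp σ i * sp σ i) = fun _ => 1 := by
      funext σ; exact sp_mul_self σ i
    have h3 : ∀ q : Pair n, (fun σ : Xs n => sp σ i * sp σ i * SkS q σ) = SkS q := by
      intro q; funext σ; rw [sp_mul_self, one_mul]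
    simp only [h3, h2, h1]
    ring
  simp only [e2, Finset.sum_const, nsmul_eq_mul]
  have e3 : ∑ p ∈ Pin S, ((S.card : ℝ) * L (fun σ => sp σ p.1.1 * sp σ p.1.2) ^ 2 +
      2 * ∑ q ∈ Pin S, L (fun σ => sp σ p.1.1 * sp σ p.1.2 * SkS q σ) ^ 2) =
      S.card * ∑ p ∈ Pin S, L (SkS p) ^ 2 +
        2 * ∑ p ∈ Pin S, ∑ q ∈ Pin S, L (fun σ => SkS p σ * SkS q σ) ^ 2 := by
    rw [Finset.sum_add_distrib, Finset.mul_sum, Finset.mul_sum]
    rfl
  rw [e3]
  ring

/-- **The fourth moment against the square of the second moment**, for any `θ > 0`. -/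
theorem m4L_le (h1 : L (fun _ => 1) = 1) {θ : ℝ} (hθ : 0 < θ) :
    m4L S L ≤ (1 + θ) * m2L S L ^ 2 + 4 * (1 + 1 / θ) * k4L S L := by
  rw [m4L_eq h1, m2L_eq h1]
  set X := ∑ p ∈ Pin S, L (SkS p) ^ 2 with hX
  have hX0 : 0 ≤ X := Finset.sum_nonneg fun _ _ => sq_nonneg _
  have hc0 : (0 : ℝ) ≤ S.card := Nat.cast_nonneg _
  have hXX : X ^ 2 = ∑ p ∈ Pin S, ∑ q ∈ Pin S, (L (SkS p) * L (SkS q)) ^ 2 := by
    rw [pow_two, hX, Finset.sum_mul_sum]
    exact Finset.sum_congr rfl fun p _ => Finset.sum_congr rfl fun q _ => by ring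
  have h2 : ∑ p ∈ Pin S, ∑ q ∈ Pin S, L (fun σ => SkS p σ * SkS q σ) ^ 2 ≤
      (1 + θ) * X ^ 2 + (1 + 1 / θ) * k4L S L := by
    rw [hXX]
    unfold k4L
    rw [Finset.mul_sum, Finset.mul_sum, ← Finset.sum_add_distrib]
    refine Finset.sum_le_sum fun p _ => ?_
    rw [Finset.mul_sum, Finset.mul_sum, ← Finset.sum_add_distrib]
    refine Finset.sum_le_sum fun q _ => ?_
    unfold cvL
    set u := L (fun σ => SkS p σ * SkS q σ) with hu
    set v := L (SkS p) * L (SkS q) with hv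
    have h3 : (1 + θ) * v ^ 2 + (1 + 1 / θ) * (u - v) ^ 2 - u ^ 2 =
        (θ * v - (u - v)) ^ 2 / θ := by
      field_simp
      ring
    have h4 : 0 ≤ (θ * v - (u - v)) ^ 2 / θ := by positivity
    linarith
  have h5 : 0 ≤ θ * ((S.card : ℝ) ^ 2 + 4 * (S.card * X)) := by positivity
  have h6 : (1 + θ) * ((S.card : ℝ) + 2 * X) ^ 2 =
      (1 + θ) * ((S.card : ℝ) ^ 2 + 4 * (S.card * X)) + 4 * ((1 + θ) * X ^ 2) := by ring
  rw [h6]
  linarith

/-- `Q4 ≤ 2 Q2² + k4` -/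
theorem m4L_le_two (h1 : L (fun _ => 1) = 1) :
    m4L S L ≤ 2 * m2L S L ^ 2 + 8 * k4L S L := by
  have h := m4L_le (S := S) h1 (θ := 1) one_pos
  norm_num at h
  linarith

/-- **The second moment against the square of `∑ M_i²`**, for any vector `M` and any `θ > 0`. -/
theorem m2L_le (M : Fin n → ℝ) {θ : ℝ} (hθ : 0 < θ) :
    m2L S L ≤ (1 + θ) * (∑ i ∈ S, M i ^ 2) ^ 2 +
      (1 + 1 / θ) * ∑ i ∈ S, ∑ j ∈ S, (L (fun σ => sp σ i * sp σ j) - M i * M j) ^ 2 := by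
  have hXX : (∑ i ∈ S, M i ^ 2) ^ 2 = ∑ i ∈ S, ∑ j ∈ S, (M i * M j) ^ 2 := by
    rw [pow_two, Finset.sum_mul_sum]
    exact Finset.sum_congr rfl fun p _ => Finset.sum_congr rfl fun q _ => by ring
  rw [hXX]
  unfold m2L
  rw [Finset.mul_sum, Finset.mul_sum, ← Finset.sum_add_distrib]
  refine Finset.sum_le_sum fun i _ => ?_
  rw [Finset.mul_sum, Finset.mul_sum, ← Finset.sum_add_distrib]
  refine Finset.sum_le_sum fun j _ => ?_
  set u := L (fun σ => sp σ i * sp σ j) with hu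
  set v := M i * M j with hv
  have h3 : (1 + θ) * v ^ 2 + (1 + 1 / θ) * (u - v) ^ 2 - u ^ 2 =
      (θ * v - (u - v)) ^ 2 / θ := by
    field_simp
    ring
  have h4 : 0 ≤ (θ * v - (u - v)) ^ 2 / θ := by positivity
  linarith

end Vale.Agent.P146.H412
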