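import Vale.Agent.P146.H412.MomSK
import Vale.Agent.P146.H412.K4
import Vale.Agent.P146.H317.C3Abs
import Vale.Agent.P146.H347.Mod6

/-!
A-priori sizes for the modulated SK law from the gain of the doubled exponent: exponential moments
of the hidden part of the squared gradient (bonds inside `S`, fields), tails and moments of the
second moment of the overlap at any revealed set `Kset S BL FL`.
-/

open MeasureTheory ProbabilityTheory

namespace Vale.Agent.P146.H412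

open Vale.Agent.P157.Lv Vale.Agent.P146.H425 Vale.Agent.P146.H646 Vale.Agent.P146.H196
  Vale.Agent.P146.H475 Vale.Agent.P146.H325 Vale.Agent.P146.H317 Vale.Agent.P146.H615

set_option linter.unusedSectionVars false

/-! ### generic -/

section gen

variable {ι : Type} [Fintype ι] [DecidableEq ι] {μ : ι → Measure ℝ}
  [∀ e, IsProbabilityMeasure (μ e)] {w f : (ι → ℝ) → ℝ}

/-- the exponential of a bounded function -/
lemma bm_exp {f : (ι → ℝ) → ℝ} (hf : BM f) (a : ℝ) : BM fun z => Real.exp (a * f z) := by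
  obtain ⟨C, hC⟩ := hf.bd
  refine ⟨(hf.meas.const_mul a).exp, Real.exp (|a| * C), fun z => ?_⟩
  rw [abs_of_pos (Real.exp_pos _)]
  refine Real.exp_le_exp.2 ((le_abs_self _).trans ?_)
  rw [abs_mul]
  exact mul_le_mul_of_nonneg_left (hC z) (abs_nonneg a)

/-- Markov with the exponential -/
theorem ex_ind_exp (hw : Wt μ w) (hf : BM f) {a g r : ℝ} (ha : 0 ≤ a)
    (h : ex μ w (fun z => Real.exp (a * f z)) ≤ Real.exp g) :
    ex μ w (ind r f) ≤ Real.exp (g - a * r) := by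
  have h1 : ex μ w (fun z => Real.exp (a * r) * ind r f z) ≤
      ex μ w (fun z => Real.exp (a * f z)) := by
    refine ex_mono hw (H615.bcm _ (bm_ind hf.meas r)) (bm_exp hf a) fun z => ?_
    unfold ind
    split_ifs with h2
    · rw [mul_one]
      exact Real.exp_le_exp.2 (mul_le_mul_of_nonneg_left h2.le ha)
    · rw [mul_zero]
      exact (Real.exp_pos _).le
  rw [H615.ex_cmul] at h1
  rw [Real.exp_sub, le_div_iff₀ (Real.exp_pos _), mul_comm]
  exact h1.trans h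

end gen

section gm

variable {Ω : Type} [MeasurableSpace Ω] {ι : Type} [Fintype ι] [DecidableEq ι]
  {μ : Measure Ω} {S : ι → Ω → ℝ} {M0 x : ℝ}

/-- **Exponential moments over a set of hidden coordinates.** -/
theorem exp_sub (hG : GM μ S M0) (k : ℝ) (hx : 0 < x) (K A : Finset ι) (hA : Disjoint K A) :
    ex (gs ι) (Zxm μ k S x) (fun z => Real.exp (x ^ 2 / 2 * (k ^ 2 * ∑ e ∈ A,
        cx (gs ι) K (Zxm μ k S x) (avm μ k S (S e)) z ^ 2))) ≤ Real.exp (gain μ k x S) := by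
  have hw : Wt (gs ι) (Zxm μ k S x) := hG.wt k x
  have bS : ∀ e, BM (avm μ k S (S e)) := fun e => hG.bm_avm k (hG.bS e)
  have hsub : A ⊆ Finset.univ \ K := fun e he =>
    Finset.mem_sdiff.2 ⟨Finset.mem_univ e, fun h => Finset.disjoint_left.1 hA h he⟩
  have hbm : ∀ A' : Finset ι, BM fun z => ∑ e ∈ A',
      cx (gs ι) K (Zxm μ k S x) (avm μ k S (S e)) z ^ 2 := fun A' =>
    bm_sum_sq _ fun e _ => hw.bm_cx K (bS e)
  have hbe : ∀ A' : Finset ι, BM fun z => Real.exp (x ^ 2 / 2 * (k ^ 2 * ∑ e ∈ A',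
      cx (gs ι) K (Zxm μ k S x) (avm μ k S (S e)) z ^ 2)) := fun A' =>
    bm_exp (H615.bcm (k ^ 2) (hbm A')) _
  refine (ex_mono hw (hbe A) (hbe _) fun z => Real.exp_le_exp.2 ?_).trans (exp_cx hG k hx K)
  have h1 : ∑ e ∈ A, cx (gs ι) K (Zxm μ k S x) (avm μ k S (S e)) z ^ 2 ≤
      ∑ e ∈ Finset.univ \ K, cx (gs ι) K (Zxm μ k S x) (avm μ k S (S e)) z ^ 2 :=
    Finset.sum_le_sum_of_subset_of_nonneg hsub fun _ _ _ => sq_nonneg _
  exact mul_le_mul_of_nonneg_left (mul_le_mul_of_nonneg_left h1 (sq_nonneg k)) (by positivity)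

/-- **Tail of a function controlled by the hidden part of the squared gradient.** -/
theorem tail_gm (hG : GM μ S M0) (k : ℝ) (hx : 0 < x) (K A : Finset ι) (hA : Disjoint K A)
    {f : (ι → ℝ) → ℝ} (hf : BM f) {a d : ℝ} (ha : 0 ≤ a)
    (h : ∀ z, a * f z ≤ x ^ 2 / 2 * (k ^ 2 * ∑ e ∈ A,
        cx (gs ι) K (Zxm μ k S x) (avm μ k S (S e)) z ^ 2) + d) (r : ℝ) :
    ex (gs ι) (Zxm μ k S x) (ind r f) ≤ Real.exp (gain μ k x S + d - a * r) := by
  have hw : Wt (gs ι) (Zxm μ k S x) := hG.wt k x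
  have bS : ∀ e, BM (avm μ k S (S e)) := fun e => hG.bm_avm k (hG.bS e)
  refine ex_ind_exp hw hf ha ?_
  have b1 : BM fun z => Real.exp (x ^ 2 / 2 * (k ^ 2 * ∑ e ∈ A,
      cx (gs ι) K (Zxm μ k S x) (avm μ k S (S e)) z ^ 2)) :=
    bm_exp (H615.bcm (k ^ 2) (bm_sum_sq _ fun e _ => hw.bm_cx K (bS e))) _
  refine (ex_mono hw (bm_exp hf a) (H615.bcm (Real.exp d) b1) fun z => ?_).trans ?_
  · rw [← Real.exp_add]
    refine Real.exp_le_exp.2 ((h z).trans (le_of_eq (add_comm _ _)))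
  · rw [H615.ex_cmul, add_comm, Real.exp_add]
    exact mul_le_mul_of_nonneg_left (exp_sub hG k hx K A hA) (Real.exp_pos _).le

/-- **Powers of a function controlled by the hidden part of the squared gradient.** -/
theorem mom_gm (hG : GM μ S M0) (k : ℝ) (hx : 0 < x) (K A : Finset ι) (hA : Disjoint K A)
    {f : (ι → ℝ) → ℝ} (hf : BM f) (hf0 : ∀ z, 0 ≤ f z) {a d : ℝ} (ha : 0 < a) (hd : 0 ≤ d)
    (h : ∀ z, a * f z ≤ x ^ 2 / 2 * (k ^ 2 * ∑ e ∈ A,
        cx (gs ι) K (Zxm μ k S x) (avm μ k S (S e)) z ^ 2) + d) (p : ℕ) :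
    ex (gs ι) (Zxm μ k S x) (fun z => f z ^ p) ≤
      2 ^ (p - 1) * (2 ^ (p - 1) * (gain μ k x S ^ p + p.factorial) + d ^ p) / a ^ p := by
  have hw : Wt (gs ι) (Zxm μ k S x) := hG.wt k x
  have bS : ∀ e, BM (avm μ k S (S e)) := fun e => hG.bm_avm k (hG.bS e)
  have bpow : ∀ {f : (ι → ℝ) → ℝ}, BM f → ∀ q : ℕ, BM fun z => f z ^ q := by
    intro f hf q
    induction q with
    | zero => simpa using BM.const (κ := ι) 1
    | succ q ih => simpa only [pow_succ] using ih.mul hf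
  set Y : (ι → ℝ) → ℝ := fun z => x ^ 2 / 2 * (k ^ 2 * ∑ e ∈ A,
      cx (gs ι) K (Zxm μ k S x) (avm μ k S (S e)) z ^ 2) with hY
  have bY : BM Y :=
    H615.bcm _ (H615.bcm (k ^ 2) (bm_sum_sq _ fun e _ => hw.bm_cx K (bS e)))
  have hY0 : ∀ z, 0 ≤ Y z := fun z => by
    have : 0 ≤ ∑ e ∈ A, cx (gs ι) K (Zxm μ k S x) (avm μ k S (S e)) z ^ 2 :=
      Finset.sum_nonneg fun _ _ => sq_nonneg _
    rw [hY]
    positivity
  have key : ∀ z, f z ^ p ≤ 2 ^ (p - 1) / a ^ p * Y z ^ p + 2 ^ (p - 1) / a ^ p * d ^ p := by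
    intro z
    have h1 : (a * f z) ^ p ≤ (Y z + d) ^ p :=
      pow_le_pow_left₀ (mul_nonneg ha.le (hf0 z)) (h z) p
    have h2 := h1.trans (add_pow_le (hY0 z) hd p)
    rw [mul_pow] at h2
    have e : 2 ^ (p - 1) / a ^ p * Y z ^ p + 2 ^ (p - 1) / a ^ p * d ^ p =
        (2 ^ (p - 1) * (Y z ^ p + d ^ p)) / a ^ p := by ring
    rw [e, le_div_iff₀ (by positivity)]
    linarith
  have h3 := ex_mono hw (bpow hf p) ((H615.bcm _ (bpow bY p)).add (BM.const _)) key
  rw [ex_add hw (H615.bcm _ (bpow bY p)) (BM.const _), ex_const hw, H615.ex_cmul] at h3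
  have h4 := pow_cx hG k hx K A hA p
  have h5 := mul_le_mul_of_nonneg_left h4 (show 0 ≤ 2 ^ (p - 1) / a ^ p by positivity)
  refine h3.trans ((add_le_add_left h5 _).trans (le_of_eq ?_))
  ring

end gm

/-! ### the modulated SK law -/

variable {n : ℕ} {LB LF : Type} [Fintype LB] [DecidableEq LB] [Fintype LF] [DecidableEq LF]
variable {b s η lam c x : ℝ} {cB : LB → ℝ} {cF : LF → ℝ} {BL BL1 : Finset LB}
  {FL FL1 : Finset LF} {S : Finset (Fin n)}

/-- the fields of all sites with level in `FL1` -/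
def Fst (n : ℕ) (LB : Type) (FL1 : Finset LF) : Finset (H347.Co n LB LF) :=
  ((∅ : Finset (Pair n × LB)).disjSum (Finset.univ ×ˢ FL1)).disjSum ∅

lemma sum_Fst {α : Type*} [AddCommMonoid α] (f : H347.Co n LB LF → α) :
    ∑ e ∈ Fst n LB FL1, f e = ∑ i : Fin n, ∑ l ∈ FL1, f (H347.fd LB i l) := by
  unfold Fst
  rw [Finset.sum_disjSum, Finset.sum_disjSum, Finset.sum_product, Finset.sum_empty,
    Finset.sum_empty, add_zero, zero_add]

lemma fd_memF {j : Fin n} {l : LF} : H347.fd LB j l ∈ Fst n LB FL1 ↔ l ∈ FL1 := by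
  unfold Fst
  rw [show H347.fd LB j l = Sum.inl (Sum.inr (j, l)) from rfl, Finset.inl_mem_disjSum,
    Finset.inr_mem_disjSum, Finset.mem_product]
  simp

lemma bd_memF (p : Pair n) (l : LB) : H347.bd LF p l ∉ Fst n LB FL1 := by
  simp [Fst]

lemma disj_Fst (h : Disjoint FL FL1) : Disjoint (H347.Kset S BL FL) (Fst n LB FL1) := by
  rw [Finset.disjoint_left]
  intro e he he'
  rcases e with (⟨p, l⟩ | ⟨j, l⟩) | j
  · exact bd_memF p l he'
  · rw [H347.fd_memK] at he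
    rw [fd_memF] at he'
    exact Finset.disjoint_left.1 h he.2 he'
  · exact H347.gd_memK j he

/-- the thermal average of a spin -/
noncomputable abbrev av1 (b : ℝ) (cB : LB → ℝ) (cF : LF → ℝ) (s η lam c : ℝ) (i : Fin n) :
    (H347.Co n LB LF → ℝ) → ℝ := avS b cB cF s η lam c fun w => sp w.2 i

lemma cx_fd (hw : Wt (gs (H347.Co n LB LF)) (wS n b cB cF s η lam c x))
    (K : Finset (H347.Co n LB LF)) (i : Fin n) (l : LF) (z : H347.Co n LB LF → ℝ) :
    cxS n b cB cF s η lam c x K (avS b cB cF s η lam c (H347.Sm b cB cF s η (H347.fd LB i l))) z =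
      cF l * cxS n b cB cF s η lam c x K (av1 b cB cF s η lam c i) z := by
  have e1 : avS b cB cF s η lam c (H347.Sm b cB cF s η (H347.fd LB i l)) =
      fun u => cF l * av1 b cB cF s η lam c i u := by
    funext u
    exact av_mul (muA (H347.Xs n) lam η c) 1 (H347.Sm b cB cF s η) (cF l)
      (fun w => sp w.2 i) u
  rw [e1]
  exact cx_const_mul hw _ z

lemma sum_F1 (hw : Wt (gs (H347.Co n LB LF)) (wS n b cB cF s η lam c x))
    (K : Finset (H347.Co n LB LF)) (FL1 : Finset LF) (z : H347.Co n LB LF → ℝ) :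
    ∑ e ∈ Fst n LB FL1, cxS n b cB cF s η lam c x K
        (avS b cB cF s η lam c (H347.Sm b cB cF s η e)) z ^ 2 =
      (∑ l ∈ FL1, cF l ^ 2) * ∑ i : Fin n,
        cxS n b cB cF s η lam c x K (av1 b cB cF s η lam c i) z ^ 2 := by
  rw [sum_Fst, Finset.mul_sum]
  refine Finset.sum_congr rfl fun i _ => ?_
  rw [Finset.sum_mul]
  refine Finset.sum_congr rfl fun l _ => ?_
  rw [cx_fd hw, mul_pow]

section main

variable (hl : 0 < lam) (hη : 0 ≤ η)
include hl hη

/-- **Exponential moment from the hidden bond levels `BL1`**, at the block `Kset S BL FL`. -/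
theorem exp_pr (c b : ℝ) (cB : LB → ℝ) (cF : LF → ℝ) (s : ℝ) (hx : 0 < x)
    (h1 : Disjoint BL BL1) (S : Finset (Fin n)) (FL : Finset LF) :
    exS n b cB cF s η lam c x (fun z => Real.exp (x ^ 2 / 2 * (tB n b cB BL1 * ∑ q ∈ prs S,
        cxS n b cB cF s η lam c x (H347.Kset S BL FL) (av2 b cB cF s η lam c q) z ^ 2))) ≤
      Real.exp (gain (muA (H347.Xs n) lam η c) 1 x
        (H347.Sm (LB := LB) (LF := LF) b cB cF s η)) := by
  obtain ⟨M0, hG⟩ := gm_sk (n := n) hl hη c b cB cF s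
  have hw : Wt (gs (H347.Co n LB LF)) (wS n b cB cF s η lam c x) := hG.wt 1 x
  have h2 := exp_sub hG 1 hx (H347.Kset S BL FL) (Bst LF S BL1) (disj_Bst h1)
  simp only [one_pow, one_mul] at h2
  refine le_trans (le_of_eq ?_) h2
  congr 1
  funext z
  rw [sum_B1 hw]

/-- **Exponential moment from the hidden field levels `FL1`**, all sites. -/
theorem exp_fd (c b : ℝ) (cB : LB → ℝ) (cF : LF → ℝ) (s : ℝ) (hx : 0 < x)
    (h1 : Disjoint FL FL1) (S : Finset (Fin n)) (BL : Finset LB) :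
    exS n b cB cF s η lam c x (fun z => Real.exp (x ^ 2 / 2 * ((∑ l ∈ FL1, cF l ^ 2) *
        ∑ i : Fin n, cxS n b cB cF s η lam c x (H347.Kset S BL FL)
          (av1 b cB cF s η lam c i) z ^ 2))) ≤
      Real.exp (gain (muA (H347.Xs n) lam η c) 1 x
        (H347.Sm (LB := LB) (LF := LF) b cB cF s η)) := by
  obtain ⟨M0, hG⟩ := gm_sk (n := n) hl hη c b cB cF s
  have hw : Wt (gs (H347.Co n LB LF)) (wS n b cB cF s η lam c x) := hG.wt 1 x
  have h2 := exp_sub hG 1 hx (H347.Kset S BL FL) (Fst n LB FL1) (disj_Fst h1)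
  simp only [one_pow, one_mul] at h2
  refine le_trans (le_of_eq ?_) h2
  congr 1
  funext z
  rw [sum_F1 hw]

/-- the two-copy second moment of the overlap over `S`, at the block `K`, divided by `n²` -/
lemma mo_prs (c x : ℝ) (b : ℝ) (cB : LB → ℝ) (cF : LF → ℝ) (s : ℝ)
    (K : Finset (H347.Co n LB LF)) (S : Finset (Fin n)) (z : H347.Co n LB LF → ℝ) :
    H347.mo S 2 (H347.rA b cB cF s η lam c x K z) = S.card + 2 * ∑ q ∈ prs S,
      cxS n b cB cF s η lam c x K (av2 b cB cF s η lam c q) z ^ 2 := by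
  obtain ⟨M0, hG⟩ := gm_sk (n := n) hl hη c b cB cF s
  have hw : Wt (gs (H347.Co n LB LF)) (wS n b cB cF s η lam c x) := hG.wt 1 x
  have h1 : cxS n b cB cF s η lam c x K (avS b cB cF s η lam c (fun _ => 1)) z = 1 := by
    have e : avS (n := n) (LB := LB) (LF := LF) b cB cF s η lam c (fun _ => (1 : ℝ)) =
        fun _ => 1 := by
      funext u
      exact hG.av_one 1 u
    rw [e]
    exact cx_one hw z
  rw [← H347.mo_two_cx b cB cF s hl hη c x K S z]
  exact m2L_eq (S := S) (L := fun f => cxS n b cB cF s η lam c x K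
    (avS b cB cF s η lam c (fun w => f w.2)) z) h1

end main

/-- the second moment of the overlap over `S` at the block `K`, as a function of the sample -/
noncomputable abbrev CCz (n : ℕ) (b : ℝ) (cB : LB → ℝ) (cF : LF → ℝ) (s η lam c x : ℝ)
    (K : Finset (H347.Co n LB LF)) (S : Finset (Fin n)) (z : H347.Co n LB LF → ℝ) : ℝ :=
  H347.mo S 2 (H347.rA b cB cF s η lam c x K z) / (n : ℝ) ^ 2

/-- the mean square over `S` of the magnetisations weighted with `h`, at the block `K` -/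
noncomputable abbrev Qz (n : ℕ) (b : ℝ) (cB : LB → ℝ) (cF : LF → ℝ) (s η lam c x : ℝ)
    (h : ℝ × H347.Xs n → ℝ) (K : Finset (H347.Co n LB LF)) (S : Finset (Fin n))
    (z : H347.Co n LB LF → ℝ) : ℝ :=
  (∑ j ∈ S, cxS n b cB cF s η lam c x K
    (avS b cB cF s η lam c (fun w => h w * sp w.2 j)) z ^ 2) / n

section tails

variable (hl : 0 < lam) (hη : 0 ≤ η)
include hl hη

lemma bm_av2 (c b : ℝ) (cB : LB → ℝ) (cF : LF → ℝ) (s : ℝ) (q : Pair n) :
    BM (av2 (LB := LB) (LF := LF) b cB cF s η lam c q) := by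
  obtain ⟨M0, hG⟩ := gm_sk (n := n) hl hη c b cB cF s
  have := H347.dmx n
  refine hG.bm_avm 1 (Bm.of (C := 1) ?_ fun w => ?_)
  · exact (measurable_of_finite (fun σ : H347.Xs n => SkS q σ)).comp measurable_snd
  · unfold SkS
    rw [abs_mul]
    have k1 := abs_sp_le w.2 q.1.1
    have k2 := abs_sp_le w.2 q.1.2
    exact mul_le_one₀ k1 (abs_nonneg _) k2

lemma CCz_nonneg (c x b : ℝ) (cB : LB → ℝ) (cF : LF → ℝ) (s : ℝ)
    (K : Finset (H347.Co n LB LF)) (S : Finset (Fin n)) (z : H347.Co n LB LF → ℝ) :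
    0 ≤ CCz n b cB cF s η lam c x K S z := by
  unfold CCz
  rw [mo_prs hl hη]
  have : 0 ≤ ∑ q ∈ prs S, cxS n b cB cF s η lam c x K (av2 b cB cF s η lam c q) z ^ 2 :=
    Finset.sum_nonneg fun _ _ => sq_nonneg _
  positivity

lemma bm_CCz (c x b : ℝ) (cB : LB → ℝ) (cF : LF → ℝ) (s : ℝ)
    (K : Finset (H347.Co n LB LF)) (S : Finset (Fin n)) :
    BM (CCz n b cB cF s η lam c x K S) := by
  obtain ⟨M0, hG⟩ := gm_sk (n := n) hl hη c b cB cF s
  have hw : Wt (gs (H347.Co n LB LF)) (wS n b cB cF s η lam c x) := hG.wt 1 x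
  have bm2 : ∀ q : Pair n, BM (av2 (LB := LB) (LF := LF) b cB cF s η lam c q) :=
    bm_av2 hl hη c b cB cF s
  have e : CCz n b cB cF s η lam c x K S = fun z => 1 / (n : ℝ) ^ 2 * (S.card + 2 * ∑ q ∈ prs S,
      cxS n b cB cF s η lam c x K (av2 b cB cF s η lam c q) z ^ 2) := by
    funext z
    unfold CCz
    rw [mo_prs hl hη]
    ring
  rw [e]
  exact H615.bcm _ ((BM.const _).add (H615.bcm _ (bm_sum_sq _ fun q _ => hw.bm_cx K (bm2 q))))

/-- **Tail of the second moment of the overlap**, from the hidden bond levels `BL1`. -/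
theorem tail_cc (c b : ℝ) (cB : LB → ℝ) (cF : LF → ℝ) (s : ℝ) (hx : 0 < x) (hn : 0 < n)
    (h1 : Disjoint BL BL1) (S : Finset (Fin n)) (FL : Finset LF) (r : ℝ) :
    exS n b cB cF s η lam c x (ind r (CCz n b cB cF s η lam c x (H347.Kset S BL FL) S)) ≤
      Real.exp (gain (muA (H347.Xs n) lam η c) 1 x
        (H347.Sm (LB := LB) (LF := LF) b cB cF s η) + x ^ 2 / 4 * (tB n b cB BL1 * S.card) -
        x ^ 2 / 4 * (tB n b cB BL1 * (n : ℝ) ^ 2) * r) := by
  obtain ⟨M0, hG⟩ := gm_sk (n := n) hl hη c b cB cF s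
  have hw : Wt (gs (H347.Co n LB LF)) (wS n b cB cF s η lam c x) := hG.wt 1 x
  have hn0 : (0 : ℝ) < n := by exact_mod_cast hn
  have ht := tB_nonneg n b cB BL1
  refine ex_ind_exp hw (bm_CCz hl hη c x b cB cF s _ S) (by positivity) ?_
  have h2 := exp_pr hl hη c b cB cF s hx h1 S FL
  have e : (fun z => Real.exp (x ^ 2 / 4 * (tB n b cB BL1 * (n : ℝ) ^ 2) *
      CCz n b cB cF s η lam c x (H347.Kset S BL FL) S z)) =
      fun z => Real.exp (x ^ 2 / 4 * (tB n b cB BL1 * S.card)) *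
        Real.exp (x ^ 2 / 2 * (tB n b cB BL1 * ∑ q ∈ prs S,
        cxS n b cB cF s η lam c x (H347.Kset S BL FL) (av2 b cB cF s η lam c q) z ^ 2)) := by
    funext z
    rw [← Real.exp_add]
    congr 1
    unfold CCz
    rw [mo_prs hl hη]
    field_simp
    ring
  rw [e, H615.ex_cmul, add_comm, Real.exp_add]
  exact mul_le_mul_of_nonneg_left h2 (Real.exp_pos _).le

/-- **Powers of the second moment of the overlap.** -/
theorem mom_cc (c b : ℝ) (cB : LB → ℝ) (cF : LF → ℝ) (s : ℝ) (hx : 0 < x) (hn : 0 < n)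
    (h1 : Disjoint BL BL1) (S : Finset (Fin n)) (FL : Finset LF) (ht : 0 < tB n b cB BL1)
    (p : ℕ) :
    exS n b cB cF s η lam c x
        (fun z => CCz n b cB cF s η lam c x (H347.Kset S BL FL) S z ^ p) ≤
      2 ^ (p - 1) * ((S.card / (n : ℝ) ^ 2) ^ p +
        (4 / (x ^ 2 * (tB n b cB BL1 * (n : ℝ) ^ 2))) ^ p *
        (2 ^ (p - 1) * (gain (muA (H347.Xs n) lam η c) 1 x
        (H347.Sm (LB := LB) (LF := LF) b cB cF s η) ^ p + p.factorial))) := by
  obtain ⟨M0, hG⟩ := gm_sk (n := n) hl hη c b cB cF s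
  have hw : Wt (gs (H347.Co n LB LF)) (wS n b cB cF s η lam c x) := hG.wt 1 x
  have hn0 : (0 : ℝ) < n := by exact_mod_cast hn
  have bpow : ∀ {f : (H347.Co n LB LF → ℝ) → ℝ}, BM f → ∀ q : ℕ, BM fun z => f z ^ q := by
    intro f hf q
    induction q with
    | zero => simpa using BM.const (κ := H347.Co n LB LF) 1
    | succ q ih => simpa only [pow_succ] using ih.mul hf
  have bm2 : ∀ q : Pair n, BM (av2 (LB := LB) (LF := LF) b cB cF s η lam c q) :=
    bm_av2 hl hη c b cB cF s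
  set Y : (H347.Co n LB LF → ℝ) → ℝ := fun z => x ^ 2 / 2 * (tB n b cB BL1 * ∑ q ∈ prs S,
    cxS n b cB cF s η lam c x (H347.Kset S BL FL) (av2 b cB cF s η lam c q) z ^ 2) with hY
  have bY : BM Y := H615.bcm _ (H615.bcm _ (bm_sum_sq _ fun q _ => hw.bm_cx _ (bm2 q)))
  have hY0 : ∀ z, 0 ≤ Y z := by
    intro z
    have : 0 ≤ ∑ q ∈ prs S,
      cxS n b cB cF s η lam c x (H347.Kset S BL FL) (av2 b cB cF s η lam c q) z ^ 2 :=
      Finset.sum_nonneg fun _ _ => sq_nonneg _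
    rw [hY]
    positivity
  have h2 := pow_sk hl hη c b cB cF s hx h1 S FL p
  have key : ∀ z, CCz n b cB cF s η lam c x (H347.Kset S BL FL) S z ^ p ≤
      2 ^ (p - 1) * (S.card / (n : ℝ) ^ 2) ^ p +
      2 ^ (p - 1) * (4 / (x ^ 2 * (tB n b cB BL1 * (n : ℝ) ^ 2))) ^ p * Y z ^ p := by
    intro z
    have e1 : CCz n b cB cF s η lam c x (H347.Kset S BL FL) S z = S.card / (n : ℝ) ^ 2 +
        4 / (x ^ 2 * (tB n b cB BL1 * (n : ℝ) ^ 2)) * Y z := by
      unfold CCz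
      rw [mo_prs hl hη]
      simp only [hY]
      field_simp
      ring
    rw [e1]
    have h3 := add_pow_le (show (0 : ℝ) ≤ S.card / (n : ℝ) ^ 2 by positivity)
      (show 0 ≤ 4 / (x ^ 2 * (tB n b cB BL1 * (n : ℝ) ^ 2)) * Y z from
        mul_nonneg (by positivity) (hY0 z)) p
    refine h3.trans (le_of_eq ?_)
    rw [mul_pow (4 / (x ^ 2 * (tB n b cB BL1 * (n : ℝ) ^ 2)))]
    ring
  refine (ex_mono hw (bpow (bm_CCz hl hη c x b cB cF s _ S) p)
    ((BM.const _).add (H615.bcm _ (bpow bY p))) key).trans ?_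
  rw [ex_add hw (BM.const _) (H615.bcm _ (bpow bY p)), ex_const hw, H615.ex_cmul]
  have h4 := mul_le_mul_of_nonneg_left h2
    (show 0 ≤ 2 ^ (p - 1) * (4 / (x ^ 2 * (tB n b cB BL1 * (n : ℝ) ^ 2))) ^ p by positivity)
  refine (add_le_add_right h4 _).trans (le_of_eq ?_)
  ring

/-- `Q ≤ C² √CC`, pointwise -/
lemma Qz_le {h : ℝ × H347.Xs n → ℝ} (hh : Bm h) {C : ℝ} (hC : ∀ w, |h w| ≤ C) (hC0 : 0 ≤ C)
    (c x b : ℝ) (cB : LB → ℝ) (cF : LF → ℝ) (s : ℝ) (hn : 0 < n)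
    (K : Finset (H347.Co n LB LF)) (S : Finset (Fin n)) (z : H347.Co n LB LF → ℝ) :
    Qz n b cB cF s η lam c x h K S z ≤ C ^ 2 * √(CCz n b cB cF s η lam c x K S z) := by
  have hn0 : (0 : ℝ) < n := by exact_mod_cast hn
  have h1 := H347.amp_sq_le (b := b) (cB := cB) (cF := cF) (s := s) hl hη c x K S hh hC hC0 z
  unfold Qz CCz
  rw [Real.sqrt_div' _ (by positivity), Real.sqrt_sq hn0.le, div_le_iff₀ hn0]
  refine h1.trans (le_of_eq ?_)
  field_simp

/-- **Tail of `Q`**, from the tail of the second moment of the overlap. -/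
theorem tail_Q (c b : ℝ) (cB : LB → ℝ) (cF : LF → ℝ) (s : ℝ) (hx : 0 < x) (hn : 0 < n)
    (h1 : Disjoint BL BL1) (S : Finset (Fin n)) (FL : Finset LF) {h : ℝ × H347.Xs n → ℝ}
    (hh : Bm h) {C : ℝ} (hC : ∀ w, |h w| ≤ C) (hC0 : 0 < C) {r : ℝ} (hr : 0 ≤ r) :
    exS n b cB cF s η lam c x (ind (C ^ 2 * r)
        (Qz n b cB cF s η lam c x h (H347.Kset S BL FL) S)) ≤
      Real.exp (gain (muA (H347.Xs n) lam η c) 1 x
        (H347.Sm (LB := LB) (LF := LF) b cB cF s η) + x ^ 2 / 4 * (tB n b cB BL1 * S.card) -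
        x ^ 2 / 4 * (tB n b cB BL1 * (n : ℝ) ^ 2) * r ^ 2) := by
  obtain ⟨M0, hG⟩ := gm_sk (n := n) hl hη c b cB cF s
  have hw : Wt (gs (H347.Co n LB LF)) (wS n b cB cF s η lam c x) := hG.wt 1 x
  refine le_trans ?_ (tail_cc hl hη c b cB cF s hx hn h1 S FL (r ^ 2))
  have hQm : Measurable (Qz n b cB cF s η lam c x h (H347.Kset S BL FL) S) := by
    have hm : ∀ j : Fin n, BM (avS (LB := LB) (LF := LF) b cB cF s η lam c
        (fun w => h w * sp w.2 j)) := fun j => hG.bm_avm 1 (hh.mul (H347.bm_sp j))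
    exact (bm_sum_sq S fun j _ => hw.bm_cx _ (hm j)).meas.div_const _
  refine ex_mono hw (bm_ind hQm _) (bm_ind (bm_CCz hl hη c x b cB cF s _ S).meas _) fun z => ?_
  unfold ind
  have h2 := Qz_le hl hη hh hC hC0.le c x b cB cF s hn (H347.Kset S BL FL) S z
  split_ifs with h3 h4 h4
  · exact le_rfl
  · exfalso
    have h5 : C ^ 2 * r < C ^ 2 * √(CCz n b cB cF s η lam c x (H347.Kset S BL FL) S z) :=
      h3.trans_le h2
    have h6 := lt_of_mul_lt_mul_left h5 (by positivity)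
    exact h4 ((Real.lt_sqrt hr).1 h6)
  · exact zero_le_one
  · exact le_rfl

/-- **Tail of the plain `Q` over any set of sites**, from the hidden field levels `FL1`. -/
theorem tail_fd (c b : ℝ) (cB : LB → ℝ) (cF : LF → ℝ) (s : ℝ) (hx : 0 < x) (hn : 0 < n)
    (h1 : Disjoint FL FL1) (S S1 : Finset (Fin n)) (BL : Finset LB) (r : ℝ) :
    exS n b cB cF s η lam c x (ind r (fun z => (∑ i ∈ S1,
        cxS n b cB cF s η lam c x (H347.Kset S BL FL) (av1 b cB cF s η lam c i) z ^ 2) / n)) ≤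
      Real.exp (gain (muA (H347.Xs n) lam η c) 1 x
        (H347.Sm (LB := LB) (LF := LF) b cB cF s η) -
        x ^ 2 / 2 * ((∑ l ∈ FL1, cF l ^ 2) * n) * r) := by
  obtain ⟨M0, hG⟩ := gm_sk (n := n) hl hη c b cB cF s
  have hw : Wt (gs (H347.Co n LB LF)) (wS n b cB cF s η lam c x) := hG.wt 1 x
  have hn0 : (0 : ℝ) < n := by exact_mod_cast hn
  have hf : 0 ≤ ∑ l ∈ FL1, cF l ^ 2 := Finset.sum_nonneg fun _ _ => sq_nonneg _
  have hm : ∀ j : Fin n, BM (av1 (LB := LB) (LF := LF) b cB cF s η lam c j) := fun j =>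
    hG.bm_avm 1 (H347.bm_sp j)
  have hb : ∀ T : Finset (Fin n), BM fun z => (∑ i ∈ T,
        cxS n b cB cF s η lam c x (H347.Kset S BL FL) (av1 b cB cF s η lam c i) z ^ 2) / n := by
    intro T
    have e : (fun z => (∑ i ∈ T, cxS n b cB cF s η lam c x (H347.Kset S BL FL)
        (av1 b cB cF s η lam c i) z ^ 2) / (n : ℝ)) = fun z => 1 / (n : ℝ) * ∑ i ∈ T,
        cxS n b cB cF s η lam c x (H347.Kset S BL FL) (av1 b cB cF s η lam c i) z ^ 2 := by
      funext z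
      ring
    rw [e]
    exact H615.bcm _ (bm_sum_sq _ fun q _ => hw.bm_cx _ (hm q))
  have h2 := exp_fd hl hη c b cB cF s hx h1 S BL
  refine ex_ind_exp hw (hb S1) (by positivity) (le_trans ?_ h2)
  have hbu : BM fun z => Real.exp (x ^ 2 / 2 * ((∑ l ∈ FL1, cF l ^ 2) *
      ∑ i : Fin n, cxS n b cB cF s η lam c x (H347.Kset S BL FL)
        (av1 b cB cF s η lam c i) z ^ 2)) :=
    bm_exp (H615.bcm _ (bm_sum_sq _ fun q _ => hw.bm_cx _ (hm q))) _
  refine ex_mono hw (bm_exp (hb S1) _) hbu fun z => Real.exp_le_exp.2 ?_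
  have h3 : ∑ i ∈ S1, cxS n b cB cF s η lam c x (H347.Kset S BL FL)
      (av1 b cB cF s η lam c i) z ^ 2 ≤ ∑ i : Fin n,
      cxS n b cB cF s η lam c x (H347.Kset S BL FL) (av1 b cB cF s η lam c i) z ^ 2 :=
    Finset.sum_le_sum_of_subset_of_nonneg (Finset.subset_univ _) fun _ _ _ => sq_nonneg _
  have e : x ^ 2 / 2 * ((∑ l ∈ FL1, cF l ^ 2) * n) * ((∑ i ∈ S1,
      cxS n b cB cF s η lam c x (H347.Kset S BL FL) (av1 b cB cF s η lam c i) z ^ 2) / n) =
      x ^ 2 / 2 * ((∑ l ∈ FL1, cF l ^ 2) * ∑ i ∈ S1,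
      cxS n b cB cF s η lam c x (H347.Kset S BL FL) (av1 b cB cF s η lam c i) z ^ 2) := by
    field_simp
  rw [e]
  exact mul_le_mul_of_nonneg_left (mul_le_mul_of_nonneg_left h3 hf) (by positivity)

end tails

end Vale.Agent.P146.H412
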