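import Vale.Agent.P146.H412.MomU
import Vale.Agent.P146.H516.Ap2

/-!
The eventual forms of `MomU` from the a-priori bound at the exponent `y` only (`H516.Par1`).
-/

open MeasureTheory ProbabilityTheory Filter Topology Set

namespace Vale.Agent.P146.H412.U

open Vale.Agent.P157.Lv hiding Dep
open Vale.Agent.P146.H425 Vale.Agent.P146.H332 Vale.Agent.P146.H646
open Vale.Agent.P146.H196 Vale.Agent.P146.H246 Vale.Agent.P146.H347 Vale.Agent.P146.H325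
  Vale.Agent.P146.H816 Vale.Agent.P146.H475 Vale.Agent.P146.H9 Vale.Agent.P146.H281.U
  Vale.Agent.P146.H698.Br Vale.Agent.P146.H412 Vale.Agent.P146.H412.G Vale.Agent.P146.H529
  Vale.Agent.P146.H463
open Vale.Agent.P146.H9.U hiding lvlU

/-- **The gain in the ensemble U, eventually**, for all level systems. -/
theorem gnU_ev1 {b e s0 s1 : ℝ} (hb : 0 < b) (he : 0 < e) (hs0 : 0 ≤ s0) (hs : s0 < s1) :
    ∀ᶠ n : ℕ in atTop, ∀ (vp s lam η y V a : ℝ), H516.Par1 b s0 e n vp s lam η y V a → 0 < vp →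
      ∀ (LB' LF' : Type) [Fintype LB'] [DecidableEq LB'] [Fintype LF'] [DecidableEq LF']
      (cB' : LB' → ℝ) (cF' : LF' → ℝ) (κ : LF' → Bool), ∑ l, cB' l ^ 2 = 1 →
      (∀ k, ∑ l with κ l = k, cF' l ^ 2 = VFb vp s k) →
      gain (muA (Xs n) lam η (cc n b s a)) 1 y
        (SU b cB' cF' fun l => αb η (κ l) : Co n LB' LF' → ℝ × Xs n → ℝ) ≤
        (n : ℝ) ^ (1 + s1) * y ^ 6 := by
  filter_upwards [H516.gn_ev1 hb he hs0 hs, eventually_ge_atTop 1] with n g1 g2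
  intro vp s lam η y V a h hv LB' LF' _ _ _ _ cB' cF' κ hB hF
  have hn0 : (0 : ℝ) < n := by exact_mod_cast g2
  have hy0 : 0 < y := lt_of_lt_of_le (Real.rpow_pos_of_pos hn0 _) h.y0
  have hl : 0 < lam := by linarith [h.lam1]
  rw [gain_U (cB := H418.cb 0) (cF := H418.cf vp 0) hl h.η0.le hv h.s0'
    (H418.sum_cb le_rfl zero_le_one) (H418.sum_cf h.vp0 le_rfl zero_le_one) hB hF hy0]
  exact g1 vp s lam η y V a h 0 ⟨le_rfl, zero_le_one⟩ 0 ⟨le_rfl, zero_le_one⟩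

variable {b e s0 s1 s2 : ℝ}

/-- **Moments of the two-spin number in the ensemble U, eventually**: `T` is the hidden bond
share, `K` any block without the bonds of the levels `BL1` inside `S`. -/
theorem mom_evU1 (hb : 0 < b) (he : 0 < e) (hs0 : 0 ≤ s0) (hs : s0 < s1) :
    ∀ᶠ n : ℕ in atTop, ∀ (vp s lam η y V a : ℝ), H516.Par1 b s0 e n vp s lam η y V a → 0 < vp →
      y ^ 2 * b ^ 2 ≤ 4 →
      ∀ (LB LF : Type) [Fintype LB] [DecidableEq LB] [Fintype LF] [DecidableEq LF]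
      (cB : LB → ℝ) (cF : LF → ℝ) (κ : LF → Bool), ∑ l, cB l ^ 2 = 1 →
      (∀ k, ∑ l with κ l = k, cF l ^ 2 = VFb vp s k) →
      ∀ (S : Finset (Fin n)) (K : Finset (Co n LB LF)) (BL1 : Finset LB) (T : ℝ),
      Disjoint K (Bst LF S BL1) → T = ∑ l ∈ BL1, cB l ^ 2 → 0 < T → ∀ p : ℕ,
      eG (muA (Xs n) lam η (cc n b s a)) (SU b cB cF fun l => αb η (κ l)) y
        (fun z => CCg (muA (Xs n) lam η (cc n b s a)) (SU b cB cF fun l => αb η (κ l)) y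
          Prod.snd K S z ^ p) ≤ Cp p * (4 * ((n : ℝ) ^ s1 * y ^ 4) / (b ^ 2 * T)) ^ p := by
  filter_upwards [gnU_ev1 hb he hs0 hs, eventually_ge_atTop 1] with n g1 g2
  intro vp s lam η y V a h hv hyb LB LF _ _ _ _ cB cF κ hB hF S K BL1 T hK hT hT0 p
  have hn1 : (1 : ℝ) ≤ n := by exact_mod_cast g2
  have hn0 : (0 : ℝ) < n := by linarith
  have hy0 : 0 < y := lt_of_lt_of_le (Real.rpow_pos_of_pos hn0 _) h.y0
  have hl : 0 < lam := by linarith [h.lam1]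
  obtain ⟨M1, hG⟩ := gmUb (n := n) b cB cF κ hl h.η0.le (cc n b s a)
  have hT1 : T ≤ 1 := by
    rw [hT, ← hB]
    exact Finset.sum_le_sum_of_subset_of_nonneg (Finset.subset_univ _) fun _ _ _ => sq_nonneg _
  have hg := g1 vp s lam η y V a h hv LB LF cB cF κ hB hF
  have hG1 : 1 ≤ (n : ℝ) ^ (1 + s1) * y ^ 6 :=
    (Real.one_le_rpow hn1 (by positivity)).trans (G_ge (by linarith) g2 h.y0)
  refine (mom_num hG measurable_snd (bdsU b cB cF _) hy0 (by omega) hb.ne' hK hT hT0 hT1 hyb hg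
    hG1 p).trans (le_of_eq ?_)
  congr 2
  rw [Real.rpow_add hn0, Real.rpow_one]
  field_simp

/-- **Tails in the ensemble U, eventually**: `U² T ≥ (n ^ s2 y²)²`. -/
theorem tail_evU1 (D : ℝ) (hb : 0 < b) (he : 0 < e) (hs0 : 0 ≤ s0) (hs : s0 < s1)
    (hs2 : s1 < 2 * s2) :
    ∀ᶠ n : ℕ in atTop, ∀ (vp s lam η y V a : ℝ), H516.Par1 b s0 e n vp s lam η y V a → 0 < vp →
      y ^ 2 * b ^ 2 ≤ 4 →
      ∀ (LB LF : Type) [Fintype LB] [DecidableEq LB] [Fintype LF] [DecidableEq LF]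
      (cB : LB → ℝ) (cF : LF → ℝ) (κ : LF → Bool), ∑ l, cB l ^ 2 = 1 →
      (∀ k, ∑ l with κ l = k, cF l ^ 2 = VFb vp s k) →
      ∀ (S : Finset (Fin n)) (K : Finset (Co n LB LF)) (BL1 : Finset LB) (T : ℝ),
      Disjoint K (Bst LF S BL1) → T = ∑ l ∈ BL1, cB l ^ 2 → 0 < T → ∀ U : ℝ, 0 ≤ U →
      ((n : ℝ) ^ s2 * y ^ 2) ^ 2 ≤ U ^ 2 * T →
      eG (muA (Xs n) lam η (cc n b s a)) (SU b cB cF fun l => αb η (κ l)) y
        (H317.ind (U ^ 2) (CCg (muA (Xs n) lam η (cc n b s a)) (SU b cB cF fun l => αb η (κ l))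
          y Prod.snd K S)) ≤ (n : ℝ) ^ (-D) ∧
      ∀ h : ℝ × Xs n → ℝ, H615.Bd h → (∀ w, |h w| ≤ 2) →
      eG (muA (Xs n) lam η (cc n b s a)) (SU b cB cF fun l => αb η (κ l)) y
        (H317.ind U (Qg (muA (Xs n) lam η (cc n b s a)) (SU b cB cF fun l => αb η (κ l))
          y Prod.snd h K S)) ≤ (n : ℝ) ^ (-D) := by
  filter_upwards [gnU_ev1 hb he hs0 hs, eventually_ge_atTop 1,
    H178.ev_pow (show 0 < 2 * s2 - s1 by linarith) (64 * 3 / b ^ 2),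
    H178.ev_log (show 0 < 6 * e by positivity) (1 + |D|)] with n g1 g2 g3 g4
  intro vp s lam η y V a h hv hyb LB LF _ _ _ _ cB cF κ hB hF S K BL1 T hK hT hT0 U hU hU2
  have hn1 : (1 : ℝ) ≤ n := by exact_mod_cast g2
  have hn0 : (0 : ℝ) < n := by linarith
  have hlog : 0 ≤ Real.log n := Real.log_nonneg hn1
  have hy0 : 0 < y := lt_of_lt_of_le (Real.rpow_pos_of_pos hn0 _) h.y0
  have hl : 0 < lam := by linarith [h.lam1]
  obtain ⟨M1, hG'⟩ := gmUb (n := n) b cB cF κ hl h.η0.le (cc n b s a)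
  have hT1 : T ≤ 1 := by
    rw [hT, ← hB]
    exact Finset.sum_le_sum_of_subset_of_nonneg (Finset.subset_univ _) fun _ _ _ => sq_nonneg _
  have hg := g1 vp s lam η y V a h hv LB LF cB cF κ hB hF
  set G := (n : ℝ) ^ (1 + s1) * y ^ 6 with hG
  have h1 : (n : ℝ) ^ (6 * e) ≤ G := G_ge (by linarith) g2 h.y0
  have hD : (1 + |D|) * (1 + Real.log n) ≤ G := g4.trans h1
  have h3 : 3 * G ≤ y ^ 2 * b ^ 2 * T * n / 4 * (U / 4) ^ 2 := by
    have h4 : y ^ 2 * b ^ 2 * T * n / 4 * (U / 4) ^ 2 =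
        y ^ 2 * b ^ 2 * n / 64 * (U ^ 2 * T) := by ring
    rw [h4]
    have h5 : y ^ 2 * b ^ 2 * n / 64 * ((n : ℝ) ^ s2 * y ^ 2) ^ 2 ≤
        y ^ 2 * b ^ 2 * n / 64 * (U ^ 2 * T) :=
      mul_le_mul_of_nonneg_left hU2 (by positivity)
    refine le_trans ?_ h5
    have e1 : y ^ 2 * b ^ 2 * n / 64 * ((n : ℝ) ^ s2 * y ^ 2) ^ 2 =
        b ^ 2 / 64 * (n * ((n : ℝ) ^ s2) ^ 2 * y ^ 6) := by ring
    have e2 : n * ((n : ℝ) ^ s2) ^ 2 = (n : ℝ) ^ (1 + s1) * (n : ℝ) ^ (2 * s2 - s1) := by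
      rw [← Real.rpow_natCast, ← Real.rpow_mul hn0.le, ← Real.rpow_add hn0]
      nth_rewrite 1 [← Real.rpow_one (n : ℝ)]
      rw [← Real.rpow_add hn0]
      congr 1
      push_cast
      ring
    rw [e1, e2]
    have h6 : 3 ≤ b ^ 2 / 64 * (n : ℝ) ^ (2 * s2 - s1) := by
      rw [div_le_iff₀ (by positivity)] at g3
      linarith
    have h7 := mul_le_mul_of_nonneg_right h6
      (show 0 ≤ (n : ℝ) ^ (1 + s1) * y ^ 6 by positivity)
    rw [hG]
    linarith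
  have key : ∀ q : ℝ, y ^ 2 * b ^ 2 * T * n / 4 * (U / 4) ^ 2 ≤ q →
      Real.exp (G + 1 - q) ≤ (n : ℝ) ^ (-D) := by
    intro q hq
    rw [Real.rpow_def_of_pos hn0]
    refine Real.exp_le_exp.2 ?_
    have h8 : -|D| * Real.log n ≤ Real.log n * -D := by
      have := le_abs_self D
      nlinarith
    have h9 : (1 + |D|) * (1 + Real.log n) = 1 + |D| + Real.log n + |D| * Real.log n := by ring
    have h10 : 0 ≤ |D| := abs_nonneg D
    nlinarith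
  refine ⟨?_, fun h' hh' hC' => ?_⟩
  · refine (tail_num hG' measurable_snd (bdsU b cB cF _) hy0 (by omega) hK hT hT1 hyb
      hg (U ^ 2)).trans (key _ (mul_le_mul_of_nonneg_left ?_ (by positivity)))
    nlinarith
  · exact (tail_numQ hG' measurable_snd (bdsU b cB cF _) hy0 (by omega) hK hT hT1 hyb
      hg hh' hC' hU).trans (key _ le_rfl)

/-- **The four-spin number in the ensemble U, eventually.** -/
theorem q4_evU1 (hb : 0 < b) (he : 0 < e) (hs0 : 0 ≤ s0) (hs : s0 < s1) :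
    ∀ᶠ n : ℕ in atTop, ∀ (vp s lam η y V a : ℝ), H516.Par1 b s0 e n vp s lam η y V a → 0 < vp →
      ∀ (LB LF : Type) [Fintype LB] [DecidableEq LB] [Fintype LF] [DecidableEq LF]
      (cB : LB → ℝ) (cF : LF → ℝ) (κ : LF → Bool), ∑ l, cB l ^ 2 = 1 →
      (∀ k, ∑ l with κ l = k, cF l ^ 2 = VFb vp s k) →
      ∀ (S : Finset (Fin n)) (FL : Finset LF) (BL BL' BL1 : Finset LB) (τ T : ℝ),
      BL ⊆ BL' → Disjoint BL' BL1 → τ = ∑ l ∈ BL' \ BL, cB l ^ 2 → T = ∑ l ∈ BL1, cB l ^ 2 →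
      0 < τ → 0 < T →
      eG (muA (Xs n) lam η (cc n b s a)) (SU b cB cF fun l => αb η (κ l)) y
        (Q4g (muA (Xs n) lam η (cc n b s a)) (SU b cB cF fun l => αb η (κ l)) y
          (Kset S BL FL) (sR Prod.snd) S) ≤
        2 * (n : ℝ) ^ 2 + 64 * (n ^ (3 + s1) * y ^ 2) / (b ^ 4 * (τ * T)) +
          384 * (n ^ (4 + 2 * s1) * y ^ 8) / (b ^ 4 * T ^ 2) := by
  filter_upwards [gnU_ev1 hb he hs0 hs, eventually_ge_atTop 1] with n g1 g2
  intro vp s lam η y V a h hv LB LF _ _ _ _ cB cF κ hB hF S FL BL BL' BL1 τ T hBL hd hτ hT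
    hτ0 hT0
  have hn1 : (1 : ℝ) ≤ n := by exact_mod_cast g2
  have hn0 : (0 : ℝ) < n := by linarith
  have hy0 : 0 < y := lt_of_lt_of_le (Real.rpow_pos_of_pos hn0 _) h.y0
  have hl : 0 < lam := by linarith [h.lam1]
  obtain ⟨M1, hG⟩ := gmUb (n := n) b cB cF κ hl h.η0.le (cc n b s a)
  have hg := g1 vp s lam η y V a h hv LB LF cB cF κ hB hF
  have hG1 : 1 ≤ (n : ℝ) ^ (1 + s1) * y ^ 6 :=
    (Real.one_le_rpow hn1 (by positivity)).trans (G_ge (by linarith) g2 h.y0)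
  refine (q4_num hG measurable_snd (bdsU b cB cF _) hy0 (by linarith [h.y1]) (by omega) hb.ne'
    hBL hd hτ hT hτ0 hT0 hg hG1 S FL).trans (le_of_eq ?_)
  have e1 : (n : ℝ) ^ (3 + s1) = (n : ℝ) ^ (1 + s1) * n ^ 2 := by
    rw [← Real.rpow_natCast (n : ℝ) 2, ← Real.rpow_add hn0]
    congr 1
    push_cast
    ring
  have e2 : (n : ℝ) ^ (4 + 2 * s1) = ((n : ℝ) ^ (1 + s1)) ^ 2 * n ^ 2 := by
    rw [← Real.rpow_natCast (n : ℝ) 2, ← Real.rpow_natCast ((n : ℝ) ^ (1 + s1)) 2,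
      ← Real.rpow_mul hn0.le, ← Real.rpow_add hn0]
    congr 1
    push_cast
    ring
  rw [e1, e2]
  congr 1
  · congr 1
    field_simp
  · field_simp

end Vale.Agent.P146.H412.U
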