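import Vale.Agent.P146.H118.Rank
import Vale.Agent.P146.H196.Gib2

/-!
Dictionary between the position form (`H332.P A0 a b c`, `H118.zd`, `H118.cm`) and the block
conditioning (`H646.glue`, `wn`, `cx`, `ex`). With the frozen coordinates `K` (`a = 1`, `c = 0`) and
all other coordinates outside `A0` private (`a = 0`, `c = 1`), the position at the share `0` is the
block `K` and the position at the share `1` is the block `K ∪ A0`.
-/

open MeasureTheory ProbabilityTheory Filter Topology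

namespace Vale.Agent.P146.H412

open Vale.Agent.P157.Lv Vale.Agent.P146.H425 Vale.Agent.P146.H332 Vale.Agent.P146.H118
  Vale.Agent.P146.H646 Vale.Agent.P146.H196

set_option linter.unusedSectionVars false

variable {ι : Type} [Fintype ι] [DecidableEq ι]

/-- the coefficient of the frozen coordinates -/
noncomputable def ka (K : Finset ι) : ι → ℝ := fun e => if e ∈ K then 1 else 0

/-- the coefficient of the private coordinates -/
noncomputable def kc (K : Finset ι) : ι → ℝ := fun e => if e ∈ K then 0 else 1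

/-- the coefficient of the second copy -/
noncomputable def kb : ι → ℝ := fun _ => 0

/-- the first copy -/
def wfst (w : ι ⊕ ι → ℝ) : ι → ℝ := fun e => w (Sum.inl e)

/-- the standard Gaussian coordinates -/
noncomputable abbrev gs (ι : Type) : ι → Measure ℝ := fun _ => gaussianReal 0 1

lemma kabc (K : Finset ι) (e : ι) : ka K e ^ 2 + kb e ^ 2 + kc K e ^ 2 = 1 := by
  unfold ka kb kc
  split_ifs <;> norm_num

variable {K A0 : Finset ι} {x : ℝ} {F φ G Q : (ι → ℝ) → ℝ} {D : ι → (ι → ℝ) → ℝ} {B L : ℝ}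

lemma pt_zero (hd : Disjoint K A0) (w : ι ⊕ ι → ℝ) (z : ι → ℝ) :
    pt A0 (ka K) kb (kc K) 0 w z = glue K (wfst w) z := by
  funext e
  by_cases h1 : e ∈ A0
  · have h2 : e ∉ K := fun h => (Finset.disjoint_left.1 hd h h1)
    simp [pt, u, h1, h2, glue]
  · by_cases h2 : e ∈ K <;> simp [pt, u, h1, h2, glue, ka, kb, kc, wfst]

lemma pt_one (w : ι ⊕ ι → ℝ) (z : ι → ℝ) :
    pt A0 (ka K) kb (kc K) 1 w z = glue (K ∪ A0) (wfst w) z := by
  funext e
  by_cases h1 : e ∈ A0
  · simp [pt, u, h1, glue, wfst]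
  · by_cases h2 : e ∈ K <;> simp [pt, u, h1, h2, glue, ka, kb, kc, wfst]

lemma P_zero (hd : Disjoint K A0) (G : (ι → ℝ) → ℝ) (w : ι ⊕ ι → ℝ) :
    P A0 (ka K) kb (kc K) G 0 w = ∫ z, G (glue K (wfst w) z) ∂(gI ι) := by
  unfold P
  simp only [pt_zero hd]

lemma P_one (G : (ι → ℝ) → ℝ) (w : ι ⊕ ι → ℝ) :
    P A0 (ka K) kb (kc K) G 1 w = ∫ z, G (glue (K ∪ A0) (wfst w) z) ∂(gI ι) := by
  unfold P
  simp only [pt_one]

/-- the density at the share `0` -/
lemma zd_zero (hd : Disjoint K A0) (x : ℝ) (F : (ι → ℝ) → ℝ) (w : ι ⊕ ι → ℝ) :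
    zd A0 (ka K) kb (kc K) x F 0 w =
      wn (gs ι) K (fun y => Real.exp (x * F y)) (wfst w) := P_zero hd _ w

/-- the density at the share `1` -/
lemma zd_one (x : ℝ) (F : (ι → ℝ) → ℝ) (w : ι ⊕ ι → ℝ) :
    zd A0 (ka K) kb (kc K) x F 1 w =
      wn (gs ι) (K ∪ A0) (fun y => Real.exp (x * F y)) (wfst w) := P_one _ w

/-- the conditional mean at the share `0` -/
lemma cm_zero (hd : Disjoint K A0) (x : ℝ) (F φ : (ι → ℝ) → ℝ) (w : ι ⊕ ι → ℝ) :
    cm A0 (ka K) kb (kc K) x F φ 0 w =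
      cx (gs ι) K (fun y => Real.exp (x * F y)) φ (wfst w) := by
  unfold cm cx
  rw [zd_zero hd, P_zero hd, div_eq_mul_inv]

/-- the conditional mean at the share `1` -/
lemma cm_one (x : ℝ) (F φ : (ι → ℝ) → ℝ) (w : ι ⊕ ι → ℝ) :
    cm A0 (ka K) kb (kc K) x F φ 1 w =
      cx (gs ι) (K ∪ A0) (fun y => Real.exp (x * F y)) φ (wfst w) := by
  unfold cm cx
  rw [zd_one, P_one, div_eq_mul_inv]

/-- integrating out the coordinates off `K` preserves the exponential growth -/
lemma eg_sec (hG : EG G) (K : Finset ι) : EG fun z => ∫ z', G (glue K z z') ∂(gI ι) := by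
  obtain ⟨C, a, hC, ha, hb⟩ := hG.bdd
  have i0 : 0 ≤ ∫ z : ι → ℝ, Real.exp (a * ‖z‖) ∂(gI ι) :=
    integral_nonneg fun w => (Real.exp_pos _).le
  refine ⟨?_, C * ∫ z : ι → ℝ, Real.exp (a * ‖z‖) ∂(gI ι), a, mul_nonneg hC i0, ha,
    fun z => ?_⟩
  · have : StronglyMeasurable (fun p : (ι → ℝ) × (ι → ℝ) => G (glue K p.1 p.2)) :=
      (hG.meas.comp (measurable_glue K)).stronglyMeasurable
    exact this.integral_prod_right.measurable
  · have h2 : |∫ z', G (glue K z z') ∂(gI ι)| ≤ ∫ z', |G (glue K z z')| ∂(gI ι) := by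
      rw [← Real.norm_eq_abs]
      exact norm_integral_le_integral_norm _
    refine h2.trans ?_
    have h3 : ∫ z', |G (glue K z z')| ∂(gI ι) ≤
        ∫ z', C * Real.exp (a * ‖z‖) * Real.exp (a * ‖z'‖) ∂(gI ι) := by
      refine integral_mono (eg_glue hG.abs K z).integrable
        ((integrable_exp_norm _).const_mul _) fun z' => ?_
      refine (hb _).trans ?_
      rw [mul_assoc, ← Real.exp_add, ← mul_add]
      exact mul_le_mul_of_nonneg_left (Real.exp_le_exp.2
        (mul_le_mul_of_nonneg_left (norm_glue_le K z z') ha)) hC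
    rw [integral_const_mul] at h3
    refine h3.trans (le_of_eq ?_)
    ring

/-- the weight `exp (x F)` is admissible -/
lemma wt_exp (h : C11 F D B L) {F2 : ι → (ι → ℝ) → ℝ} (hF : H325.C2 F D F2) (x : ℝ) :
    Wt (gs ι) fun y => Real.exp (x * F y) :=
  ⟨fun _ => Real.exp_pos _, ((hF.cont.measurable.const_mul x).exp),
    fun K z => (eg_glue (h.eg_exp x) K z).integrable⟩

lemma bm_eg (h : BM φ) : EG φ := by
  obtain ⟨C, hC⟩ := h.bd
  exact EG.of_bdd h.meas hC

/-- a function of the coordinates in `K` does not see the others -/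
lemma dep_update (hQ : Dep K Q) {e : ι} (he : e ∉ K) (z : ι → ℝ) (t : ℝ) :
    Q (Function.update z e t) = Q z := by
  have h1 := hQ (Function.update z e t) z
  have h2 : glue K (Function.update z e t) z = z := by
    funext j
    by_cases hj : j ∈ K
    · have : j ≠ e := fun h => he (h ▸ hj)
      simp [glue, hj, Function.update_of_ne this]
    · simp [glue, hj]
  rw [h2] at h1
  exact h1.symm

/-- Integrals over the block `K`. -/
theorem int_block (hw : Wt (gs ι) G) (hG : EG G) (hK : Dep K Q) (hQ : BM Q) :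
    ∫ w, wn (gs ι) K G (wfst w) * Q (wfst w) ∂(gI (ι ⊕ ι)) = ∫ z, G z * Q z ∂(gI ι) := by
  have h1 : EG fun z => wn (gs ι) K G z * Q z := (eg_sec hG K).mul (bm_eg hQ)
  have h2 := int_inl h1
  have h3 := integral_wn hw hK hQ (BM.const 1)
  have h4 : ∀ z, cx (gs ι) K G (fun _ => (1 : ℝ)) z = 1 := fun z => cx_one hw z
  simp only [mul_one, h4] at h3
  show ∫ w : ι ⊕ ι → ℝ, wn (gs ι) K G (fun e => w (Sum.inl e)) * Q (fun e => w (Sum.inl e))
    ∂(gI (ι ⊕ ι)) = _
  rw [h2, h3]
  refine integral_congr_ae (Filter.Eventually.of_forall fun z => ?_)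
  exact mul_comm _ _

end Vale.Agent.P146.H412
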