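import Vale.Agent.P146.H412.K8
import Vale.Agent.P146.H529.TailSK
import Vale.Agent.P146.H178.AP

/-!
The gain of the doubled exponent for the amplitude law of the SK model, from the natural functional.
-/

open MeasureTheory ProbabilityTheory Filter Topology Set

namespace Vale.Agent.P146.H412

open Vale.Agent.P157.Lv Vale.Agent.P146.H425 Vale.Agent.P146.H475 Vale.Agent.P146.H9
  Vale.Agent.P146.H529 Vale.Agent.P146.H347 Vale.Agent.P146.H196 Vale.Agent.P146.H332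
  Vale.Agent.P146.H877

set_option linter.unusedSectionVars false

lemma gain_lm {Ω : Type} [MeasurableSpace Ω] {ι : Type} [Fintype ι] [DecidableEq ι]
    (μ : Measure Ω) (k : ℝ) (S : ι → Ω → ℝ) {x : ℝ} (hx : 0 < x) :
    gain μ k x S = lm (lzm μ k S) (2 * x) / 2 - lm (lzm μ k S) x := by
  unfold gain lm W
  simp only [one_smul, zero_add]
  field_simp

variable {n : ℕ} {LB LF : Type} [Fintype LB] [DecidableEq LB] [Fintype LF] [DecidableEq LF]
  {b : ℝ} {cB : LB → ℝ} {cF : LF → ℝ} {lam s η y V W a a' A s0 : ℝ}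

/-- **The gain of the amplitude law, in numbers.** -/
theorem gain_num (hn : 1 ≤ n) (hb : 0 < b) (hB : ∑ l, cB l ^ 2 = 1)
    (hV : V = ∑ l, cF l ^ 2 + s ^ 2) (hV1 : V ≤ 1) (hs : 0 < s) (hlam : 1 ≤ lam) (hη : 0 < η)
    (hη1 : η < 1) (hle : 1 ≤ lam * η) (hy : 0 < y) (hy1 : 2 * y ≤ 1)
    (ha : SG n b y V a) (ha' : SG n b (2 * y) V a') (hA : |a| ≤ A) (hA' : |a'| ≤ A) :
    gain (muA (Xs n) lam η (cc n b s a)) 1 y (Sm (LB := LB) (LF := LF) b cB cF s η) ≤
      y * (Phn n b (2 * y) V - Phn n b y V) + 5 * (1 + Real.log n) +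
        3 * y * (n * s ^ 2 * η * A / b) := by
  have h1 := lm_up_num (cB := cB) (cF := cF) hn hb hB hV hV1 hs hlam hη hη1 hy
    (by linarith) (by linarith : 0 < 2 * y) hy1 ha ha' hA hA'
  have h2 := lm_dn_num (cB := cB) (cF := cF) hn hB hV hV1 hs hlam hη hη1 hle hy (by linarith) hy ha
  have e : gain (muA (Xs n) lam η (cc n b s a)) 1 y (Sm (LB := LB) (LF := LF) b cB cF s η) =
      lm (Fsk n LB LF b cB cF lam s η (cc n b s a)) (2 * y) / 2 -
        lm (Fsk n LB LF b cB cF lam s η (cc n b s a)) y := gain_lm _ _ _ hy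
  have e1 : LPhi n b (2 * y) V = 2 * y * Phn n b (2 * y) V := by
    unfold Phn
    field_simp
  have e2 : LPhi n b y V = y * Phn n b y V := by
    unfold Phn
    field_simp
  rw [e1] at h1
  rw [e2] at h2
  rw [e]
  have hlog : 0 ≤ Real.log n := Real.log_nonneg (by exact_mod_cast hn)
  have h3 : y * (5 + Real.log n) ≤ 1 / 2 * (5 + Real.log n) :=
    mul_le_mul_of_nonneg_right (by linarith) (by linarith)
  nlinarith

/-- **The gain of the amplitude law from the a-priori bounds of the natural functional.** -/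
theorem gain_ap (hn : 1 ≤ n) (hb : 0 < b) (hB : ∑ l, cB l ^ 2 = 1)
    (hV : V = ∑ l, cF l ^ 2 + s ^ 2) (hV1 : V ≤ 1) (hs : 0 < s) (hlam : 1 ≤ lam) (hη : 0 < η)
    (hη1 : η < 1) (hle : 1 ≤ lam * η) (hy : 0 < y) (hy1 : 2 * y ≤ 1)
    (h : H178.AP b s0 n y W) (hVW : V ≤ W)
    (ha : SG n b y V a) (ha' : SG n b (2 * y) V a') (hA : |a| ≤ A) (hA' : |a'| ≤ A) :
    gain (muA (Xs n) lam η (cc n b s a)) 1 y (Sm (LB := LB) (LF := LF) b cB cF s η) ≤
      (n : ℝ) ^ (1 + s0) * y ^ 6 + 5 * (1 + Real.log n) + 3 * y * (n * s ^ 2 * η * A / b) := by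
  have hF0 : 0 ≤ ∑ l, cF l ^ 2 := Finset.sum_nonneg fun _ _ => sq_nonneg _
  have hV0 : 0 ≤ V := by rw [hV]; positivity
  have h1 := gain_num (LB := LB) (LF := LF) (cB := cB) (cF := cF) hn hb hB hV hV1 hs hlam hη hη1
    hle hy hy1 ha ha' hA hA'
  have h2 := mul_le_mul_of_nonneg_left (h.tc V hV0 hVW) hy.le
  have e : y * ((n : ℝ) ^ (1 + s0) * y ^ 5) = (n : ℝ) ^ (1 + s0) * y ^ 6 := by ring
  rw [e] at h2
  linarith

end Vale.Agent.P146.H412
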