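import Vale.Agent.P146.H118.Rank

/-!
Fourth moments in the share. For the conditional means given the position (`H118.cm`) and the
second moments of the slopes `sm D H k e = H k e + D k D e`:
`(s1 - s0) E_{s0} ∑ cm (sm k e)² ≤ (2 / x²) (E_{s1} ∑ cm (D k)² - E_{s0} ∑ cm (D k)²)
  + 2 (s1 - s0) E_{s1} (∑ cm (D k)²)²`.
-/

open MeasureTheory ProbabilityTheory Filter Topology

namespace Vale.Agent.P146.H412

open Vale.Agent.P157.Lv Vale.Agent.P146.H425 Vale.Agent.P146.H332 Vale.Agent.P146.H118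

set_option linter.unusedSectionVars false

variable {ι : Type} [Fintype ι] [DecidableEq ι]

variable {A0 : Finset ι} {a b c : ι → ℝ} {x s : ℝ} {F : (ι → ℝ) → ℝ} {D : ι → (ι → ℝ) → ℝ}
  {H T : ι → ι → (ι → ℝ) → ℝ} {B L M : ℝ} {Y : (ι ⊕ ι → ℝ) → ℝ}

/-- The second moment of conditional means does not decrease in the share. -/
theorem sq_mono (h : C11 F D B L) {F2 : ι → (ι → ℝ) → ℝ} (hF : H325.C2 F D F2)
    {K : Type*} (S : Finset K) {f : K → (ι → ℝ) → ℝ} {f1 f2 : K → ι → (ι → ℝ) → ℝ}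
    (hf : ∀ k ∈ S, H325.C2 (f k) (f1 k) (f2 k)) (hx : 0 ≤ x) (A0 : Finset ι) (a b c : ι → ℝ)
    (hY : EG Y) (hY0 : ∀ w, 0 ≤ Y w)
    (hYi : ∀ e ∈ A0, ∀ w t, Y (Function.update w (Sum.inl e) t) = Y w)
    {s0 s1 : ℝ} (h0 : 0 ≤ s0) (h01 : s0 ≤ s1) (h1 : s1 ≤ 1) :
    (∫ w, zd A0 a b c x F s0 w * (Y w * ∑ k ∈ S, cm A0 a b c x F (f k) s0 w ^ 2)
        ∂(gI (ι ⊕ ι))) ≤
      ∫ w, zd A0 a b c x F s1 w * (Y w * ∑ k ∈ S, cm A0 a b c x F (f k) s1 w ^ 2)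
        ∂(gI (ι ⊕ ι)) := by
  have h2 := ftc_sq h hF S hf hx A0 a b c hY hYi h0 h01 h1
  have h3 : 0 ≤ ∫ s in s0..s1, (∫ w, zd A0 a b c x F s w *
        (Y w * ∑ k ∈ S, ∑ e ∈ A0, dcm A0 a b c x F D (f k) (f1 k) e s w ^ 2) ∂(gI (ι ⊕ ι))) := by
    refine intervalIntegral.integral_nonneg h01 fun s _ => integral_nonneg fun w => ?_
    have h4 := zd_pos (A0 := A0) (a := a) (b := b) (c := c) h x s w
    have h5 := hY0 w
    exact mul_nonneg h4.le (mul_nonneg h5 (Finset.sum_nonneg fun _ _ =>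
      Finset.sum_nonneg fun _ _ => sq_nonneg _))
  linarith

/-- The square of a sum of squares of conditional means. -/
theorem kx_sqsq (h : C11 F D B L) {F2 : ι → (ι → ℝ) → ℝ} (hF : H325.C2 F D F2)
    {K : Type*} (S : Finset K) {f : K → (ι → ℝ) → ℝ} {f1 f2 : K → ι → (ι → ℝ) → ℝ}
    (hf : ∀ k ∈ S, H325.C2 (f k) (f1 k) (f2 k)) (hx : 0 ≤ x) (A0 : Finset ι) (a b c : ι → ℝ)
    (hY : EG Y) (hY0 : ∀ w, 0 ≤ Y w)
    (hYi : ∀ e ∈ A0, ∀ w t, Y (Function.update w (Sum.inl e) t) = Y w) :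
    ∃ D' L', (∀ s w, 0 ≤ L' s w) ∧
      KX (A0.map Function.Embedding.inl) (zd A0 a b c x F) (dzd A0 a b c x F D)
      (fun s w => Y w * (∑ k ∈ S, cm A0 a b c x F (f k) s w ^ 2) ^ 2) D' L' := by
  have k1 := (KX.sum S fun k (hk : k ∈ S) => (kx_cm h hF (hf k hk) hx A0 a b c).sq).sq
  have kY : KX (A0.map Function.Embedding.inl) (zd A0 a b c x F) (dzd A0 a b c x F D)
      (fun _ w => Y w) (fun _ _ _ => 0) (fun _ _ => 0) := by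
    refine KX.weight hY fun j hj y r => ?_
    obtain ⟨e, he, rfl⟩ := Finset.mem_map.1 hj
    exact hYi e he y r
  refine ⟨_, _, fun s w => ?_, kY.mul k1⟩
  simp only [mul_zero, zero_mul, add_zero, zero_add, Finset.sum_const_zero]
  refine mul_nonneg (hY0 w) (add_nonneg (mul_nonneg (mul_nonneg zero_le_two
    (Finset.sum_nonneg fun _ _ => sq_nonneg _)) (Finset.sum_nonneg fun _ _ =>
      Finset.sum_nonneg fun _ _ => sq_nonneg _)) (Finset.sum_nonneg fun _ _ => sq_nonneg _))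

/-- The mean of `(∑ cm²)²` does not decrease in the share. -/
theorem sqsq_mono (h : C11 F D B L) {F2 : ι → (ι → ℝ) → ℝ} (hF : H325.C2 F D F2)
    {K : Type*} (S : Finset K) {f : K → (ι → ℝ) → ℝ} {f1 f2 : K → ι → (ι → ℝ) → ℝ}
    (hf : ∀ k ∈ S, H325.C2 (f k) (f1 k) (f2 k)) (hx : 0 ≤ x) (A0 : Finset ι) (a b c : ι → ℝ)
    (hY : EG Y) (hY0 : ∀ w, 0 ≤ Y w)
    (hYi : ∀ e ∈ A0, ∀ w t, Y (Function.update w (Sum.inl e) t) = Y w)
    {s0 s1 : ℝ} (h0 : 0 ≤ s0) (h01 : s0 ≤ s1) (h1 : s1 ≤ 1) :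
    (∫ w, zd A0 a b c x F s0 w * (Y w * (∑ k ∈ S, cm A0 a b c x F (f k) s0 w ^ 2) ^ 2)
        ∂(gI (ι ⊕ ι))) ≤
      ∫ w, zd A0 a b c x F s1 w * (Y w * (∑ k ∈ S, cm A0 a b c x F (f k) s1 w ^ 2) ^ 2)
        ∂(gI (ι ⊕ ι)) := by
  obtain ⟨D', L', hL, hk⟩ := kx_sqsq h hF S hf hx A0 a b c hY hY0 hYi
  have h2 := KX.ftc (den_zd h hF hx A0 a b c) hk h0 h01 h1
  have h3 : 0 ≤ ∫ s in s0..s1, (∫ w, zd A0 a b c x F s w * L' s w ∂(gI (ι ⊕ ι))) := by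
    refine intervalIntegral.integral_nonneg h01 fun s _ => integral_nonneg fun w => ?_
    exact mul_nonneg (zd_pos h x s w).le (hL s w)
  linarith

/-- the weighted mean of `∑ cm (sm k e)²` -/
noncomputable def T4 (A0 : Finset ι) (a b c : ι → ℝ) (x : ℝ) (F : (ι → ℝ) → ℝ)
    (D : ι → (ι → ℝ) → ℝ) (H : ι → ι → (ι → ℝ) → ℝ) (Y : (ι ⊕ ι → ℝ) → ℝ) (s : ℝ) : ℝ :=
  ∫ w, zd A0 a b c x F s w * (Y w * ∑ p ∈ A0 ×ˢ A0,
    cm A0 a b c x F (sm D H p.1 p.2) s w ^ 2) ∂(gI (ι ⊕ ι))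

/-- the weighted mean of `(∑ cm (D k)²)²` -/
noncomputable def A4 (A0 : Finset ι) (a b c : ι → ℝ) (x : ℝ) (F : (ι → ℝ) → ℝ)
    (D : ι → (ι → ℝ) → ℝ) (Y : (ι ⊕ ι → ℝ) → ℝ) (s : ℝ) : ℝ :=
  ∫ w, zd A0 a b c x F s w * (Y w * (∑ k ∈ A0, cm A0 a b c x F (D k) s w ^ 2) ^ 2)
    ∂(gI (ι ⊕ ι))

lemma cont_T4 (h : R1.Sm F D B L H T M) (hx : 0 ≤ x) (A0 : Finset ι) (a b c : ι → ℝ)
    (hY : EG Y) : ContinuousOn (T4 A0 a b c x F D H Y) (Set.Icc 0 1) :=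
  ((den_zd h.c11 h.cF hx A0 a b c).kf.gf.mul ((GE.of_eg hY).mul (GE.sum (A0 ×ˢ A0) fun p _ =>
    (ge_cm h.c11 h.cF hx (eg_sm h p.1 p.2) (cont_sm h p.1 p.2) A0 a b c).pow 2))).continuousOn

lemma cont_A4 (h : R1.Sm F D B L H T M) (hx : 0 ≤ x) (A0 : Finset ι) (a b c : ι → ℝ)
    (hY : EG Y) : ContinuousOn (A4 A0 a b c x F D Y) (Set.Icc 0 1) :=
  ((den_zd h.c11 h.cF hx A0 a b c).kf.gf.mul ((GE.of_eg hY).mul ((GE.sum A0 fun k _ =>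
    (ge_cm h.c11 h.cF hx (h.eD k) (h.cF.c1 k) A0 a b c).pow 2).pow 2))).continuousOn

/-- pointwise: `∑ cm (sm k e)² ≤ 2 ∑ kt² + 2 (∑ cm (D k)²)²` -/
lemma sm_le (A0 : Finset ι) (a b c : ι → ℝ) (x : ℝ) (F : (ι → ℝ) → ℝ)
    (D : ι → (ι → ℝ) → ℝ) (H : ι → ι → (ι → ℝ) → ℝ) (s : ℝ) (w : ι ⊕ ι → ℝ) :
    ∑ p ∈ A0 ×ˢ A0, cm A0 a b c x F (sm D H p.1 p.2) s w ^ 2 ≤
      2 * ∑ k ∈ A0, ∑ e ∈ A0, kt A0 a b c x F D H k e s w ^ 2 +
        2 * (∑ k ∈ A0, cm A0 a b c x F (D k) s w ^ 2) ^ 2 := by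
  have e1 : (∑ k ∈ A0, cm A0 a b c x F (D k) s w ^ 2) ^ 2 =
      ∑ k ∈ A0, ∑ e ∈ A0, (cm A0 a b c x F (D k) s w * cm A0 a b c x F (D e) s w) ^ 2 := by
    rw [pow_two, Finset.sum_mul_sum]
    exact Finset.sum_congr rfl fun k _ => Finset.sum_congr rfl fun e _ => by ring
  rw [e1, Finset.sum_product, Finset.mul_sum, Finset.mul_sum, ← Finset.sum_add_distrib]
  refine Finset.sum_le_sum fun k _ => ?_
  rw [Finset.mul_sum, Finset.mul_sum, ← Finset.sum_add_distrib]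
  refine Finset.sum_le_sum fun e _ => ?_
  unfold kt
  nlinarith [sq_nonneg (cm A0 a b c x F (sm D H k e) s w -
    2 * (cm A0 a b c x F (D k) s w * cm A0 a b c x F (D e) s w))]

lemma T4_le (h : R1.Sm F D B L H T M) (hx : 0 ≤ x) (hY : EG Y) (hY0 : ∀ w, 0 ≤ Y w)
    {s : ℝ} (hsI : s ∈ Set.Icc (0 : ℝ) 1) :
    T4 A0 a b c x F D H Y s ≤ 2 * Kq A0 a b c x F D H Y s + 2 * A4 A0 a b c x F D Y s := by
  unfold T4 Kq A4
  have g0 := (den_zd h.c11 h.cF hx A0 a b c).kf.gf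
  have g1 := g0.mul ((GE.of_eg hY).mul (GE.sum A0 fun k _ =>
    GE.sum A0 fun e _ => (ge_kt h hx A0 a b c k e).pow 2))
  have g2 := g0.mul ((GE.of_eg hY).mul ((GE.sum A0 fun k _ =>
    (ge_cm h.c11 h.cF hx (h.eD k) (h.cF.c1 k) A0 a b c).pow 2).pow 2))
  have g3 := g0.mul ((GE.of_eg hY).mul (GE.sum (A0 ×ˢ A0) fun p _ =>
    (ge_cm h.c11 h.cF hx (eg_sm h p.1 p.2) (cont_sm h p.1 p.2) A0 a b c).pow 2))
  rw [← integral_const_mul, ← integral_const_mul,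
    ← integral_add ((g1.eg hsI).integrable.const_mul 2) ((g2.eg hsI).integrable.const_mul 2)]
  refine integral_mono (g3.eg hsI).integrable
    (((g1.eg hsI).integrable.const_mul 2).add ((g2.eg hsI).integrable.const_mul 2)) fun w => ?_
  have h2 : 0 ≤ zd A0 a b c x F s w * Y w := mul_nonneg (zd_pos h.c11 x s w).le (hY0 w)
  have h3 := mul_le_mul_of_nonneg_left (sm_le A0 a b c x F D H s w) h2
  show zd A0 a b c x F s w * (Y w * ∑ p ∈ A0 ×ˢ A0,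
    cm A0 a b c x F (sm D H p.1 p.2) s w ^ 2) ≤
    2 * (zd A0 a b c x F s w * (Y w * ∑ k ∈ A0, ∑ e ∈ A0, kt A0 a b c x F D H k e s w ^ 2)) +
    2 * (zd A0 a b c x F s w * (Y w * (∑ k ∈ A0, cm A0 a b c x F (D k) s w ^ 2) ^ 2))
  linarith

/-- **Fourth moments in a window of shares.** -/
theorem mom4 (h : R1.Sm F D B L H T M) (hp : Ps A0 H) {S1 S2 : ι × ι → ι → (ι → ℝ) → ℝ}
    (hS : ∀ p ∈ A0 ×ˢ A0, H325.C2 (sm D H p.1 p.2) (S1 p) (S2 p)) (hx : 0 ≤ x) (hx1 : x ≤ 1)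
    (a b c : ι → ℝ) (hY : EG Y) (hY0 : ∀ w, 0 ≤ Y w)
    (hYi : ∀ e ∈ A0, ∀ w t, Y (Function.update w (Sum.inl e) t) = Y w)
    {s0 s1 : ℝ} (h0 : 0 ≤ s0) (h01 : s0 ≤ s1) (h1 : s1 ≤ 1) :
    x ^ 2 * ((s1 - s0) * T4 A0 a b c x F D H Y s0) ≤
      2 * (QqF A0 a b c x F D Y s1 - QqF A0 a b c x F D Y s0) +
        2 * (x ^ 2 * ((s1 - s0) * A4 A0 a b c x F D Y s1)) := by
  have hsub : Set.uIcc s0 s1 ⊆ Set.Icc (0 : ℝ) 1 := by
    rw [Set.uIcc_of_le h01]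
    exact Set.Icc_subset_Icc h0 h1
  have i1 := ((cont_T4 (H := H) (T := T) h hx A0 a b c hY).mono hsub).intervalIntegrable
    (μ := volume)
  have i2 := ((cont_Kq (H := H) (T := T) h hx A0 a b c hY).mono hsub).intervalIntegrable
    (μ := volume)
  have k1 : (s1 - s0) * T4 A0 a b c x F D H Y s0 ≤ ∫ s in s0..s1, T4 A0 a b c x F D H Y s := by
    have e1 : (s1 - s0) * T4 A0 a b c x F D H Y s0 =
        ∫ _s in s0..s1, T4 A0 a b c x F D H Y s0 := by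
      rw [intervalIntegral.integral_const, smul_eq_mul]
    rw [e1]
    refine intervalIntegral.integral_mono_on h01 intervalIntegrable_const i1 fun s hs => ?_
    exact sq_mono h.c11 h.cF (A0 ×ˢ A0) hS hx A0 a b c hY hY0 hYi h0 hs.1 (hs.2.trans h1)
  have k2 : ∫ s in s0..s1, T4 A0 a b c x F D H Y s ≤
      ∫ s in s0..s1, (2 * Kq A0 a b c x F D H Y s + 2 * A4 A0 a b c x F D Y s1) := by
    refine intervalIntegral.integral_mono_on h01 i1 ((i2.const_mul 2).add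
      intervalIntegrable_const) fun s hs => ?_
    have hsI : s ∈ Set.Icc (0 : ℝ) 1 := ⟨h0.trans hs.1, hs.2.trans h1⟩
    have h3 := T4_le (A0 := A0) (a := a) (b := b) (c := c) h hx hY hY0 hsI
    have h4 : A4 A0 a b c x F D Y s ≤ A4 A0 a b c x F D Y s1 :=
      sqsq_mono h.c11 h.cF A0 (fun k _ => h.cD k) hx A0 a b c hY hY0 hYi hsI.1 hs.2 h1
    linarith
  have k3 : ∫ s in s0..s1, (2 * Kq A0 a b c x F D H Y s + 2 * A4 A0 a b c x F D Y s1) =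
      2 * (∫ s in s0..s1, Kq A0 a b c x F D H Y s) + (s1 - s0) * (2 * A4 A0 a b c x F D Y s1) := by
    rw [intervalIntegral.integral_add (i2.const_mul 2) intervalIntegrable_const,
      intervalIntegral.integral_const_mul, intervalIntegral.integral_const, smul_eq_mul]
  have k4 := window_kt h hp hx hx1 a b c hY hY0 hYi h0 h01 h1
  have hx2 : 0 ≤ x ^ 2 := sq_nonneg x
  have k5 := mul_le_mul_of_nonneg_left ((k1.trans k2).trans_eq k3) hx2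
  linarith

end Vale.Agent.P146.H412
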