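import Vale.Agent.P146.H412.Mom4
import Vale.Agent.P146.H412.Br
import Vale.Agent.P146.H281.TailP

/-!
Fourth moments and exponential moments in the block form (`cx`, `ex`), for Gibbs measures over a
finite measure space.
-/

open MeasureTheory ProbabilityTheory Filter Topology

namespace Vale.Agent.P146.H412

open Vale.Agent.P157.Lv Vale.Agent.P146.H425 Vale.Agent.P146.H332 Vale.Agent.P146.H118
  Vale.Agent.P146.H646 Vale.Agent.P146.H196

set_option linter.unusedSectionVars false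

variable {ι : Type} [Fintype ι] [DecidableEq ι]

section gen

variable {K A0 : Finset ι} {x : ℝ} {F φ Q : (ι → ℝ) → ℝ} {D : ι → (ι → ℝ) → ℝ}
  {H T : ι → ι → (ι → ℝ) → ℝ} {B L M : ℝ}

/-- The mean of a block function at the share `0`. -/
lemma int_zero (h : C11 F D B L) {F2 : ι → (ι → ℝ) → ℝ} (hF : H325.C2 F D F2) (x : ℝ)
    (hd : Disjoint K A0) (hK : Dep K Q) (hQ : BM Q) :
    ∫ w, zd A0 (ka K) kb (kc K) x F 0 w * Q (wfst w) ∂(gI (ι ⊕ ι)) =
      ∫ z, Real.exp (x * F z) * Q z ∂(gI ι) := by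
  simp only [zd_zero hd]
  exact int_block (wt_exp h hF x) (h.eg_exp x) hK hQ

/-- The mean of a block function at the share `1`. -/
lemma int_one (h : C11 F D B L) {F2 : ι → (ι → ℝ) → ℝ} (hF : H325.C2 F D F2) (x : ℝ)
    (hK : Dep (K ∪ A0) Q) (hQ : BM Q) :
    ∫ w, zd A0 (ka K) kb (kc K) x F 1 w * Q (wfst w) ∂(gI (ι ⊕ ι)) =
      ∫ z, Real.exp (x * F z) * Q z ∂(gI ι) := by
  simp only [zd_one]
  exact int_block (wt_exp h hF x) (h.eg_exp x) hK hQ

lemma dep_sum_sq {J : Type*} (s : Finset J) {f : J → (ι → ℝ) → ℝ} {K : Finset ι}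
    (h : ∀ j ∈ s, Dep K (f j)) : Dep K fun z => ∑ j ∈ s, f j z ^ 2 := fun z z' =>
  Finset.sum_congr rfl fun j hj => by rw [h j hj z z']

lemma bm_sum_sq {J : Type*} (s : Finset J) {f : J → (ι → ℝ) → ℝ}
    (h : ∀ j ∈ s, BM (f j)) : BM fun z => ∑ j ∈ s, f j z ^ 2 :=
  BM.sum s fun j hj => by simpa only [sq] using (h j hj).mul (h j hj)

/-- **Fourth moments, block form** (not normalised), for bounded `D` and `H`. -/
theorem mom4_block (h : R1.Sm F D B L H T M) (hp : Ps A0 H)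
    {S1 S2 : ι × ι → ι → (ι → ℝ) → ℝ}
    (hS : ∀ p ∈ A0 ×ˢ A0, H325.C2 (sm D H p.1 p.2) (S1 p) (S2 p)) (hx : 0 ≤ x) (hx1 : x ≤ 1)
    (hd : Disjoint K A0) (hQ : BM Q) (hQK : Dep K Q) (hQ0 : ∀ z, 0 ≤ Q z)
    (bD : ∀ e, BM (D e)) (bS : ∀ p ∈ A0 ×ˢ A0, BM (sm D H p.1 p.2)) :
    x ^ 2 * ∫ z, Real.exp (x * F z) * (Q z * ∑ p ∈ A0 ×ˢ A0,
        cx (gs ι) K (fun y => Real.exp (x * F y)) (sm D H p.1 p.2) z ^ 2) ∂(gI ι) ≤
      2 * ((∫ z, Real.exp (x * F z) * (Q z * ∑ e ∈ A0,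
          cx (gs ι) (K ∪ A0) (fun y => Real.exp (x * F y)) (D e) z ^ 2) ∂(gI ι)) -
        ∫ z, Real.exp (x * F z) * (Q z * ∑ e ∈ A0,
          cx (gs ι) K (fun y => Real.exp (x * F y)) (D e) z ^ 2) ∂(gI ι)) +
      2 * (x ^ 2 * ∫ z, Real.exp (x * F z) * (Q z * (∑ e ∈ A0,
          cx (gs ι) (K ∪ A0) (fun y => Real.exp (x * F y)) (D e) z ^ 2) ^ 2) ∂(gI ι)) := by
  have hw := wt_exp h.c11 h.cF x
  have hY : EG fun w : ι ⊕ ι → ℝ => Q (wfst w) := eg_inl (bm_eg hQ)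
  have hYi : ∀ e ∈ A0, ∀ (w : ι ⊕ ι → ℝ) t,
      Q (wfst (Function.update w (Sum.inl e) t)) = Q (wfst w) := by
    intro e he w t
    have h1 : wfst (Function.update w (Sum.inl e) t) = Function.update (wfst w) e t := by
      funext j
      by_cases hj : j = e
      · subst hj
        simp [wfst]
      · have h2 : (Sum.inl j : ι ⊕ ι) ≠ Sum.inl e := fun h => hj (Sum.inl_injective h)
        simp [wfst, Function.update_of_ne hj, Function.update_of_ne h2]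
    rw [h1]
    exact dep_update hQK (fun h => Finset.disjoint_left.1 hd h he) _ _
  have h1 := mom4 (A0 := A0) h hp hS hx hx1 (ka K) kb (kc K) hY (fun w => hQ0 _) hYi
    le_rfl zero_le_one le_rfl
  have hQK' : Dep (K ∪ A0) Q := hQK.mono Finset.subset_union_left
  have e1 : T4 A0 (ka K) kb (kc K) x F D H (fun w => Q (wfst w)) 0 =
      ∫ z, Real.exp (x * F z) * (Q z * ∑ p ∈ A0 ×ˢ A0,
        cx (gs ι) K (fun y => Real.exp (x * F y)) (sm D H p.1 p.2) z ^ 2) ∂(gI ι) := by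
    unfold T4
    simp only [cm_zero hd]
    refine int_zero (Q := fun z => Q z * ∑ p ∈ A0 ×ˢ A0,
        cx (gs ι) K (fun y => Real.exp (x * F y)) (sm D H p.1 p.2) z ^ 2) h.c11 h.cF x hd
        (fun z z' => ?_) (hQ.mul (bm_sum_sq _ fun p hp => hw.bm_cx K (bS p hp)))
    simp only [hQK z z', dep_sum_sq (A0 ×ˢ A0) (fun p _ => dep_cx K) z z']
  have e2 : QqF A0 (ka K) kb (kc K) x F D (fun w => Q (wfst w)) 1 =
      ∫ z, Real.exp (x * F z) * (Q z * ∑ e ∈ A0,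
          cx (gs ι) (K ∪ A0) (fun y => Real.exp (x * F y)) (D e) z ^ 2) ∂(gI ι) := by
    unfold QqF
    simp only [cm_one]
    refine int_one (Q := fun z => Q z * ∑ e ∈ A0,
        cx (gs ι) (K ∪ A0) (fun y => Real.exp (x * F y)) (D e) z ^ 2) h.c11 h.cF x
        (fun z z' => ?_) (hQ.mul (bm_sum_sq _ fun e _ => hw.bm_cx (K ∪ A0) (bD e)))
    simp only [hQK' z z', dep_sum_sq A0 (fun e _ => dep_cx (K ∪ A0)) z z']
  have e3 : QqF A0 (ka K) kb (kc K) x F D (fun w => Q (wfst w)) 0 =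
      ∫ z, Real.exp (x * F z) * (Q z * ∑ e ∈ A0,
          cx (gs ι) K (fun y => Real.exp (x * F y)) (D e) z ^ 2) ∂(gI ι) := by
    unfold QqF
    simp only [cm_zero hd]
    refine int_zero (Q := fun z => Q z * ∑ e ∈ A0,
        cx (gs ι) K (fun y => Real.exp (x * F y)) (D e) z ^ 2) h.c11 h.cF x hd
        (fun z z' => ?_) (hQ.mul (bm_sum_sq _ fun e _ => hw.bm_cx K (bD e)))
    simp only [hQK z z', dep_sum_sq A0 (fun e _ => dep_cx K) z z']
  have e4 : A4 A0 (ka K) kb (kc K) x F D (fun w => Q (wfst w)) 1 =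
      ∫ z, Real.exp (x * F z) * (Q z * (∑ e ∈ A0,
          cx (gs ι) (K ∪ A0) (fun y => Real.exp (x * F y)) (D e) z ^ 2) ^ 2) ∂(gI ι) := by
    unfold A4
    simp only [cm_one]
    have hb : BM fun z => ∑ e ∈ A0,
        cx (gs ι) (K ∪ A0) (fun y => Real.exp (x * F y)) (D e) z ^ 2 :=
      bm_sum_sq _ fun e _ => hw.bm_cx (K ∪ A0) (bD e)
    refine int_one (Q := fun z => Q z * (∑ e ∈ A0,
        cx (gs ι) (K ∪ A0) (fun y => Real.exp (x * F y)) (D e) z ^ 2) ^ 2) h.c11 h.cF x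
        (fun z z' => ?_) (hQ.mul (by simpa only [sq] using hb.mul hb))
    simp only [hQK' z z', dep_sum_sq A0 (fun e _ => dep_cx (K ∪ A0)) z z']
  rw [e1, e2, e3, e4] at h1
  simpa only [sub_zero, one_mul] using h1

/-- **The exponential moment of the squared gradient in the hidden coordinates, block form.** -/
theorem exp_block (h : C11 F D B L) {F2 : ι → (ι → ℝ) → ℝ} (hF : H325.C2 F D F2) (hc : Cv F)
    (hx : 0 < x) (K : Finset ι) (bD : ∀ e, BM (D e)) :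
    ∫ z, Real.exp (x * F z) * Real.exp (x ^ 2 / 2 * ∑ e ∈ Finset.univ \ K,
        cx (gs ι) K (fun y => Real.exp (x * F y)) (D e) z ^ 2) ∂(gI ι) ≤
      Real.exp (x * W (2 * x) 1 F 0) := by
  have hw := wt_exp h hF x
  have h1 := H281.exp_grad (A0 := ∅) (a := ka K) (b := kb) (c := kc K) (s := 0) h hc hx
    ⟨le_rfl, zero_le_one⟩ fun e _ => kabc K e
  have hd : Disjoint K (∅ : Finset ι) := Finset.disjoint_empty_right K
  have e1 : ∀ w : ι ⊕ ι → ℝ, ∑ e, H281.gc ∅ (kc K) 0 e ^ 2 *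
      cm ∅ (ka K) kb (kc K) x F (D e) 0 w ^ 2 = ∑ e ∈ Finset.univ \ K,
        cx (gs ι) K (fun y => Real.exp (x * F y)) (D e) (wfst w) ^ 2 := by
    intro w
    rw [← Finset.sum_subset (Finset.subset_univ (Finset.univ \ K))]
    · refine Finset.sum_congr rfl fun e he => ?_
      have he' : e ∉ K := (Finset.mem_sdiff.1 he).2
      rw [cm_zero hd]
      simp [H281.gc, kc, he']
    · intro e _ he
      have he' : e ∈ K := by
        by_contra hcon
        exact he (Finset.mem_sdiff.2 ⟨Finset.mem_univ e, hcon⟩)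
      simp [H281.gc, kc, he']
  simp only [e1] at h1
  have hb : BM fun z => ∑ e ∈ Finset.univ \ K,
      cx (gs ι) K (fun y => Real.exp (x * F y)) (D e) z ^ 2 :=
    bm_sum_sq _ fun e _ => hw.bm_cx K (bD e)
  refine le_trans (le_of_eq ?_) h1
  refine (int_zero (Q := fun z => Real.exp (x ^ 2 / 2 * ∑ e ∈ Finset.univ \ K,
      cx (gs ι) K (fun y => Real.exp (x * F y)) (D e) z ^ 2)) h hF x hd
      (fun z z' => ?_) ?_).symm
  · simp only [dep_sum_sq (Finset.univ \ K) (fun e _ => dep_cx K) z z']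
  · obtain ⟨C, hC⟩ := hb.bd
    refine ⟨(hb.meas.const_mul _).exp, Real.exp (x ^ 2 / 2 * C), fun z => ?_⟩
    rw [abs_of_pos (Real.exp_pos _)]
    exact Real.exp_le_exp.2 (mul_le_mul_of_nonneg_left ((le_abs_self _).trans (hC z))
      (by positivity))

end gen

/-- `z ^ p ≤ 2 ^ (p - 1) (G ^ p + p! exp (z - G))` -/
lemma pow_le_exp {z G : ℝ} (hz : 0 ≤ z) (hG : 0 ≤ G) (p : ℕ) :
    z ^ p ≤ 2 ^ (p - 1) * (G ^ p + p.factorial * Real.exp (z - G)) := by
  have h2 : (1 : ℝ) ≤ 2 ^ (p - 1) := one_le_pow₀ one_le_two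
  have hf : (0 : ℝ) < p.factorial := by exact_mod_cast p.factorial_pos
  rcases le_total z G with h | h
  · have h3 : z ^ p ≤ G ^ p := pow_le_pow_left₀ hz h p
    have h4 : 0 ≤ (p.factorial : ℝ) * Real.exp (z - G) := by positivity
    have h5 : 0 ≤ G ^ p := by positivity
    nlinarith
  · have hu : 0 ≤ z - G := sub_nonneg.2 h
    have h3 := add_pow_le hG hu p
    rw [add_sub_cancel] at h3
    have h4 := Real.pow_div_factorial_le_exp (z - G) hu p
    rw [div_le_iff₀ hf] at h4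
    refine h3.trans (mul_le_mul_of_nonneg_left ?_ (by positivity))
    linarith

/-! ### Gibbs measures -/

section gibbs

variable {Ω : Type} [MeasurableSpace Ω] {μ : Measure Ω} {k x : ℝ} {S : ι → Ω → ℝ} {M0 : ℝ}
  {K A0 : Finset ι} {Q : (ι → ℝ) → ℝ}

lemma Zxm_eq' (μ : Measure Ω) (k x : ℝ) (S : ι → Ω → ℝ) (z : ι → ℝ) :
    Real.exp (x * lzm μ k S z) = Zxm μ k S x z := rfl

lemma sm_gm (μ : Measure Ω) (k : ℝ) (S : ι → Ω → ℝ) (e f : ι) :
    sm (Dm μ k S) (Hm μ k S) e f = fun u => k ^ 2 * avm μ k S (fun w => S e w * S f w) u := by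
  funext u
  unfold sm Hm Dm
  ring

/-- **Fourth moments of Gibbs measures, block form.** -/
theorem mom4_cx (hG : GM μ S M0) (k : ℝ) (hx : 0 ≤ x) (hx1 : x ≤ 1) (hd : Disjoint K A0)
    (hQ : BM Q) (hQK : Dep K Q) (hQ0 : ∀ z, 0 ≤ Q z) :
    x ^ 2 * (k ^ 4 * ex (gs ι) (Zxm μ k S x) (fun z => Q z * ∑ e ∈ A0, ∑ f ∈ A0,
        cx (gs ι) K (Zxm μ k S x) (avm μ k S fun w => S e w * S f w) z ^ 2)) ≤
      2 * (k ^ 2 * (ex (gs ι) (Zxm μ k S x) (fun z => Q z * ∑ e ∈ A0,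
          cx (gs ι) (K ∪ A0) (Zxm μ k S x) (avm μ k S (S e)) z ^ 2) -
        ex (gs ι) (Zxm μ k S x) (fun z => Q z * ∑ e ∈ A0,
          cx (gs ι) K (Zxm μ k S x) (avm μ k S (S e)) z ^ 2))) +
      2 * (x ^ 2 * (k ^ 4 * ex (gs ι) (Zxm μ k S x) (fun z => Q z * (∑ e ∈ A0,
          cx (gs ι) (K ∪ A0) (Zxm μ k S x) (avm μ k S (S e)) z ^ 2) ^ 2))) := by
  have hw : Wt (gs ι) (Zxm μ k S x) := hG.wt k x
  have bSS : ∀ e f, BM (avm μ k S fun w => S e w * S f w) := fun e f =>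
    hG.bm_avm k ((hG.bS e).mul (hG.bS f))
  have bS : ∀ e, BM (avm μ k S (S e)) := fun e => hG.bm_avm k (hG.bS e)
  have hS : ∀ p : ι × ι, p ∈ A0 ×ˢ A0 →
      H325.C2 (sm (Dm μ k S) (Hm μ k S) p.1 p.2) (fun i u => k ^ 2 * (k * (avm μ k S
        (fun w => S p.1 w * S p.2 w * S i w) u - avm μ k S (fun w => S p.1 w * S p.2 w) u *
          avm μ k S (S i) u)))
        (fun i u => k ^ 2 * avm2 μ k S (fun w => S p.1 w * S p.2 w) i u) := by
    intro p _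
    rw [sm_gm]
    exact (hG.c2_av k ((hG.bS p.1).mul (hG.bS p.2))).const_mul (k ^ 2)
  have h1 := mom4_block (K := K) (A0 := A0) (Q := Q) (hG.sm k) (ps_of_cv (hG.sm k) (hG.cv k) A0)
    (S1 := fun p i u => k ^ 2 * (k * (avm μ k S
        (fun w => S p.1 w * S p.2 w * S i w) u - avm μ k S (fun w => S p.1 w * S p.2 w) u *
          avm μ k S (S i) u)))
    (S2 := fun p i u => k ^ 2 * avm2 μ k S (fun w => S p.1 w * S p.2 w) i u)
    hS hx hx1 hd hQ hQK hQ0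
    (fun e => (BM.mul (BM.const k) (bS e) : BM fun z => k * avm μ k S (S e) z))
    (fun p _ => by rw [sm_gm]; exact BM.mul (BM.const (k ^ 2)) (bSS p.1 p.2))
  simp only [Zxm_eq'] at h1
  have ht : 0 < ∫ z, Zxm μ k S x z ∂(Measure.pi (gs ι)) := hw.tot_pos
  have e1 : ∀ (K' : Finset ι) (e : ι) (z : ι → ℝ), cx (gs ι) K' (Zxm μ k S x) (Dm μ k S e) z =
      k * cx (gs ι) K' (Zxm μ k S x) (avm μ k S (S e)) z := fun K' e z =>
    cx_const_mul hw k z
  have e2 : ∀ (e f : ι) (z : ι → ℝ), cx (gs ι) K (Zxm μ k S x)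
      (sm (Dm μ k S) (Hm μ k S) e f) z = k ^ 2 *
        cx (gs ι) K (Zxm μ k S x) (avm μ k S fun w => S e w * S f w) z := by
    intro e f z
    rw [sm_gm]
    exact cx_const_mul hw (k ^ 2) z
  have s1 : ∀ (K' : Finset ι) (z : ι → ℝ), ∑ e ∈ A0,
      cx (gs ι) K' (Zxm μ k S x) (Dm μ k S e) z ^ 2 = k ^ 2 * ∑ e ∈ A0,
        cx (gs ι) K' (Zxm μ k S x) (avm μ k S (S e)) z ^ 2 := by
    intro K' z
    rw [Finset.mul_sum]
    exact Finset.sum_congr rfl fun e _ => by rw [e1, mul_pow]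
  have s2 : ∀ z : ι → ℝ, ∑ p ∈ A0 ×ˢ A0, cx (gs ι) K (Zxm μ k S x)
      (sm (Dm μ k S) (Hm μ k S) p.1 p.2) z ^ 2 = k ^ 4 * ∑ e ∈ A0, ∑ f ∈ A0,
        cx (gs ι) K (Zxm μ k S x) (avm μ k S fun w => S e w * S f w) z ^ 2 := by
    intro z
    rw [Finset.sum_product, Finset.mul_sum]
    refine Finset.sum_congr rfl fun e _ => ?_
    rw [Finset.mul_sum]
    refine Finset.sum_congr rfl fun f _ => ?_
    rw [e2]
    ring
  have r1 : ∫ z, Zxm μ k S x z * (Q z * ∑ p ∈ A0 ×ˢ A0, cx (gs ι) K (Zxm μ k S x)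
      (sm (Dm μ k S) (Hm μ k S) p.1 p.2) z ^ 2) ∂(gI ι) = k ^ 4 *
      ∫ z, Zxm μ k S x z * (Q z * ∑ e ∈ A0, ∑ f ∈ A0,
        cx (gs ι) K (Zxm μ k S x) (avm μ k S fun w => S e w * S f w) z ^ 2) ∂(gI ι) := by
    rw [← integral_const_mul]
    refine integral_congr_ae (Filter.Eventually.of_forall fun z => ?_)
    simp only [s2]
    ring
  have r2 : ∀ K' : Finset ι, ∫ z, Zxm μ k S x z * (Q z * ∑ e ∈ A0,
      cx (gs ι) K' (Zxm μ k S x) (Dm μ k S e) z ^ 2) ∂(gI ι) = k ^ 2 *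
      ∫ z, Zxm μ k S x z * (Q z * ∑ e ∈ A0,
        cx (gs ι) K' (Zxm μ k S x) (avm μ k S (S e)) z ^ 2) ∂(gI ι) := by
    intro K'
    rw [← integral_const_mul]
    refine integral_congr_ae (Filter.Eventually.of_forall fun z => ?_)
    simp only [s1]
    ring
  have r3 : ∫ z, Zxm μ k S x z * (Q z * (∑ e ∈ A0,
      cx (gs ι) (K ∪ A0) (Zxm μ k S x) (Dm μ k S e) z ^ 2) ^ 2) ∂(gI ι) = k ^ 4 *
      ∫ z, Zxm μ k S x z * (Q z * (∑ e ∈ A0,
        cx (gs ι) (K ∪ A0) (Zxm μ k S x) (avm μ k S (S e)) z ^ 2) ^ 2) ∂(gI ι) := by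
    rw [← integral_const_mul]
    refine integral_congr_ae (Filter.Eventually.of_forall fun z => ?_)
    simp only [s1]
    ring
  rw [r1, r2, r2, r3] at h1
  have h2 := div_le_div_of_nonneg_right h1 ht.le
  unfold ex
  refine le_trans (le_of_eq ?_) (h2.trans (le_of_eq ?_))
  · ring
  · ring

/-- the gain from the doubled exponent -/
noncomputable def gain (μ : Measure Ω) (k x : ℝ) (S : ι → Ω → ℝ) : ℝ :=
  x * (W (2 * x) 1 (lzm μ k S) 0 - W x 1 (lzm μ k S) 0)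

/-- **Exponential moments of Gibbs measures, block form.** -/
theorem exp_cx (hG : GM μ S M0) (k : ℝ) (hx : 0 < x) (K : Finset ι) :
    ex (gs ι) (Zxm μ k S x) (fun z => Real.exp (x ^ 2 / 2 * (k ^ 2 * ∑ e ∈ Finset.univ \ K,
        cx (gs ι) K (Zxm μ k S x) (avm μ k S (S e)) z ^ 2))) ≤ Real.exp (gain μ k x S) := by
  have hw : Wt (gs ι) (Zxm μ k S x) := hG.wt k x
  have bS : ∀ e, BM (avm μ k S (S e)) := fun e => hG.bm_avm k (hG.bS e)
  have h1 := exp_block (hG.c11 k) (hG.c2F k) (hG.cv k) hx K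
    (fun e => (BM.mul (BM.const k) (bS e) : BM fun z => k * avm μ k S (S e) z))
  simp only [Zxm_eq'] at h1
  have e1 : ∀ (e : ι) (z : ι → ℝ), cx (gs ι) K (Zxm μ k S x) (Dm μ k S e) z =
      k * cx (gs ι) K (Zxm μ k S x) (avm μ k S (S e)) z := fun e z => cx_const_mul hw k z
  have s1 : ∀ z : ι → ℝ, ∑ e ∈ Finset.univ \ K,
      cx (gs ι) K (Zxm μ k S x) (Dm μ k S e) z ^ 2 = k ^ 2 * ∑ e ∈ Finset.univ \ K,
        cx (gs ι) K (Zxm μ k S x) (avm μ k S (S e)) z ^ 2 := by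
    intro z
    rw [Finset.mul_sum]
    exact Finset.sum_congr rfl fun e _ => by rw [e1, mul_pow]
  simp only [s1] at h1
  have h0 : ∫ z, Zxm μ k S x z ∂(Measure.pi (gs ι)) = Real.exp (x * W x 1 (lzm μ k S) 0) := by
    rw [(hG.c11 k).lip.exp_W (hG.c11 k).B0 hx]
    simp only [zero_add, one_smul]
    rfl
  have ht : 0 < ∫ z, Zxm μ k S x z ∂(Measure.pi (gs ι)) := hw.tot_pos
  unfold ex
  rw [div_le_iff₀ ht]
  refine h1.trans (le_of_eq ?_)
  rw [h0, ← Real.exp_add]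
  congr 1
  unfold gain
  ring

lemma gain_nonneg (hG : GM μ S M0) (k : ℝ) (hx : 0 < x) : 0 ≤ gain μ k x S := by
  have hw : Wt (gs ι) (Zxm μ k S x) := hG.wt k x
  have bS : ∀ e, BM (avm μ k S (S e)) := fun e => hG.bm_avm k (hG.bS e)
  have h1 := exp_cx hG k hx (∅ : Finset ι)
  have ht := hw.tot_pos
  have hb : BM fun z => ∑ e ∈ Finset.univ \ (∅ : Finset ι),
      cx (gs ι) ∅ (Zxm μ k S x) (avm μ k S (S e)) z ^ 2 :=
    bm_sum_sq _ fun e _ => hw.bm_cx ∅ (bS e)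
  obtain ⟨C, hC⟩ := hb.bd
  have hbe : BM fun z => Real.exp (x ^ 2 / 2 * (k ^ 2 * ∑ e ∈ Finset.univ \ (∅ : Finset ι),
      cx (gs ι) ∅ (Zxm μ k S x) (avm μ k S (S e)) z ^ 2)) := by
    refine ⟨((hb.meas.const_mul _).const_mul _).exp, Real.exp (x ^ 2 / 2 * (k ^ 2 * C)),
      fun z => ?_⟩
    rw [abs_of_pos (Real.exp_pos _)]
    exact Real.exp_le_exp.2 (mul_le_mul_of_nonneg_left (mul_le_mul_of_nonneg_left
      ((le_abs_self _).trans (hC z)) (sq_nonneg k)) (by positivity))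
  have h2 : 1 ≤ ex (gs ι) (Zxm μ k S x) (fun z => Real.exp (x ^ 2 / 2 * (k ^ 2 *
      ∑ e ∈ Finset.univ \ (∅ : Finset ι),
        cx (gs ι) ∅ (Zxm μ k S x) (avm μ k S (S e)) z ^ 2))) := by
    unfold ex
    rw [le_div_iff₀ ht, one_mul]
    refine integral_mono hw.int (hw.int_mul hbe) fun z => ?_
    have h3 : (1 : ℝ) ≤ Real.exp (x ^ 2 / 2 * (k ^ 2 * ∑ e ∈ Finset.univ \ (∅ : Finset ι),
        cx (gs ι) ∅ (Zxm μ k S x) (avm μ k S (S e)) z ^ 2)) :=
      Real.one_le_exp (by positivity)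
    exact le_mul_of_one_le_right (hw.pos z).le h3
  exact Real.one_le_exp_iff.1 (h2.trans h1)

/-- **Moments of the squared gradient in hidden coordinates, block form.** -/
theorem pow_cx (hG : GM μ S M0) (k : ℝ) (hx : 0 < x) (K A : Finset ι) (hA : Disjoint K A)
    (p : ℕ) :
    ex (gs ι) (Zxm μ k S x) (fun z => (x ^ 2 / 2 * (k ^ 2 * ∑ e ∈ A,
        cx (gs ι) K (Zxm μ k S x) (avm μ k S (S e)) z ^ 2)) ^ p) ≤
      2 ^ (p - 1) * (gain μ k x S ^ p + p.factorial) := by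
  have hw : Wt (gs ι) (Zxm μ k S x) := hG.wt k x
  have bS : ∀ e, BM (avm μ k S (S e)) := fun e => hG.bm_avm k (hG.bS e)
  have ht := hw.tot_pos
  have hg := gain_nonneg (x := x) hG k hx
  have hsub : A ⊆ Finset.univ \ K := fun e he =>
    Finset.mem_sdiff.2 ⟨Finset.mem_univ e, fun h => Finset.disjoint_left.1 hA h he⟩
  have hbm : ∀ A' : Finset ι, BM fun z => ∑ e ∈ A',
      cx (gs ι) K (Zxm μ k S x) (avm μ k S (S e)) z ^ 2 := fun A' =>
    bm_sum_sq _ fun e _ => hw.bm_cx K (bS e)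
  have bpow : ∀ {f : (ι → ℝ) → ℝ}, BM f → ∀ q : ℕ, BM fun z => f z ^ q := by
    intro f hf q
    induction q with
    | zero => simpa using BM.const (κ := ι) 1
    | succ q ih => simpa only [pow_succ] using ih.mul hf
  have b1 : BM fun z => (x ^ 2 / 2 * (k ^ 2 * ∑ e ∈ A,
        cx (gs ι) K (Zxm μ k S x) (avm μ k S (S e)) z ^ 2)) ^ p :=
    bpow ((BM.const (x ^ 2 / 2)).mul ((BM.const (k ^ 2)).mul (hbm A))) p
  obtain ⟨C, hC⟩ := (hbm (Finset.univ \ K)).bd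
  have b2 : BM fun z => Real.exp (x ^ 2 / 2 * (k ^ 2 * ∑ e ∈ Finset.univ \ K,
      cx (gs ι) K (Zxm μ k S x) (avm μ k S (S e)) z ^ 2)) := by
    refine ⟨(((hbm _).meas.const_mul _).const_mul _).exp, Real.exp (x ^ 2 / 2 * (k ^ 2 * C)),
      fun z => ?_⟩
    rw [abs_of_pos (Real.exp_pos _)]
    exact Real.exp_le_exp.2 (mul_le_mul_of_nonneg_left (mul_le_mul_of_nonneg_left
      ((le_abs_self _).trans (hC z)) (sq_nonneg k)) (by positivity))
  have key : ∀ z : ι → ℝ, (x ^ 2 / 2 * (k ^ 2 * ∑ e ∈ A,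
        cx (gs ι) K (Zxm μ k S x) (avm μ k S (S e)) z ^ 2)) ^ p ≤
      2 ^ (p - 1) * (gain μ k x S ^ p + p.factorial * (Real.exp (-gain μ k x S) *
        Real.exp (x ^ 2 / 2 * (k ^ 2 * ∑ e ∈ Finset.univ \ K,
          cx (gs ι) K (Zxm μ k S x) (avm μ k S (S e)) z ^ 2)))) := by
    intro z
    have h1 : ∑ e ∈ A, cx (gs ι) K (Zxm μ k S x) (avm μ k S (S e)) z ^ 2 ≤
        ∑ e ∈ Finset.univ \ K, cx (gs ι) K (Zxm μ k S x) (avm μ k S (S e)) z ^ 2 :=
      Finset.sum_le_sum_of_subset_of_nonneg hsub fun _ _ _ => sq_nonneg _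
    have h0 : 0 ≤ ∑ e ∈ A, cx (gs ι) K (Zxm μ k S x) (avm μ k S (S e)) z ^ 2 :=
      Finset.sum_nonneg fun _ _ => sq_nonneg _
    refine (pow_le_exp (by positivity) hg p).trans ?_
    refine mul_le_mul_of_nonneg_left (add_le_add le_rfl (mul_le_mul_of_nonneg_left ?_
      (by positivity))) (by positivity)
    rw [← Real.exp_add]
    refine Real.exp_le_exp.2 ?_
    have h3 := mul_le_mul_of_nonneg_left (mul_le_mul_of_nonneg_left h1 (sq_nonneg k))
      (by positivity : 0 ≤ x ^ 2 / 2)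
    linarith
  have h2 := exp_cx hG k hx K
  unfold ex at h2 ⊢
  rw [div_le_iff₀ ht] at h2 ⊢
  have h3 : ∫ z, Zxm μ k S x z * (x ^ 2 / 2 * (k ^ 2 * ∑ e ∈ A,
        cx (gs ι) K (Zxm μ k S x) (avm μ k S (S e)) z ^ 2)) ^ p ∂(Measure.pi (gs ι)) ≤
      ∫ z, (2 ^ (p - 1) * gain μ k x S ^ p * Zxm μ k S x z +
        2 ^ (p - 1) * (p.factorial * Real.exp (-gain μ k x S)) * (Zxm μ k S x z *
        Real.exp (x ^ 2 / 2 * (k ^ 2 * ∑ e ∈ Finset.univ \ K,
          cx (gs ι) K (Zxm μ k S x) (avm μ k S (S e)) z ^ 2)))) ∂(Measure.pi (gs ι)) := by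
    refine integral_mono (hw.int_mul b1) ((hw.int.const_mul _).add
      ((hw.int_mul b2).const_mul _)) fun z => ?_
    have h4 := mul_le_mul_of_nonneg_left (key z) (hw.pos z).le
    refine h4.trans (le_of_eq ?_)
    ring
  rw [integral_add (hw.int.const_mul _) ((hw.int_mul b2).const_mul _), integral_const_mul,
    integral_const_mul] at h3
  have h5 : 2 ^ (p - 1) * (p.factorial * Real.exp (-gain μ k x S)) *
      ∫ z, Zxm μ k S x z * Real.exp (x ^ 2 / 2 * (k ^ 2 * ∑ e ∈ Finset.univ \ K,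
          cx (gs ι) K (Zxm μ k S x) (avm μ k S (S e)) z ^ 2)) ∂(Measure.pi (gs ι)) ≤
      2 ^ (p - 1) * (p.factorial * Real.exp (-gain μ k x S)) * (Real.exp (gain μ k x S) *
        ∫ z, Zxm μ k S x z ∂(Measure.pi (gs ι))) :=
    mul_le_mul_of_nonneg_left h2 (by positivity)
  have h6 : Real.exp (-gain μ k x S) * Real.exp (gain μ k x S) = 1 := by
    rw [← Real.exp_add, neg_add_cancel, Real.exp_zero]
  have h7 : 2 ^ (p - 1) * (p.factorial * Real.exp (-gain μ k x S)) * (Real.exp (gain μ k x S) *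
        ∫ z, Zxm μ k S x z ∂(Measure.pi (gs ι))) = 2 ^ (p - 1) * p.factorial *
        ∫ z, Zxm μ k S x z ∂(Measure.pi (gs ι)) := by
    linear_combination (2 ^ (p - 1) * (p.factorial : ℝ) *
      ∫ z, Zxm μ k S x z ∂(Measure.pi (gs ι))) * h6
  rw [h7] at h5
  refine h3.trans ((add_le_add le_rfl h5).trans (le_of_eq ?_))
  ring

end gibbs

end Vale.Agent.P146.H412
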