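import Vale.Agent.P146.H412.K8
import Vale.Agent.P146.H463.NeIn

/-!
Moments and tails of the overlap for any system of energies on the coordinates of `H347`
(`Co n LB LF`), whose bond energies are `b / √n * cB l * χ p` (`Bds`) and whose field energies are
`cF l * ψ l i` (`Fds`): the base space and the other energies are arbitrary.
-/

open MeasureTheory ProbabilityTheory

namespace Vale.Agent.P146.H412.G

open Vale.Agent.P157.Lv Vale.Agent.P146.H425 Vale.Agent.P146.H646 Vale.Agent.P146.H196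
  Vale.Agent.P146.H475 Vale.Agent.P146.H325 Vale.Agent.P146.H317 Vale.Agent.P146.H615
  Vale.Agent.P146.H463

set_option linter.unusedSectionVars false

variable {Ω : Type} [MeasurableSpace Ω] {n : ℕ} {LB LF : Type} [Fintype LB] [DecidableEq LB]
  [Fintype LF] [DecidableEq LF]
variable {μ : Measure Ω} {E : H347.Co n LB LF → Ω → ℝ} {M0 b x : ℝ} {cB : LB → ℝ} {cF : LF → ℝ}
  {χ : Pair n → Ω → ℝ} {ψ : LF → Fin n → Ω → ℝ} {BL BL' BL1 : Finset LB} {FL FL1 : Finset LF}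
  {S : Finset (Fin n)} {K : Finset (H347.Co n LB LF)}

/-- the bond energies -/
def Bds (E : H347.Co n LB LF → Ω → ℝ) (b : ℝ) (cB : LB → ℝ) (χ : Pair n → Ω → ℝ) : Prop :=
  ∀ p l, E (H347.bd LF p l) = fun w => b / √n * cB l * χ p w

/-- the field energies -/
def Fds (E : H347.Co n LB LF → Ω → ℝ) (cF : LF → ℝ) (ψ : LF → Fin n → Ω → ℝ) : Prop :=
  ∀ i l, E (H347.fd LB i l) = fun w => cF l * ψ l i w

/-- the conditional mean of a bracket -/
noncomputable abbrev cG (μ : Measure Ω) (E : H347.Co n LB LF → Ω → ℝ) (x : ℝ)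
    (K : Finset (H347.Co n LB LF)) (f : Ω → ℝ) : (H347.Co n LB LF → ℝ) → ℝ :=
  cx (gs (H347.Co n LB LF)) K (Zxm μ 1 E x) (avm μ 1 E f)

/-- the mean -/
noncomputable abbrev eG (μ : Measure Ω) (E : H347.Co n LB LF → Ω → ℝ) (x : ℝ)
    (Ψ : (H347.Co n LB LF → ℝ) → ℝ) : ℝ :=
  ex (gs (H347.Co n LB LF)) (Zxm μ 1 E x) Ψ

lemma cG_mul (hw : Wt (gs (H347.Co n LB LF)) (Zxm μ 1 E x)) (K : Finset (H347.Co n LB LF))
    (r : ℝ) (f : Ω → ℝ) (z : H347.Co n LB LF → ℝ) :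
    cG μ E x K (fun w => r * f w) z = r * cG μ E x K f z := by
  have e1 : avm μ 1 E (fun w => r * f w) = fun u => r * avm μ 1 E f u := by
    funext u
    exact av_mul μ 1 E r f u
  unfold cG
  rw [e1]
  exact cx_const_mul hw _ z

lemma sum_B1 (hw : Wt (gs (H347.Co n LB LF)) (Zxm μ 1 E x)) (hE : Bds E b cB χ)
    (K : Finset (H347.Co n LB LF)) (z : H347.Co n LB LF → ℝ) :
    ∑ e ∈ Bst LF S BL, cG μ E x K (E e) z ^ 2 =
      tB n b cB BL * ∑ p ∈ prs S, cG μ E x K (χ p) z ^ 2 := by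
  rw [sum_Bst, Finset.mul_sum]
  refine Finset.sum_congr rfl fun p _ => ?_
  unfold tB
  rw [Finset.mul_sum, Finset.sum_mul]
  refine Finset.sum_congr rfl fun l _ => ?_
  rw [hE p l, cG_mul hw, mul_pow, coef_sq]

lemma sum_B2 (hw : Wt (gs (H347.Co n LB LF)) (Zxm μ 1 E x)) (hE : Bds E b cB χ)
    (K : Finset (H347.Co n LB LF)) (z : H347.Co n LB LF → ℝ) :
    ∑ e ∈ Bst LF S BL, ∑ f ∈ Bst LF S BL, cG μ E x K (fun w => E e w * E f w) z ^ 2 =
      tB n b cB BL ^ 2 * ∑ p ∈ prs S, ∑ q ∈ prs S, cG μ E x K (fun w => χ p w * χ q w) z ^ 2 := by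
  simp only [sum_Bst]
  have h1 : ∀ p ∈ prs S, ∑ l ∈ BL, ∑ q ∈ prs S, ∑ m ∈ BL, cG μ E x K
        (fun w => E (H347.bd LF p l) w * E (H347.bd LF q m) w) z ^ 2 =
      ∑ q ∈ prs S, tB n b cB BL ^ 2 * cG μ E x K (fun w => χ p w * χ q w) z ^ 2 := by
    intro p _
    rw [Finset.sum_comm]
    refine Finset.sum_congr rfl fun q _ => ?_
    have h2 : tB n b cB BL ^ 2 = ∑ l ∈ BL, ∑ m ∈ BL, b ^ 2 / n * cB l ^ 2 *
        (b ^ 2 / n * cB m ^ 2) := by
      unfold tB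
      rw [pow_two, Finset.mul_sum, Finset.sum_mul_sum]
    rw [h2, Finset.sum_mul]
    refine Finset.sum_congr rfl fun l _ => ?_
    rw [Finset.sum_mul]
    refine Finset.sum_congr rfl fun m _ => ?_
    have e2 : (fun w => E (H347.bd LF p l) w * E (H347.bd LF q m) w) =
        fun w => b / √n * cB l * (b / √n * cB m) * (χ p w * χ q w) := by
      funext w
      rw [hE p l, hE q m]
      ring
    rw [e2, cG_mul hw, mul_pow, mul_pow, coef_sq, coef_sq]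
  rw [Finset.sum_congr rfl h1, Finset.mul_sum]
  exact Finset.sum_congr rfl fun p _ => (Finset.mul_sum _ _ _).symm

lemma sum_F1 (hw : Wt (gs (H347.Co n LB LF)) (Zxm μ 1 E x)) (hE : Fds E cF ψ)
    (K : Finset (H347.Co n LB LF)) (FL1 : Finset LF) (z : H347.Co n LB LF → ℝ) :
    ∑ e ∈ Fst n LB FL1, cG μ E x K (E e) z ^ 2 =
      ∑ l ∈ FL1, cF l ^ 2 * ∑ i : Fin n, cG μ E x K (ψ l i) z ^ 2 := by
  rw [sum_Fst, Finset.sum_comm]
  refine Finset.sum_congr rfl fun l _ => ?_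
  rw [Finset.mul_sum]
  refine Finset.sum_congr rfl fun i _ => ?_
  rw [hE i l, cG_mul hw, mul_pow]

/-- **Fourth moment over `S`**, from the block `Kset S BL FL` to the block `Kset S BL' FL`. -/
theorem mom4_g (hG : GM μ E M0) (hE : Bds E b cB χ) (hx : 0 ≤ x) (hx1 : x ≤ 1)
    (hBL : BL ⊆ BL') (S : Finset (Fin n)) (FL : Finset LF)
    {Q : (H347.Co n LB LF → ℝ) → ℝ} (hQ : BM Q) (hQK : Dep (H347.Kset S BL FL) Q)
    (hQ0 : ∀ z, 0 ≤ Q z) (ht : 0 < tB n b cB (BL' \ BL)) :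
    x ^ 2 * (tB n b cB (BL' \ BL) * eG μ E x (fun z => Q z * ∑ p ∈ prs S,
        ∑ q ∈ prs S, cG μ E x (H347.Kset S BL FL) (fun w => χ p w * χ q w) z ^ 2)) ≤
      2 * (eG μ E x (fun z => Q z * ∑ p ∈ prs S,
          cG μ E x (H347.Kset S BL' FL) (χ p) z ^ 2) -
        eG μ E x (fun z => Q z * ∑ p ∈ prs S, cG μ E x (H347.Kset S BL FL) (χ p) z ^ 2)) +
      2 * (x ^ 2 * (tB n b cB (BL' \ BL) * eG μ E x (fun z => Q z *
        (∑ p ∈ prs S, cG μ E x (H347.Kset S BL' FL) (χ p) z ^ 2) ^ 2))) := by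
  have hw : Wt (gs (H347.Co n LB LF)) (Zxm μ 1 E x) := hG.wt 1 x
  have h1 := mom4_cx (K := H347.Kset S BL FL) (A0 := Bst LF S (BL' \ BL)) hG 1 hx hx1
    (disj_Bst Finset.disjoint_sdiff) hQ hQK hQ0
  rw [Kset_Bst hBL] at h1
  have e2 := fun z => sum_B2 (S := S) (BL := BL' \ BL) hw hE (H347.Kset S BL FL) z
  have e1 := fun z => sum_B1 (S := S) (BL := BL' \ BL) hw hE (H347.Kset S BL' FL) z
  have e0 := fun z => sum_B1 (S := S) (BL := BL' \ BL) hw hE (H347.Kset S BL FL) z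
  simp only [one_pow, one_mul] at h1
  set t := tB n b cB (BL' \ BL) with htd
  have f2 : ex (gs (H347.Co n LB LF)) (Zxm μ 1 E x)
      (fun z => Q z * ∑ e ∈ Bst LF S (BL' \ BL), ∑ f ∈ Bst LF S (BL' \ BL),
        cx (gs (H347.Co n LB LF)) (H347.Kset S BL FL) (Zxm μ 1 E x)
          (avm μ 1 E fun w => E e w * E f w) z ^ 2) =
      t ^ 2 * eG μ E x (fun z => Q z * ∑ p ∈ prs S,
        ∑ q ∈ prs S, cG μ E x (H347.Kset S BL FL) (fun w => χ p w * χ q w) z ^ 2) := by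
    rw [← hw.ex_const_mul]
    congr 1
    funext z
    rw [e2 z]
    ring
  have f1 : ∀ (BX : Finset LB), (∀ z, ∑ e ∈ Bst LF S (BL' \ BL),
      cG μ E x (H347.Kset S BX FL) (E e) z ^ 2 =
      t * ∑ p ∈ prs S, cG μ E x (H347.Kset S BX FL) (χ p) z ^ 2) →
      ex (gs (H347.Co n LB LF)) (Zxm μ 1 E x)
      (fun z => Q z * ∑ e ∈ Bst LF S (BL' \ BL), cx (gs (H347.Co n LB LF)) (H347.Kset S BX FL)
          (Zxm μ 1 E x) (avm μ 1 E (E e)) z ^ 2) =
      t * eG μ E x (fun z => Q z * ∑ p ∈ prs S,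
        cG μ E x (H347.Kset S BX FL) (χ p) z ^ 2) := by
    intro BX hBX
    rw [← hw.ex_const_mul]
    congr 1
    funext z
    rw [hBX z]
    ring
  have f3 : ex (gs (H347.Co n LB LF)) (Zxm μ 1 E x)
      (fun z => Q z * (∑ e ∈ Bst LF S (BL' \ BL), cx (gs (H347.Co n LB LF)) (H347.Kset S BL' FL)
          (Zxm μ 1 E x) (avm μ 1 E (E e)) z ^ 2) ^ 2) =
      t ^ 2 * eG μ E x (fun z => Q z * (∑ p ∈ prs S,
        cG μ E x (H347.Kset S BL' FL) (χ p) z ^ 2) ^ 2) := by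
    rw [← hw.ex_const_mul]
    congr 1
    funext z
    rw [e1 z]
    ring
  rw [f2, f1 BL' e1, f1 BL e0, f3] at h1
  refine le_of_mul_le_mul_left ?_ ht
  refine le_trans (le_of_eq ?_) (h1.trans (le_of_eq ?_))
  · ring
  · ring

/-- **Powers**, from the hidden bond levels `BL1`; `K` is any set of coordinates which contains no
bond inside `S` with level in `BL1`. -/
theorem pow_g (hG : GM μ E M0) (hE : Bds E b cB χ) (hx : 0 < x)
    (hK : Disjoint K (Bst LF S BL1)) (p : ℕ) :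
    eG μ E x (fun z => (x ^ 2 / 2 * (tB n b cB BL1 * ∑ q ∈ prs S,
        cG μ E x K (χ q) z ^ 2)) ^ p) ≤ 2 ^ (p - 1) * (gain μ 1 x E ^ p + p.factorial) := by
  have hw : Wt (gs (H347.Co n LB LF)) (Zxm μ 1 E x) := hG.wt 1 x
  have h2 := pow_cx hG 1 hx K (Bst LF S BL1) hK p
  simp only [one_pow, one_mul] at h2
  refine le_trans (le_of_eq ?_) h2
  congr 1
  funext z
  rw [sum_B1 hw hE]

/-- **The fourth moment over `S`, explicit.** -/
theorem num4_g (hG : GM μ E M0) (hE : Bds E b cB χ) (hχ : ∀ p, Bm (χ p)) (hx : 0 < x)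
    (hx1 : x ≤ 1) (hBL : BL ⊆ BL') (h1 : Disjoint BL' BL1) (S : Finset (Fin n))
    (FL : Finset LF) (ht : 0 < tB n b cB (BL' \ BL)) (ht1 : 0 < tB n b cB BL1) :
    eG μ E x (fun z => ∑ p ∈ prs S,
        ∑ q ∈ prs S, cG μ E x (H347.Kset S BL FL) (fun w => χ p w * χ q w) z ^ 2) ≤
      4 * (gain μ 1 x E + 1) / (x ^ 4 * (tB n b cB (BL' \ BL) * tB n b cB BL1)) +
      16 * (gain μ 1 x E ^ 2 + 2) / (x ^ 4 * tB n b cB BL1 ^ 2) := by
  have hw : Wt (gs (H347.Co n LB LF)) (Zxm μ 1 E x) := hG.wt 1 x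
  set g := gain μ 1 x E with hg
  set t := tB n b cB (BL' \ BL) with htd
  set t1 := tB n b cB BL1 with ht1d
  set Y : (H347.Co n LB LF → ℝ) → ℝ := fun z => ∑ q ∈ prs S,
    cG μ E x (H347.Kset S BL' FL) (χ q) z ^ 2 with hY
  have a1 := mom4_g hG hE hx.le hx1 hBL S FL (Q := fun _ => 1) (BM.const 1)
    (fun _ _ => rfl) (fun _ => zero_le_one) ht
  simp only [one_mul] at a1
  have a2 := pow_g (K := H347.Kset S BL' FL) (S := S) (BL1 := BL1) hG hE hx (disj_Bst h1) 1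
  have a3 := pow_g (K := H347.Kset S BL' FL) (S := S) (BL1 := BL1) hG hE hx (disj_Bst h1) 2
  have b2 : eG μ E x (fun z => (x ^ 2 / 2 * (t1 * Y z)) ^ 1) =
      x ^ 2 / 2 * t1 * eG μ E x Y := by
    show ex _ _ _ = _ * ex _ _ _
    rw [← hw.ex_const_mul]
    congr 1
    funext z
    ring
  have b3 : eG μ E x (fun z => (x ^ 2 / 2 * (t1 * Y z)) ^ 2) =
      (x ^ 2 / 2 * t1) ^ 2 * eG μ E x (fun z => Y z ^ 2) := by
    show ex _ _ _ = _ * ex _ _ _
    rw [← hw.ex_const_mul]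
    congr 1
    funext z
    ring
  have a2' : x ^ 2 / 2 * t1 * eG μ E x Y ≤ g + 1 := by
    rw [← b2]
    refine a2.trans (le_of_eq ?_)
    norm_num
    rfl
  have a3' : (x ^ 2 / 2 * t1) ^ 2 * eG μ E x (fun z => Y z ^ 2) ≤ 2 * (g ^ 2 + 2) := by
    rw [← b3]
    refine a3.trans (le_of_eq ?_)
    norm_num [Nat.factorial]
    rfl
  have bm2 : ∀ q : Pair n, BM (avm μ 1 E (χ q)) := fun q => hG.bm_avm 1 (hχ q)
  have hYK : 0 ≤ eG μ E x (fun z => ∑ p ∈ prs S,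
      cG μ E x (H347.Kset S BL FL) (χ p) z ^ 2) :=
    hw.ex_nonneg (bm_sum_sq _ fun p _ => hw.bm_cx _ (bm2 p)) fun z =>
      Finset.sum_nonneg fun _ _ => sq_nonneg _
  have hx2 : 0 < x ^ 2 := by positivity
  set E4 := eG μ E x (fun z => ∑ p ∈ prs S,
        ∑ q ∈ prs S, cG μ E x (H347.Kset S BL FL) (fun w => χ p w * χ q w) z ^ 2) with hE4
  set E2 := eG μ E x Y with hE2
  set E22 := eG μ E x (fun z => Y z ^ 2) with hE22
  have k1 : E4 ≤ 2 / (x ^ 2 * t) * E2 + 2 * E22 := by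
    have k2 : x ^ 2 * t * E4 ≤ x ^ 2 * t * (2 / (x ^ 2 * t) * E2 + 2 * E22) := by
      have k3 : x ^ 2 * t * (2 / (x ^ 2 * t) * E2 + 2 * E22) =
          2 * E2 + 2 * (x ^ 2 * (t * E22)) := by
        field_simp
      rw [k3]
      linarith
    exact le_of_mul_le_mul_left k2 (by positivity)
  have k4 : E2 ≤ 2 * (g + 1) / (x ^ 2 * t1) := by
    rw [le_div_iff₀ (by positivity)]
    linarith
  have k5 : E22 ≤ 8 * (g ^ 2 + 2) / (x ^ 4 * t1 ^ 2) := by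
    rw [le_div_iff₀ (by positivity)]
    have : (x ^ 2 / 2 * t1) ^ 2 * E22 = E22 * (x ^ 4 * t1 ^ 2) / 4 := by ring
    linarith
  calc E4 ≤ 2 / (x ^ 2 * t) * E2 + 2 * E22 := k1
    _ ≤ 2 / (x ^ 2 * t) * (2 * (g + 1) / (x ^ 2 * t1)) +
        2 * (8 * (g ^ 2 + 2) / (x ^ 4 * t1 ^ 2)) := by
        refine add_le_add (mul_le_mul_of_nonneg_left k4 (by positivity)) (by linarith)
    _ = _ := by
        field_simp
        ring

/-! ### spins -/

/-- the spins read off by `cf` -/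
def sR (cf : Ω → H347.Xs n) (j : Fin n) (w : Ω) : ℝ := sp (cf w) j

/-- the conditional mean as a functional of the spins -/
noncomputable def LzG (μ : Measure Ω) (E : H347.Co n LB LF → Ω → ℝ) (x : ℝ)
    (cf : Ω → H347.Xs n) (K : Finset (H347.Co n LB LF)) (z : H347.Co n LB LF → ℝ)
    (f : H347.Xs n → ℝ) : ℝ := cG μ E x K (fun w => f (cf w)) z

/-- the two-spin number `∑ (cx <σ_i σ_j>)² / n²` at the block `K` -/
noncomputable def CCg (μ : Measure Ω) (E : H347.Co n LB LF → Ω → ℝ) (x : ℝ)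
    (cf : Ω → H347.Xs n) (K : Finset (H347.Co n LB LF)) (S : Finset (Fin n))
    (z : H347.Co n LB LF → ℝ) : ℝ := F2 μ E x K (sR cf) S z / (n : ℝ) ^ 2

/-- the mean square of the magnetisations weighted with `h` -/
noncomputable def Qg (μ : Measure Ω) (E : H347.Co n LB LF → Ω → ℝ) (x : ℝ)
    (cf : Ω → H347.Xs n) (h : Ω → ℝ) (K : Finset (H347.Co n LB LF)) (S : Finset (Fin n))
    (z : H347.Co n LB LF → ℝ) : ℝ := (∑ j ∈ S, cG μ E x K (fun w => h w * sR cf j w) z ^ 2) / n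

variable {cf : Ω → H347.Xs n}

lemma bd_of (hcf : Measurable cf) (f : H347.Xs n → ℝ) {C : ℝ} (hC0 : 0 ≤ C)
    (hC : ∀ σ, |f σ| ≤ C) : Bd fun w => f (cf w) := by
  have := H347.dmx n
  exact ⟨(measurable_of_finite f).comp hcf, C, hC0, fun w => hC (cf w)⟩

lemma bd_sR (hcf : Measurable cf) (j : Fin n) : Bd (sR cf j) :=
  bd_of hcf (fun σ => sp σ j) zero_le_one fun σ => abs_sp_le σ j

lemma LzG_one (hG : GM μ E M0) (K : Finset (H347.Co n LB LF)) (z : H347.Co n LB LF → ℝ) :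
    LzG μ E x cf K z (fun _ => 1) = 1 := cxav_const hG x K 1 z

lemma F2_m2L (K : Finset (H347.Co n LB LF)) (S : Finset (Fin n)) (z : H347.Co n LB LF → ℝ) :
    F2 μ E x K (sR cf) S z = m2L S (LzG μ E x cf K z) := rfl

lemma Q4_m4L (K : Finset (H347.Co n LB LF)) (S : Finset (Fin n)) (z : H347.Co n LB LF → ℝ) :
    Q4g μ E x K (sR cf) S z = m4L S (LzG μ E x cf K z) := by
  unfold Q4g F2 m4L
  simp only [Finset.sum_product]
  rfl

/-- the two-spin number in terms of the pairs -/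
lemma F2_prs (hG : GM μ E M0) (K : Finset (H347.Co n LB LF)) (S : Finset (Fin n))
    (z : H347.Co n LB LF → ℝ) :
    F2 μ E x K (sR cf) S z = S.card + 2 * ∑ p ∈ prs S,
      cG μ E x K (fun w => SkS p (cf w)) z ^ 2 :=
  (F2_m2L K S z).trans (m2L_eq (LzG_one hG K z))

/-- the square of the two-spin number is at most the four-spin number -/
lemma F2_sq_le (hG : GM μ E M0) (hcf : Measurable cf) (K : Finset (H347.Co n LB LF))
    (S : Finset (Fin n)) (z : H347.Co n LB LF → ℝ) :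
    F2 μ E x K (sR cf) S z ^ 2 ≤ Q4g μ E x K (sR cf) S z := by
  have hw := H347.wt hG 1 x
  have hA := av_gm hG 1
  set f : Fin n × Fin n → Ω → ℝ := fun p w => sR cf p.1 w * sR cf p.2 w with hf
  have hfb : ∀ p, Bd (f p) := fun p => (bd_sR hcf p.1).mul (bd_sR hcf p.2)
  set c : Fin n × Fin n → ℝ := fun p => cG μ E x K (f p) z with hc
  set A := F2 μ E x K (sR cf) S z with hAd
  have hA0 : 0 ≤ A := F2_nonneg x K _ _ z
  have e1 : A = ∑ p ∈ S ×ˢ S, c p ^ 2 := by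
    rw [Finset.sum_product]
    rfl
  -- `A` is the mean of `∑ c_p f_p`
  have e2 : A = cx (H347.g1 _) K (Zxm μ 1 E x)
      (avm μ 1 E fun w => ∑ p ∈ S ×ˢ S, c p * f p w) z := by
    have e3 : (avm μ 1 E fun w => ∑ p ∈ S ×ˢ S, c p * f p w) = fun y =>
        ∑ p ∈ S ×ˢ S, c p * avm μ 1 E (f p) y := by
      funext y
      rw [hA.sum _ fun p _ => (hfb p).cmul _]
      exact Finset.sum_congr rfl fun p _ => hA.smul _ _ _
    rw [e3, cx_sum hw _ fun p _ => (BM.const _).mul (hA.bm (hfb p)), e1]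
    refine Finset.sum_congr rfl fun p _ => ?_
    rw [cx_const_mul hw, sq]
  have hLb : Bd fun w => ∑ p ∈ S ×ˢ S, c p * f p w := Bd.sum _ fun p _ => (hfb p).cmul _
  have h1 : A ^ 2 ≤ A * √(Q4g μ E x K (sR cf) S z) := by
    calc A ^ 2 ≤ cx (H347.g1 _) K (Zxm μ 1 E x)
          (avm μ 1 E fun w => (∑ p ∈ S ×ˢ S, c p * f p w) ^ 2) z := by
          nth_rewrite 1 [e2]
          exact cxav_sq_le hG x K hLb z
      _ ≤ (∑ p ∈ S ×ˢ S, c p ^ 2) * √(F2 μ E x K f (S ×ˢ S) z) :=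
          quad_cs hG x K hfb (S ×ˢ S) c z
      _ = _ := by rw [← e1]; rfl
  have hQ0 : 0 ≤ Q4g μ E x K (sR cf) S z := Q4g_nonneg x K S z
  rcases hA0.eq_or_lt with h0 | h0
  · rw [← h0, sq, mul_zero]
    exact hQ0
  · have h2 : A ≤ √(Q4g μ E x K (sR cf) S z) := by
      have : A * A ≤ A * √(Q4g μ E x K (sR cf) S z) := by rw [← sq]; exact h1
      exact le_of_mul_le_mul_left this h0
    calc A ^ 2 ≤ √(Q4g μ E x K (sR cf) S z) ^ 2 := pow_le_pow_left₀ hA0 h2 2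
      _ = _ := Real.sq_sqrt hQ0

/-- **the four-spin number in terms of the pairs** -/
theorem q4_prs (hG : GM μ E M0) (hcf : Measurable cf) (K : Finset (H347.Co n LB LF))
    (S : Finset (Fin n)) (z : H347.Co n LB LF → ℝ) :
    Q4g μ E x K (sR cf) S z ≤ 2 * (S.card : ℝ) ^ 2 + 8 * ∑ p ∈ prs S, ∑ q ∈ prs S,
      cG μ E x K (fun w => SkS p (cf w) * SkS q (cf w)) z ^ 2 := by
  have h1 := LzG_one (x := x) (cf := cf) hG K z
  have h2 := F2_sq_le (x := x) hG hcf K S z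
  rw [F2_m2L, Q4_m4L, m2L_eq h1, m4L_eq h1] at h2
  rw [Q4_m4L, m4L_eq h1]
  have e : ∑ p ∈ H347.Pin S, ∑ q ∈ H347.Pin S, LzG μ E x cf K z
      (fun σ => SkS p σ * SkS q σ) ^ 2 = ∑ p ∈ prs S, ∑ q ∈ prs S,
        cG μ E x K (fun w => SkS p (cf w) * SkS q (cf w)) z ^ 2 := rfl
  rw [← e]
  set X := ∑ p ∈ H347.Pin S, LzG μ E x cf K z (SkS p) ^ 2 with hX
  set Y := ∑ p ∈ H347.Pin S, ∑ q ∈ H347.Pin S, LzG μ E x cf K z
      (fun σ => SkS p σ * SkS q σ) ^ 2 with hY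
  have h3 : 0 ≤ ((S.card : ℝ) - 2 * X) ^ 2 := sq_nonneg _
  nlinarith

/-- **the mean of the four-spin number, explicit** -/
theorem ex_q4_g (hG : GM μ E M0) (hcf : Measurable cf)
    (hE : Bds E b cB fun p w => SkS p (cf w)) (hx : 0 < x)
    (hx1 : x ≤ 1) (hBL : BL ⊆ BL') (h1 : Disjoint BL' BL1) (S : Finset (Fin n))
    (FL : Finset LF) (ht : 0 < tB n b cB (BL' \ BL)) (ht1 : 0 < tB n b cB BL1) :
    eG μ E x (Q4g μ E x (H347.Kset S BL FL) (sR cf) S) ≤ 2 * (S.card : ℝ) ^ 2 +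
      8 * (4 * (gain μ 1 x E + 1) / (x ^ 4 * (tB n b cB (BL' \ BL) * tB n b cB BL1)) +
      16 * (gain μ 1 x E ^ 2 + 2) / (x ^ 4 * tB n b cB BL1 ^ 2)) := by
  have hw : Wt (gs (H347.Co n LB LF)) (Zxm μ 1 E x) := hG.wt 1 x
  have bsk : ∀ p : Pair n, Bd fun w => SkS p (cf w) := fun p =>
    bd_of hcf (SkS p) zero_le_one fun σ => (H347.abs_SkS p σ).le
  have hχ : ∀ p : Pair n, Bm fun w => SkS p (cf w) := fun p => by
    obtain ⟨m1, C, hC0, hC⟩ := bsk p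
    exact Bm.of m1 hC
  have h2 := num4_g hG hE hχ hx hx1 hBL h1 S FL ht ht1
  have bQ := bm_Q4g hG x (H347.Kset S BL FL) (fun j => bd_sR hcf j) S
  have bP : BM (fun z => ∑ p ∈ prs S, ∑ q ∈ prs S, cG μ E x (H347.Kset S BL FL)
        (fun w => SkS p (cf w) * SkS q (cf w)) z ^ 2) :=
    BM.sum _ fun p _ => BM.sum _ fun q _ => bsq (hw.bm_cx _
      ((av_gm hG 1).bm ((bsk p).mul (bsk q))))
  have h3 : eG μ E x (Q4g μ E x (H347.Kset S BL FL) (sR cf) S) ≤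
      eG μ E x (fun z => 2 * (S.card : ℝ) ^ 2 +
      8 * ∑ p ∈ prs S, ∑ q ∈ prs S, cG μ E x (H347.Kset S BL FL)
        (fun w => SkS p (cf w) * SkS q (cf w)) z ^ 2) :=
    ex_mono hw bQ ((BM.const _).add (bcm _ bP)) fun z => q4_prs hG hcf _ S z
  unfold eG at h3
  rw [H615.ex_add hw (BM.const _) (bcm _ bP), ex_const hw, ex_cmul] at h3
  refine h3.trans ?_
  have h4 := mul_le_mul_of_nonneg_left h2 (show (0 : ℝ) ≤ 8 by norm_num)
  linarith

lemma CCg_nonneg (K : Finset (H347.Co n LB LF)) (S : Finset (Fin n))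
    (z : H347.Co n LB LF → ℝ) : 0 ≤ CCg μ E x cf K S z :=
  div_nonneg (F2_nonneg x K _ _ z) (by positivity)

lemma bm_CCg (hG : GM μ E M0) (hcf : Measurable cf) (K : Finset (H347.Co n LB LF))
    (S : Finset (Fin n)) : BM (CCg μ E x cf K S) := by
  have e : CCg μ E x cf K S = fun z => 1 / (n : ℝ) ^ 2 * F2 μ E x K (sR cf) S z := by
    funext z
    unfold CCg
    ring
  rw [e]
  exact bcm _ (bm_F2 hG x K (fun j => bd_sR hcf j) S)

lemma dep_CCg (K : Finset (H347.Co n LB LF)) (S : Finset (Fin n)) :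
    Dep K (CCg μ E x cf K S) := by
  intro z z'
  unfold CCg
  rw [dep_F2 x K (sR cf) S z z']

/-- the hidden bonds control the two-spin number -/
lemma CCg_key (hG : GM μ E M0) (hE : Bds E b cB fun p w => SkS p (cf w)) (hn : 0 < n)
    (K : Finset (H347.Co n LB LF)) (S : Finset (Fin n)) (BL1 : Finset LB)
    (z : H347.Co n LB LF → ℝ) :
    x ^ 2 / 4 * (tB n b cB BL1 * (n : ℝ) ^ 2) * CCg μ E x cf K S z =
      x ^ 2 / 2 * (1 ^ 2 * ∑ e ∈ Bst LF S BL1, cx (gs _) K (Zxm μ 1 E x)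
        (avm μ 1 E (E e)) z ^ 2) + x ^ 2 / 4 * (tB n b cB BL1 * S.card) := by
  have hw : Wt (gs (H347.Co n LB LF)) (Zxm μ 1 E x) := hG.wt 1 x
  have hn0 : (0 : ℝ) < n := by exact_mod_cast hn
  have h1 := sum_B1 (S := S) (BL := BL1) hw hE K z
  have h2 : ∑ e ∈ Bst LF S BL1, cx (gs _) K (Zxm μ 1 E x) (avm μ 1 E (E e)) z ^ 2 =
      tB n b cB BL1 * ∑ p ∈ prs S, cG μ E x K (fun w => SkS p (cf w)) z ^ 2 := h1
  rw [h2]
  unfold CCg
  rw [F2_prs hG]
  field_simp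
  ring

/-- **Tail of the two-spin number**, from the hidden bond levels `BL1`, at any block `K`. -/
theorem tail_ccg (hG : GM μ E M0) (hcf : Measurable cf)
    (hE : Bds E b cB fun p w => SkS p (cf w)) (hx : 0 < x) (hn : 0 < n)
    (hK : Disjoint K (Bst LF S BL1)) (r : ℝ) :
    eG μ E x (ind r (CCg μ E x cf K S)) ≤
      Real.exp (gain μ 1 x E + x ^ 2 / 4 * (tB n b cB BL1 * S.card) -
        x ^ 2 / 4 * (tB n b cB BL1 * (n : ℝ) ^ 2) * r) := by
  have ht := tB_nonneg n b cB BL1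
  exact tail_gm hG 1 hx K (Bst LF S BL1) hK (bm_CCg hG hcf K S) (by positivity)
    (fun z => (CCg_key hG hE hn K S BL1 z).le) r

/-- **Powers of the two-spin number.** -/
theorem mom_ccg (hG : GM μ E M0) (hcf : Measurable cf)
    (hE : Bds E b cB fun p w => SkS p (cf w)) (hx : 0 < x) (hn : 0 < n)
    (hK : Disjoint K (Bst LF S BL1)) (ht : 0 < tB n b cB BL1) (p : ℕ) :
    eG μ E x (fun z => CCg μ E x cf K S z ^ p) ≤
      2 ^ (p - 1) * (2 ^ (p - 1) * (gain μ 1 x E ^ p + p.factorial) +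
        (x ^ 2 / 4 * (tB n b cB BL1 * S.card)) ^ p) /
        (x ^ 2 / 4 * (tB n b cB BL1 * (n : ℝ) ^ 2)) ^ p := by
  have hn0 : (0 : ℝ) < n := by exact_mod_cast hn
  exact mom_gm hG 1 hx K (Bst LF S BL1) hK (bm_CCg hG hcf K S)
    (fun z => CCg_nonneg K S z) (by positivity) (by positivity)
    (fun z => (CCg_key hG hE hn K S BL1 z).le) p

/-- `∑ (cx <h σ_j>)² ≤ C² √(∑ (cx <σ_i σ_j>)²)` -/
lemma amp_g (hG : GM μ E M0) (hcf : Measurable cf) {h : Ω → ℝ} (hh : Bd h) {C : ℝ}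
    (hC : ∀ w, |h w| ≤ C) (K : Finset (H347.Co n LB LF)) (S : Finset (Fin n))
    (z : H347.Co n LB LF → ℝ) :
    ∑ j ∈ S, cG μ E x K (fun w => h w * sR cf j w) z ^ 2 ≤
      C ^ 2 * √(F2 μ E x K (sR cf) S z) := by
  have hs : ∀ j, Bd (sR cf j) := fun j => bd_sR hcf j
  have e0 : ∑ j ∈ S, cG μ E x K (fun w => h w * sR cf j w) z ^ 2 =
      m2 S (Mg μ E x K h (sR cf)) z := rfl
  rw [e0]
  set q := m2 S (Mg μ E x K h (sR cf)) z with hq
  have hq0 : 0 ≤ q := m2_nonneg z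
  set L : Ω → ℝ := fun w => ∑ j ∈ S, Mg μ E x K h (sR cf) j z * sR cf j w with hL
  have hLb : Bd L := Bd.sum S fun j _ => (hs j).cmul _
  have h1 : q ^ 2 ≤ C ^ 2 * (q * √(F2 μ E x K (sR cf) S z)) := by
    calc q ^ 2 ≤ cx (H347.g1 _) K (Zxm μ 1 E x) (avm μ 1 E fun w => (h w * L w) ^ 2) z := by
          rw [hq, m2_eq hG x K hh hs S z]
          exact cxav_sq_le hG x K (hh.mul hLb) z
      _ ≤ cx (H347.g1 _) K (Zxm μ 1 E x) (avm μ 1 E fun w => C ^ 2 * L w ^ 2) z := by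
          refine cxav_mono hG x K (hh.mul hLb).sq (hLb.sq.cmul _) (fun w => ?_) z
          rw [mul_pow]
          refine mul_le_mul_of_nonneg_right ?_ (sq_nonneg _)
          rw [← sq_abs (h w)]
          exact pow_le_pow_left₀ (abs_nonneg _) (hC w) 2
      _ = C ^ 2 * cx (H347.g1 _) K (Zxm μ 1 E x) (avm μ 1 E fun w => L w ^ 2) z :=
          cxav_cmul hG x K _ _ z
      _ ≤ _ := mul_le_mul_of_nonneg_left
          (quad_cs hG x K hs S (fun j => Mg μ E x K h (sR cf) j z) z) (sq_nonneg C)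
  rcases hq0.eq_or_lt with h0 | h0
  · rw [← h0]
    positivity
  · have h2 : q * q ≤ q * (C ^ 2 * √(F2 μ E x K (sR cf) S z)) := by
      rw [← sq]
      refine h1.trans (le_of_eq ?_)
      ring
    exact le_of_mul_le_mul_left h2 h0

/-- `Q ≤ C² √CC` -/
lemma Qg_le (hG : GM μ E M0) (hcf : Measurable cf) (hn : 0 < n) {h : Ω → ℝ} (hh : Bd h)
    {C : ℝ} (hC : ∀ w, |h w| ≤ C) (K : Finset (H347.Co n LB LF)) (S : Finset (Fin n))
    (z : H347.Co n LB LF → ℝ) :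
    Qg μ E x cf h K S z ≤ C ^ 2 * √(CCg μ E x cf K S z) := by
  have hn0 : (0 : ℝ) < n := by exact_mod_cast hn
  unfold Qg CCg
  rw [Real.sqrt_div' _ (by positivity), Real.sqrt_sq hn0.le, div_le_iff₀ hn0]
  refine (amp_g hG hcf hh hC K S z).trans (le_of_eq ?_)
  field_simp

lemma Qg_nonneg (h : Ω → ℝ) (K : Finset (H347.Co n LB LF)) (S : Finset (Fin n))
    (z : H347.Co n LB LF → ℝ) : 0 ≤ Qg μ E x cf h K S z :=
  div_nonneg (Finset.sum_nonneg fun _ _ => sq_nonneg _) (Nat.cast_nonneg _)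

lemma bm_Qg (hG : GM μ E M0) (hcf : Measurable cf) {h : Ω → ℝ} (hh : Bd h)
    (K : Finset (H347.Co n LB LF)) (S : Finset (Fin n)) : BM (Qg μ E x cf h K S) := by
  have hw : Wt (gs (H347.Co n LB LF)) (Zxm μ 1 E x) := hG.wt 1 x
  have e : Qg μ E x cf h K S = fun z => 1 / (n : ℝ) *
      ∑ j ∈ S, cG μ E x K (fun w => h w * sR cf j w) z ^ 2 := by
    funext z
    unfold Qg
    ring
  rw [e]
  exact bcm _ (bm_sum_sq _ fun j _ => hw.bm_cx _
    ((av_gm hG 1).bm (hh.mul (bd_sR hcf j))))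

/-- **Tail of `Q`.** -/
theorem tail_Qg (hG : GM μ E M0) (hcf : Measurable cf)
    (hE : Bds E b cB fun p w => SkS p (cf w)) (hx : 0 < x) (hn : 0 < n)
    (hK : Disjoint K (Bst LF S BL1)) {h : Ω → ℝ} (hh : Bd h) {C : ℝ}
    (hC : ∀ w, |h w| ≤ C) (hC0 : 0 < C) {r : ℝ} (hr : 0 ≤ r) :
    eG μ E x (ind (C ^ 2 * r) (Qg μ E x cf h K S)) ≤
      Real.exp (gain μ 1 x E + x ^ 2 / 4 * (tB n b cB BL1 * S.card) -
        x ^ 2 / 4 * (tB n b cB BL1 * (n : ℝ) ^ 2) * r ^ 2) := by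
  have hw : Wt (gs (H347.Co n LB LF)) (Zxm μ 1 E x) := hG.wt 1 x
  refine le_trans ?_ (tail_ccg hG hcf hE hx hn hK (r ^ 2))
  refine ex_mono hw (bm_ind (bm_Qg hG hcf hh K S).meas _)
    (bm_ind (bm_CCg hG hcf K S).meas _) fun z => ?_
  unfold H317.ind
  split_ifs with h3 h4 h4
  · exact le_rfl
  · exfalso
    have h5 : C ^ 2 * r < C ^ 2 * √(CCg μ E x cf K S z) :=
      h3.trans_le (Qg_le hG hcf hn hh hC K S z)
    have h6 := lt_of_mul_lt_mul_left h5 (by positivity)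
    exact h4 ((Real.lt_sqrt hr).1 h6)
  · exact zero_le_one
  · exact le_rfl

/-- **Powers of `Q`.** -/
theorem mom_Qg (hG : GM μ E M0) (hcf : Measurable cf) (hn : 0 < n) {h : Ω → ℝ} (hh : Bd h)
    {C : ℝ} (hC : ∀ w, |h w| ≤ C) (K : Finset (H347.Co n LB LF)) (S : Finset (Fin n)) (p : ℕ) :
    eG μ E x (fun z => Qg μ E x cf h K S z ^ (2 * p)) ≤
      C ^ (4 * p) * eG μ E x (fun z => CCg μ E x cf K S z ^ p) := by
  have hw : Wt (gs (H347.Co n LB LF)) (Zxm μ 1 E x) := hG.wt 1 x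
  have bpow : ∀ {f : (H347.Co n LB LF → ℝ) → ℝ}, BM f → ∀ q : ℕ, BM fun z => f z ^ q := by
    intro f hf q
    induction q with
    | zero => simpa using BM.const (κ := H347.Co n LB LF) 1
    | succ q ih => simpa only [pow_succ] using ih.mul hf
  have e : C ^ (4 * p) * eG μ E x (fun z => CCg μ E x cf K S z ^ p) =
      eG μ E x (fun z => C ^ (4 * p) * CCg μ E x cf K S z ^ p) :=
    (H615.ex_cmul _ _).symm
  rw [e]
  refine ex_mono hw (bpow (bm_Qg hG hcf hh K S) _) (bcm _ (bpow (bm_CCg hG hcf K S) p))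
    fun z => ?_
  refine (pow_le_pow_left₀ (Qg_nonneg h K S z) (Qg_le hG hcf hn hh hC K S z) (2 * p)).trans
    (le_of_eq ?_)
  rw [mul_pow, ← pow_mul, pow_mul (√(CCg μ E x cf K S z)), Real.sq_sqrt (CCg_nonneg K S z)]
  congr 2
  ring

/-- **The hidden fields**: exponential moment from the field levels `FL1`, at any block `K`. -/
theorem exp_fdg (hG : GM μ E M0) (hE : Fds E cF ψ) (hx : 0 < x)
    (hK : Disjoint K (Fst n LB FL1)) :
    eG μ E x (fun z => Real.exp (x ^ 2 / 2 * ∑ l ∈ FL1, cF l ^ 2 *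
        ∑ i : Fin n, cG μ E x K (ψ l i) z ^ 2)) ≤ Real.exp (gain μ 1 x E) := by
  have hw : Wt (gs (H347.Co n LB LF)) (Zxm μ 1 E x) := hG.wt 1 x
  have h2 := exp_sub hG 1 hx K (Fst n LB FL1) hK
  simp only [one_pow, one_mul] at h2
  refine le_trans (le_of_eq ?_) h2
  congr 1
  funext z
  rw [sum_F1 hw hE]

end Vale.Agent.P146.H412.G
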