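import Vale.Agent.P146.H412.Mom4Cx
import Vale.Agent.P146.H646.W0Sk

/-!
Moments of the overlap for the modulated SK law in the coordinates of `H347` (revealed sets
`Kset S BL FL`): the fourth moment, the powers of the squared norm of the matrix of the conditional
two-point functions.
-/

open MeasureTheory ProbabilityTheory

namespace Vale.Agent.P146.H412

open Vale.Agent.P157.Lv Vale.Agent.P146.H425 Vale.Agent.P146.H646 Vale.Agent.P146.H196
  Vale.Agent.P146.H475 Vale.Agent.P146.H325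

set_option linter.unusedSectionVars false

variable {n : ℕ} {LB LF : Type} [Fintype LB] [DecidableEq LB] [Fintype LF] [DecidableEq LF]
variable {b s η lam c x : ℝ} {cB : LB → ℝ} {cF : LF → ℝ} {BL BL' BL1 : Finset LB}
  {FL : Finset LF} {S : Finset (Fin n)}

/-- the pairs inside `S` -/
def prs (S : Finset (Fin n)) : Finset (Pair n) :=
  Finset.univ.filter fun q => q.1.1 ∈ S ∧ q.1.2 ∈ S

lemma mem_prs {q : Pair n} : q ∈ prs S ↔ q.1.1 ∈ S ∧ q.1.2 ∈ S := by
  simp [prs]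

/-- the bonds inside `S` with level in `BL` -/
def Bst (LF : Type) (S : Finset (Fin n)) (BL : Finset LB) : Finset (H347.Co n LB LF) :=
  ((prs S ×ˢ BL).disjSum ∅).disjSum ∅

lemma bd_memB {p : Pair n} {l : LB} :
    H347.bd LF p l ∈ Bst LF S BL ↔ (p.1.1 ∈ S ∧ p.1.2 ∈ S) ∧ l ∈ BL := by
  unfold Bst
  rw [show H347.bd LF p l = Sum.inl (Sum.inl (p, l)) from rfl, Finset.inl_mem_disjSum,
    Finset.inl_mem_disjSum, Finset.mem_product, mem_prs]

lemma fd_memB (i : Fin n) (l : LF) : H347.fd LB i l ∉ Bst LF S BL := by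
  simp [Bst]

lemma gd_memB (i : Fin n) : H347.gd LB LF i ∉ Bst LF S BL := by
  simp [Bst]

lemma sum_Bst {α : Type*} [AddCommMonoid α] (f : H347.Co n LB LF → α) :
    ∑ e ∈ Bst LF S BL, f e = ∑ p ∈ prs S, ∑ l ∈ BL, f (H347.bd LF p l) := by
  unfold Bst
  rw [Finset.sum_disjSum, Finset.sum_disjSum, Finset.sum_product, Finset.sum_empty,
    Finset.sum_empty, add_zero, add_zero]

lemma Kset_Bst (h : BL ⊆ BL') : H347.Kset S BL FL ∪ Bst LF S (BL' \ BL) =
    H347.Kset S BL' FL := by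
  ext e
  rw [Finset.mem_union]
  rcases e with (⟨p, l⟩ | ⟨j, l⟩) | j
  · rw [bd_memB, H347.bd_memK, H347.bd_memK, Finset.mem_sdiff]
    constructor
    · rintro (⟨h1, h2⟩ | ⟨h1, h2, -⟩)
      · exact ⟨h1, h h2⟩
      · exact ⟨h1, h2⟩
    · rintro ⟨h1, h2⟩
      by_cases h3 : l ∈ BL
      · exact Or.inl ⟨h1, h3⟩
      · exact Or.inr ⟨h1, h2, h3⟩
  · rw [H347.fd_memK, H347.fd_memK]
    exact ⟨fun h1 => h1.resolve_right (fd_memB j l), Or.inl⟩
  · exact iff_of_false (fun h1 => h1.elim (H347.gd_memK j) (gd_memB j)) (H347.gd_memK j)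

lemma disj_Bst (h : Disjoint BL BL1) : Disjoint (H347.Kset S BL FL) (Bst LF S BL1) := by
  rw [Finset.disjoint_left]
  intro e he he'
  rcases e with (⟨p, l⟩ | ⟨j, l⟩) | j
  · rw [H347.bd_memK] at he
    rw [bd_memB] at he'
    exact Finset.disjoint_left.1 h he.2 he'.2
  · exact fd_memB j l he'
  · exact gd_memB j he'

/-! ### energies -/

/-- the share of the bond levels in `BL` -/
noncomputable def tB (n : ℕ) (b : ℝ) (cB : LB → ℝ) (BL : Finset LB) : ℝ :=
  b ^ 2 / n * ∑ l ∈ BL, cB l ^ 2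

/-- the thermal average of a pair of spins -/
noncomputable abbrev av2 (b : ℝ) (cB : LB → ℝ) (cF : LF → ℝ) (s η lam c : ℝ) (p : Pair n) :
    (H347.Co n LB LF → ℝ) → ℝ := avS b cB cF s η lam c fun w => SkS p w.2

/-- the thermal average of two pairs of spins -/
noncomputable abbrev av4 (b : ℝ) (cB : LB → ℝ) (cF : LF → ℝ) (s η lam c : ℝ) (p q : Pair n) :
    (H347.Co n LB LF → ℝ) → ℝ := avS b cB cF s η lam c fun w => SkS p w.2 * SkS q w.2

lemma tB_nonneg (n : ℕ) (b : ℝ) (cB : LB → ℝ) (BL : Finset LB) : 0 ≤ tB n b cB BL := by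
  unfold tB
  positivity

lemma coef_sq (n : ℕ) (b a : ℝ) : (b / √n * a) ^ 2 = b ^ 2 / n * a ^ 2 := by
  rw [mul_pow, div_pow, Real.sq_sqrt (Nat.cast_nonneg n)]

lemma cx_bd (hw : Wt (gs (H347.Co n LB LF)) (wS n b cB cF s η lam c x))
    (K : Finset (H347.Co n LB LF)) (p : Pair n) (l : LB) (z : H347.Co n LB LF → ℝ) :
    cxS n b cB cF s η lam c x K (avS b cB cF s η lam c (H347.Sm b cB cF s η (H347.bd LF p l))) z =
      b / √n * cB l * cxS n b cB cF s η lam c x K (av2 b cB cF s η lam c p) z := by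
  have e1 : avS b cB cF s η lam c (H347.Sm b cB cF s η (H347.bd LF p l)) =
      fun u => b / √n * cB l * av2 b cB cF s η lam c p u := by
    funext u
    exact av_mul (muA (H347.Xs n) lam η c) 1 (H347.Sm b cB cF s η) (b / √n * cB l)
      (fun w => SkS p w.2) u
  rw [e1]
  exact cx_const_mul hw _ z

lemma cx_bd2 (hw : Wt (gs (H347.Co n LB LF)) (wS n b cB cF s η lam c x))
    (K : Finset (H347.Co n LB LF)) (p q : Pair n) (l m : LB) (z : H347.Co n LB LF → ℝ) :
    cxS n b cB cF s η lam c x K (avS b cB cF s η lam c (fun w =>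
      H347.Sm b cB cF s η (H347.bd LF p l) w * H347.Sm b cB cF s η (H347.bd LF q m) w)) z =
      b / √n * cB l * (b / √n * cB m) *
        cxS n b cB cF s η lam c x K (av4 b cB cF s η lam c p q) z := by
  have e1 : avS b cB cF s η lam c (fun w =>
      H347.Sm b cB cF s η (H347.bd LF p l) w * H347.Sm b cB cF s η (H347.bd LF q m) w) =
      fun u => b / √n * cB l * (b / √n * cB m) * av4 b cB cF s η lam c p q u := by
    have e2 : (fun w : ℝ × H347.Xs n => H347.Sm b cB cF s η (H347.bd LF p l) w *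
        H347.Sm b cB cF s η (H347.bd LF q m) w) =
        fun w => b / √n * cB l * (b / √n * cB m) * (SkS p w.2 * SkS q w.2) := by
      funext w
      show b / √n * cB l * SkS p w.2 * (b / √n * cB m * SkS q w.2) = _
      ring
    funext u
    rw [e2]
    exact av_mul (muA (H347.Xs n) lam η c) 1 (H347.Sm b cB cF s η)
      (b / √n * cB l * (b / √n * cB m)) (fun w => SkS p w.2 * SkS q w.2) u
  rw [e1]
  exact cx_const_mul hw _ z

lemma sum_B1 (hw : Wt (gs (H347.Co n LB LF)) (wS n b cB cF s η lam c x))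
    (K : Finset (H347.Co n LB LF)) (z : H347.Co n LB LF → ℝ) :
    ∑ e ∈ Bst LF S BL, cxS n b cB cF s η lam c x K
        (avS b cB cF s η lam c (H347.Sm b cB cF s η e)) z ^ 2 =
      tB n b cB BL * ∑ p ∈ prs S,
        cxS n b cB cF s η lam c x K (av2 b cB cF s η lam c p) z ^ 2 := by
  rw [sum_Bst, Finset.mul_sum]
  refine Finset.sum_congr rfl fun p _ => ?_
  unfold tB
  rw [Finset.mul_sum, Finset.sum_mul]
  refine Finset.sum_congr rfl fun l _ => ?_
  rw [cx_bd hw, mul_pow, coef_sq]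

lemma sum_B2 (hw : Wt (gs (H347.Co n LB LF)) (wS n b cB cF s η lam c x))
    (K : Finset (H347.Co n LB LF)) (z : H347.Co n LB LF → ℝ) :
    ∑ e ∈ Bst LF S BL, ∑ f ∈ Bst LF S BL, cxS n b cB cF s η lam c x K
        (avS b cB cF s η lam c (fun w => H347.Sm b cB cF s η e w * H347.Sm b cB cF s η f w)) z ^ 2 =
      tB n b cB BL ^ 2 * ∑ p ∈ prs S, ∑ q ∈ prs S,
        cxS n b cB cF s η lam c x K (av4 b cB cF s η lam c p q) z ^ 2 := by
  simp only [sum_Bst]
  have h1 : ∀ p ∈ prs S, ∑ l ∈ BL, ∑ q ∈ prs S, ∑ m ∈ BL, cxS n b cB cF s η lam c x K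
        (avS b cB cF s η lam c (fun w => H347.Sm b cB cF s η (H347.bd LF p l) w *
          H347.Sm b cB cF s η (H347.bd LF q m) w)) z ^ 2 =
      ∑ q ∈ prs S, tB n b cB BL ^ 2 *
        cxS n b cB cF s η lam c x K (av4 b cB cF s η lam c p q) z ^ 2 := by
    intro p _
    rw [Finset.sum_comm]
    refine Finset.sum_congr rfl fun q _ => ?_
    have h2 : tB n b cB BL ^ 2 = ∑ l ∈ BL, ∑ m ∈ BL, b ^ 2 / n * cB l ^ 2 *
        (b ^ 2 / n * cB m ^ 2) := by
      unfold tB
      rw [pow_two, Finset.mul_sum, Finset.sum_mul_sum]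
    rw [h2, Finset.sum_mul]
    refine Finset.sum_congr rfl fun l _ => ?_
    rw [Finset.sum_mul]
    refine Finset.sum_congr rfl fun m _ => ?_
    rw [cx_bd2 hw, mul_pow, mul_pow, coef_sq, coef_sq]
  rw [Finset.sum_congr rfl h1, Finset.mul_sum]
  exact Finset.sum_congr rfl fun p _ => (Finset.mul_sum _ _ _).symm

section main

variable (hl : 0 < lam) (hη : 0 ≤ η)
include hl hη

lemma gm_sk (c b : ℝ) (cB : LB → ℝ) (cF : LF → ℝ) (s : ℝ) :
    ∃ M0, GM (muA (H347.Xs n) lam η c) (H347.Sm (LB := LB) (LF := LF) b cB cF s η) M0 := by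
  have := H347.dmx n
  obtain ⟨M0, hB⟩ := ab_sk (n := n) b cB cF s hη
  exact ⟨_, gm (c := c) hl hη hB⟩

/-- **Fourth moment of the overlap over `S`**, from the block `Kset S BL FL` to the block
`Kset S BL' FL` (bond levels `BL' \ BL`). -/
theorem mom4_sk (c b : ℝ) (cB : LB → ℝ) (cF : LF → ℝ) (s : ℝ) (hx : 0 ≤ x) (hx1 : x ≤ 1)
    (hBL : BL ⊆ BL') (S : Finset (Fin n)) (FL : Finset LF)
    {Q : (H347.Co n LB LF → ℝ) → ℝ} (hQ : BM Q) (hQK : Dep (H347.Kset S BL FL) Q)
    (hQ0 : ∀ z, 0 ≤ Q z) (ht : 0 < tB n b cB (BL' \ BL)) :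
    x ^ 2 * (tB n b cB (BL' \ BL) * exS n b cB cF s η lam c x (fun z => Q z * ∑ p ∈ prs S,
        ∑ q ∈ prs S, cxS n b cB cF s η lam c x (H347.Kset S BL FL)
          (av4 b cB cF s η lam c p q) z ^ 2)) ≤
      2 * (exS n b cB cF s η lam c x (fun z => Q z * ∑ p ∈ prs S,
          cxS n b cB cF s η lam c x (H347.Kset S BL' FL) (av2 b cB cF s η lam c p) z ^ 2) -
        exS n b cB cF s η lam c x (fun z => Q z * ∑ p ∈ prs S,
          cxS n b cB cF s η lam c x (H347.Kset S BL FL) (av2 b cB cF s η lam c p) z ^ 2)) +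
      2 * (x ^ 2 * (tB n b cB (BL' \ BL) * exS n b cB cF s η lam c x (fun z => Q z *
        (∑ p ∈ prs S, cxS n b cB cF s η lam c x (H347.Kset S BL' FL)
          (av2 b cB cF s η lam c p) z ^ 2) ^ 2))) := by
  obtain ⟨M0, hG⟩ := gm_sk (n := n) hl hη c b cB cF s
  have hw : Wt (gs (H347.Co n LB LF)) (wS n b cB cF s η lam c x) := hG.wt 1 x
  have h1 := mom4_cx (K := H347.Kset S BL FL) (A0 := Bst LF S (BL' \ BL)) hG 1 hx hx1
    (disj_Bst Finset.disjoint_sdiff) hQ hQK hQ0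
  rw [Kset_Bst hBL] at h1
  have e2 := fun z => sum_B2 (S := S) (BL := BL' \ BL) hw (H347.Kset S BL FL) z
  have e1 := fun z => sum_B1 (S := S) (BL := BL' \ BL) hw (H347.Kset S BL' FL) z
  have e0 := fun z => sum_B1 (S := S) (BL := BL' \ BL) hw (H347.Kset S BL FL) z
  simp only [one_pow, one_mul] at h1
  set t := tB n b cB (BL' \ BL) with htd
  have f2 : ex (gs (H347.Co n LB LF)) (Zxm (muA (H347.Xs n) lam η c) 1 (H347.Sm b cB cF s η) x)
      (fun z => Q z * ∑ e ∈ Bst LF S (BL' \ BL), ∑ f ∈ Bst LF S (BL' \ BL),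
        cx (gs (H347.Co n LB LF)) (H347.Kset S BL FL)
          (Zxm (muA (H347.Xs n) lam η c) 1 (H347.Sm b cB cF s η) x)
          (avm (muA (H347.Xs n) lam η c) 1 (H347.Sm b cB cF s η) fun w =>
            H347.Sm b cB cF s η e w * H347.Sm b cB cF s η f w) z ^ 2) =
      t ^ 2 * exS n b cB cF s η lam c x (fun z => Q z * ∑ p ∈ prs S,
        ∑ q ∈ prs S, cxS n b cB cF s η lam c x (H347.Kset S BL FL)
          (av4 b cB cF s η lam c p q) z ^ 2) := by
    rw [← hw.ex_const_mul]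
    congr 1
    funext z
    rw [e2 z]
    ring
  have f1 : ∀ (BX : Finset LB), (∀ z, ∑ e ∈ Bst LF S (BL' \ BL), cxS n b cB cF s η lam c x
        (H347.Kset S BX FL) (avS b cB cF s η lam c (H347.Sm b cB cF s η e)) z ^ 2 =
      t * ∑ p ∈ prs S, cxS n b cB cF s η lam c x (H347.Kset S BX FL)
        (av2 b cB cF s η lam c p) z ^ 2) →
      ex (gs (H347.Co n LB LF)) (Zxm (muA (H347.Xs n) lam η c) 1 (H347.Sm b cB cF s η) x)
      (fun z => Q z * ∑ e ∈ Bst LF S (BL' \ BL), cx (gs (H347.Co n LB LF)) (H347.Kset S BX FL)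
          (Zxm (muA (H347.Xs n) lam η c) 1 (H347.Sm b cB cF s η) x)
          (avm (muA (H347.Xs n) lam η c) 1 (H347.Sm b cB cF s η)
            (H347.Sm b cB cF s η e)) z ^ 2) =
      t * exS n b cB cF s η lam c x (fun z => Q z * ∑ p ∈ prs S,
        cxS n b cB cF s η lam c x (H347.Kset S BX FL) (av2 b cB cF s η lam c p) z ^ 2) := by
    intro BX hBX
    rw [← hw.ex_const_mul]
    congr 1
    funext z
    rw [hBX z]
    ring
  have f3 : ex (gs (H347.Co n LB LF)) (Zxm (muA (H347.Xs n) lam η c) 1 (H347.Sm b cB cF s η) x)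
      (fun z => Q z * (∑ e ∈ Bst LF S (BL' \ BL), cx (gs (H347.Co n LB LF)) (H347.Kset S BL' FL)
          (Zxm (muA (H347.Xs n) lam η c) 1 (H347.Sm b cB cF s η) x)
          (avm (muA (H347.Xs n) lam η c) 1 (H347.Sm b cB cF s η)
            (H347.Sm b cB cF s η e)) z ^ 2) ^ 2) =
      t ^ 2 * exS n b cB cF s η lam c x (fun z => Q z * (∑ p ∈ prs S,
        cxS n b cB cF s η lam c x (H347.Kset S BL' FL)
          (av2 b cB cF s η lam c p) z ^ 2) ^ 2) := by
    rw [← hw.ex_const_mul]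
    congr 1
    funext z
    rw [e1 z]
    ring
  rw [f2, f1 BL' e1, f1 BL e0, f3] at h1
  refine le_of_mul_le_mul_left ?_ ht
  refine le_trans (le_of_eq ?_) (h1.trans (le_of_eq ?_))
  · ring
  · ring

/-- **Powers of the squared norm of the matrix of conditional two-point functions**, from the
hidden bond levels. -/
theorem pow_sk (c b : ℝ) (cB : LB → ℝ) (cF : LF → ℝ) (s : ℝ) (hx : 0 < x)
    (h1 : Disjoint BL BL1) (S : Finset (Fin n)) (FL : Finset LF) (p : ℕ) :
    exS n b cB cF s η lam c x (fun z => (x ^ 2 / 2 * (tB n b cB BL1 * ∑ q ∈ prs S,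
        cxS n b cB cF s η lam c x (H347.Kset S BL FL) (av2 b cB cF s η lam c q) z ^ 2)) ^ p) ≤
      2 ^ (p - 1) * (gain (muA (H347.Xs n) lam η c) 1 x
        (H347.Sm (LB := LB) (LF := LF) b cB cF s η) ^ p + p.factorial) := by
  obtain ⟨M0, hG⟩ := gm_sk (n := n) hl hη c b cB cF s
  have hw : Wt (gs (H347.Co n LB LF)) (wS n b cB cF s η lam c x) := hG.wt 1 x
  have h2 := pow_cx hG 1 hx (H347.Kset S BL FL) (Bst LF S BL1) (disj_Bst h1) p
  simp only [one_pow, one_mul] at h2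
  refine le_trans (le_of_eq ?_) h2
  congr 1
  funext z
  rw [sum_B1 hw]

/-- **The fourth moment of the overlap over `S`, explicit**: `t` is the share of the bond levels
between the two blocks, `t1` the share of the levels which stay hidden. -/
theorem mom4_num (c b : ℝ) (cB : LB → ℝ) (cF : LF → ℝ) (s : ℝ) (hx : 0 < x) (hx1 : x ≤ 1)
    (hBL : BL ⊆ BL') (h1 : Disjoint BL' BL1) (S : Finset (Fin n)) (FL : Finset LF)
    (ht : 0 < tB n b cB (BL' \ BL)) (ht1 : 0 < tB n b cB BL1) :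
    exS n b cB cF s η lam c x (fun z => ∑ p ∈ prs S,
        ∑ q ∈ prs S, cxS n b cB cF s η lam c x (H347.Kset S BL FL)
          (av4 b cB cF s η lam c p q) z ^ 2) ≤
      4 * (gain (muA (H347.Xs n) lam η c) 1 x
        (H347.Sm (LB := LB) (LF := LF) b cB cF s η) + 1) /
          (x ^ 4 * (tB n b cB (BL' \ BL) * tB n b cB BL1)) +
      16 * (gain (muA (H347.Xs n) lam η c) 1 x
        (H347.Sm (LB := LB) (LF := LF) b cB cF s η) ^ 2 + 2) / (x ^ 4 * tB n b cB BL1 ^ 2) := by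
  obtain ⟨M0, hG⟩ := gm_sk (n := n) hl hη c b cB cF s
  have hw : Wt (gs (H347.Co n LB LF)) (wS n b cB cF s η lam c x) := hG.wt 1 x
  set g := gain (muA (H347.Xs n) lam η c) 1 x (H347.Sm (LB := LB) (LF := LF) b cB cF s η) with hg
  set t := tB n b cB (BL' \ BL) with htd
  set t1 := tB n b cB BL1 with ht1d
  set Y : (H347.Co n LB LF → ℝ) → ℝ := fun z => ∑ q ∈ prs S,
    cxS n b cB cF s η lam c x (H347.Kset S BL' FL) (av2 b cB cF s η lam c q) z ^ 2 with hY
  have a1 := mom4_sk hl hη c b cB cF s hx.le hx1 hBL S FL (Q := fun _ => 1) (BM.const 1)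
    (fun _ _ => rfl) (fun _ => zero_le_one) ht
  simp only [one_mul] at a1
  have a2 := pow_sk hl hη c b cB cF s hx h1 S FL 1
  have a3 := pow_sk hl hη c b cB cF s hx h1 S FL 2
  have b2 : exS n b cB cF s η lam c x (fun z => (x ^ 2 / 2 * (t1 * Y z)) ^ 1) =
      x ^ 2 / 2 * t1 * exS n b cB cF s η lam c x Y := by
    show ex _ _ _ = _ * ex _ _ _
    rw [← hw.ex_const_mul]
    congr 1
    funext z
    ring
  have b3 : exS n b cB cF s η lam c x (fun z => (x ^ 2 / 2 * (t1 * Y z)) ^ 2) =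
      (x ^ 2 / 2 * t1) ^ 2 * exS n b cB cF s η lam c x (fun z => Y z ^ 2) := by
    show ex _ _ _ = _ * ex _ _ _
    rw [← hw.ex_const_mul]
    congr 1
    funext z
    ring
  have a2' : x ^ 2 / 2 * t1 * exS n b cB cF s η lam c x Y ≤ g + 1 := by
    rw [← b2]
    refine a2.trans (le_of_eq ?_)
    norm_num
    rfl
  have a3' : (x ^ 2 / 2 * t1) ^ 2 * exS n b cB cF s η lam c x (fun z => Y z ^ 2) ≤
      2 * (g ^ 2 + 2) := by
    rw [← b3]
    refine a3.trans (le_of_eq ?_)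
    norm_num [Nat.factorial]
    rfl
  have bm2 : ∀ q : Pair n, BM (av2 (LB := LB) (LF := LF) b cB cF s η lam c q) := by
    intro q
    have := H347.dmx n
    refine hG.bm_avm 1 (Bm.of (C := 1) ?_ fun w => ?_)
    · exact (measurable_of_finite (fun σ : H347.Xs n => SkS q σ)).comp measurable_snd
    · unfold SkS
      rw [abs_mul]
      have k1 := abs_sp_le w.2 q.1.1
      have k2 := abs_sp_le w.2 q.1.2
      exact mul_le_one₀ k1 (abs_nonneg _) k2
  have hYK : 0 ≤ exS n b cB cF s η lam c x (fun z => ∑ p ∈ prs S,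
      cxS n b cB cF s η lam c x (H347.Kset S BL FL) (av2 b cB cF s η lam c p) z ^ 2) :=
    hw.ex_nonneg (bm_sum_sq _ fun p _ => hw.bm_cx _ (bm2 p)) fun z =>
      Finset.sum_nonneg fun _ _ => sq_nonneg _
  have hx2 : 0 < x ^ 2 := by positivity
  set E4 := exS n b cB cF s η lam c x (fun z => ∑ p ∈ prs S,
        ∑ q ∈ prs S, cxS n b cB cF s η lam c x (H347.Kset S BL FL)
          (av4 b cB cF s η lam c p q) z ^ 2) with hE4
  set E2 := exS n b cB cF s η lam c x Y with hE2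
  set E22 := exS n b cB cF s η lam c x (fun z => Y z ^ 2) with hE22
  have k1 : E4 ≤ 2 / (x ^ 2 * t) * E2 + 2 * E22 := by
    have k2 : x ^ 2 * t * E4 ≤ x ^ 2 * t * (2 / (x ^ 2 * t) * E2 + 2 * E22) := by
      have k3 : x ^ 2 * t * (2 / (x ^ 2 * t) * E2 + 2 * E22) =
          2 * E2 + 2 * (x ^ 2 * (t * E22)) := by
        field_simp
      rw [k3]
      linarith
    exact le_of_mul_le_mul_left k2 (by positivity)
  have k4 : E2 ≤ 2 * (g + 1) / (x ^ 2 * t1) := by
    rw [le_div_iff₀ (by positivity)]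
    linarith
  have k5 : E22 ≤ 8 * (g ^ 2 + 2) / (x ^ 4 * t1 ^ 2) := by
    rw [le_div_iff₀ (by positivity)]
    have : (x ^ 2 / 2 * t1) ^ 2 * E22 = E22 * (x ^ 4 * t1 ^ 2) / 4 := by ring
    linarith
  calc E4 ≤ 2 / (x ^ 2 * t) * E2 + 2 * E22 := k1
    _ ≤ 2 / (x ^ 2 * t) * (2 * (g + 1) / (x ^ 2 * t1)) +
        2 * (8 * (g ^ 2 + 2) / (x ^ 4 * t1 ^ 2)) := by
        refine add_le_add (mul_le_mul_of_nonneg_left k4 (by positivity)) (by linarith)
    _ = _ := by
        field_simp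
        ring

end main

end Vale.Agent.P146.H412
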