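import Vale.Agent.P146.H412.MomG
import Vale.Agent.P146.H412.K8S
import Vale.Agent.P146.H698.BridgeU

/-!
A-priori sizes in the ensemble U with two classes of fields (`false` plain, `true` modulated), base
space `ℝ × Xs n`, measure `muA`: the modulated levels may be revealed or hidden.
-/

open MeasureTheory ProbabilityTheory Filter Topology Set

namespace Vale.Agent.P146.H412.U

open Vale.Agent.P157.Lv hiding Dep
open Vale.Agent.P146.H425 Vale.Agent.P146.H332 Vale.Agent.P146.H646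
open Vale.Agent.P146.H196 Vale.Agent.P146.H246 Vale.Agent.P146.H347 Vale.Agent.P146.H325
  Vale.Agent.P146.H816 Vale.Agent.P146.H475 Vale.Agent.P146.H9 Vale.Agent.P146.H281.U
  Vale.Agent.P146.H698.Br Vale.Agent.P146.H412 Vale.Agent.P146.H412.G Vale.Agent.P146.H529
  Vale.Agent.P146.H463
open Vale.Agent.P146.H9.U hiding lvlU

set_option linter.unusedSectionVars false

/-- the bond energies of the ensemble U -/
lemma bdsU {Th LB LF : Type} [MeasurableSpace Th] {n : ℕ} (b : ℝ) (cB : LB → ℝ) (cF : LF → ℝ)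
    (a : LF → Th → ℝ) : Bds (n := n) (SU b cB cF a) b cB fun p w => SkS p w.2 := fun _ _ => rfl

/-- the field energies of the ensemble U -/
lemma fdsU {Th LB LF : Type} [MeasurableSpace Th] {n : ℕ} (b : ℝ) (cB : LB → ℝ) (cF : LF → ℝ)
    (a : LF → Th → ℝ) :
    Fds (n := n) (SU b cB cF a) cF fun l i w => a l w.1 * H325.sp w.2 i := fun i l => by
  funext w
  show cF l * a l w.1 * H325.sp w.2 i = cF l * (a l w.1 * H325.sp w.2 i)
  ring

variable {n : ℕ} {LB LF LB' LF' : Type} [Fintype LB] [DecidableEq LB] [Fintype LF]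
  [DecidableEq LF] [Fintype LB'] [DecidableEq LB'] [Fintype LF'] [DecidableEq LF']
variable {b vp s η lam c t u x : ℝ} {cB : LB → ℝ} {cF : LF → ℝ} {cB' : LB' → ℝ} {cF' : LF' → ℝ}
variable {κ : LF' → Bool}

/-- the log-moments of the single amplitude system and of the ensemble U agree -/
theorem bridge_lm (hl : 0 < lam) (hη : 0 ≤ η) (hv : 0 < vp) (hs : 0 < s)
    (hB1 : ∑ l, cB l ^ 2 = 1) (hF1 : ∑ l, cF l ^ 2 = vp)
    (hB1' : ∑ l, cB' l ^ 2 = 1) (hF1' : ∀ k, ∑ l with κ l = k, cF' l ^ 2 = VFb vp s k) (z : ℝ) :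
    lm (lzm (muA (Xs n) lam η c) 1 (Sm b cB cF s η)) z =
      lm (lzm (muA (Xs n) lam η c) 1 (SU b cB' cF' fun l => αb η (κ l))) z := by
  obtain ⟨M0, hG⟩ := gm_base (n := n) (b := b) (vp := vp) (s := s) hl hη c
  unfold H529.lm
  congr 1
  have e1 : ∀ y : Co n LB LF → ℝ, lzm (muA (Xs n) lam η c) 1 (Sm b cB cF s η) y =
      lzm (muA (Xs n) lam η c) 1 (SbU n b (VFb vp s) (αb η))
        (lf (pC n LB LF) (cC n cB cF vp) y) := fun y => lz_lv (lvlC hv hs b η) 1 y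
  have e2 : ∀ y : Co n LB' LF' → ℝ,
      lzm (muA (Xs n) lam η c) 1 (SU b cB' cF' fun l => αb η (κ l)) y =
      lzm (muA (Xs n) lam η c) 1 (SbU n b (VFb vp s) (αb η))
        (lf (p0U n LB' κ) (cz n κ cB' cF' (VFb vp s)) y) :=
    fun y => lz_lv (lvlz hF1' b (αb η)) 1 y
  simp only [e1, e2]
  rw [int_lf (pC n LB LF) (cC n cB cF vp)
    (G := fun y => Real.exp (z * lzm (muA (Xs n) lam η c) 1 (SbU n b (VFb vp s) (αb η)) y))
      (eg_Zx hG 1 z).meas,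
    int_lf (p0U n LB' κ) (cz n κ cB' cF' (VFb vp s))
    (G := fun y => Real.exp (z * lzm (muA (Xs n) lam η c) 1 (SbU n b (VFb vp s) (αb η)) y))
      (eg_Zx hG 1 z).meas]
  simp only [vfC_tot hv hB1 hF1, vfz_tot (VFb_ne hv hs) hB1' hF1']

/-- the gains agree -/
theorem gain_U (hl : 0 < lam) (hη : 0 ≤ η) (hv : 0 < vp) (hs : 0 < s)
    (hB1 : ∑ l, cB l ^ 2 = 1) (hF1 : ∑ l, cF l ^ 2 = vp)
    (hB1' : ∑ l, cB' l ^ 2 = 1) (hF1' : ∀ k, ∑ l with κ l = k, cF' l ^ 2 = VFb vp s k)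
    (hx : 0 < x) :
    gain (muA (Xs n) lam η c) 1 x (SU b cB' cF' fun l => αb η (κ l)) =
      gain (muA (Xs n) lam η c) 1 x (Sm b cB cF s η) := by
  rw [gain_lm _ _ _ hx, gain_lm _ _ _ hx,
    bridge_lm (cB := cB) (cF := cF) hl hη hv hs hB1 hF1 hB1' hF1' (2 * x),
    bridge_lm (cB := cB) (cF := cF) hl hη hv hs hB1 hF1 hB1' hF1' x]

/-- **The gain in the ensemble U, eventually**, for all level systems. -/
theorem gnU_ev {b e s0 s1 : ℝ} (hb : 0 < b) (he : 0 < e) (hs0 : 0 ≤ s0) (hs : s0 < s1) :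
    ∀ᶠ n : ℕ in atTop, ∀ (vp s lam η y V a : ℝ), Par b s0 e n vp s lam η y V a → 0 < vp →
      ∀ (LB' LF' : Type) [Fintype LB'] [DecidableEq LB'] [Fintype LF'] [DecidableEq LF']
      (cB' : LB' → ℝ) (cF' : LF' → ℝ) (κ : LF' → Bool), ∑ l, cB' l ^ 2 = 1 →
      (∀ k, ∑ l with κ l = k, cF' l ^ 2 = VFb vp s k) →
      gain (muA (Xs n) lam η (cc n b s a)) 1 y
        (SU b cB' cF' fun l => αb η (κ l) : Co n LB' LF' → ℝ × Xs n → ℝ) ≤
        (n : ℝ) ^ (1 + s1) * y ^ 6 := by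
  filter_upwards [gn_ev hb he hs0 hs, eventually_ge_atTop 1] with n g1 g2
  intro vp s lam η y V a h hv LB' LF' _ _ _ _ cB' cF' κ hB hF
  have hn0 : (0 : ℝ) < n := by exact_mod_cast g2
  have hy0 : 0 < y := lt_of_lt_of_le (Real.rpow_pos_of_pos hn0 _) h.y0
  have hl : 0 < lam := by linarith [h.lam1]
  rw [gain_U (cB := H418.cb 0) (cF := H418.cf vp 0) hl h.η0.le hv h.s0'
    (H418.sum_cb le_rfl zero_le_one) (H418.sum_cf h.vp0 le_rfl zero_le_one) hB hF hy0]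
  exact g1 vp s lam η y V a h.vp0 h.hV h.V1 h.s0' h.lam1 h.η0 h.η1 h.lamη h.y0 h.y1 h.ap
    h.ap2 h.sg 0 ⟨le_rfl, zero_le_one⟩ 0 ⟨le_rfl, zero_le_one⟩

/-! ### numerical forms, any system with the bonds of `H347` -/

section num

variable {Ω : Type} [MeasurableSpace Ω] {μ : Measure Ω} {E : Co n LB LF → Ω → ℝ} {M0 : ℝ}
  {cf : Ω → Xs n} {S : Finset (Fin n)} {K : Finset (Co n LB LF)} {BL BL' BL1 : Finset LB}
  {FL : Finset LF} {T τ g : ℝ}

lemma card_le' (S : Finset (Fin n)) : (S.card : ℝ) ≤ n := by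
  have := Finset.card_le_univ S
  rw [Fintype.card_fin] at this
  exact_mod_cast this

/-- **Powers of the two-spin number**, `T` the hidden bond share. -/
theorem mom_num (hG : GM μ E M0) (hcf : Measurable cf)
    (hE : Bds E b cB fun p w => SkS p (cf w)) (hx : 0 < x) (hn : 0 < n) (hb : b ≠ 0)
    (hK : Disjoint K (Bst LF S BL1)) (hT : T = ∑ l ∈ BL1, cB l ^ 2) (hT0 : 0 < T) (hT1 : T ≤ 1)
    (hxb : x ^ 2 * b ^ 2 ≤ 4) (hg : gain μ 1 x E ≤ g) (hg1 : 1 ≤ g) (p : ℕ) :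
    eG μ E x (fun z => CCg μ E x cf K S z ^ p) ≤
      Cp p * (4 * g / (x ^ 2 * b ^ 2 * T * n)) ^ p := by
  have hn0 : (0 : ℝ) < n := by exact_mod_cast hn
  have hb2 : 0 < b ^ 2 := by positivity
  have htB : tB n b cB BL1 = b ^ 2 / n * T := by rw [hT]; rfl
  have h1 := mom_ccg (S := S) hG hcf hE hx hn hK (by rw [htB]; positivity) p
  rw [htB] at h1
  refine h1.trans ?_
  have hd : x ^ 2 / 4 * (b ^ 2 / n * T * S.card) ≤ g := by
    refine le_trans ?_ hg1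
    have h4 : b ^ 2 / n * T * S.card ≤ b ^ 2 / n * 1 * n := by
      have := card_le' S
      gcongr
    have h6 : b ^ 2 / n * 1 * (n : ℝ) = b ^ 2 := by field_simp
    rw [h6] at h4
    have h7 := mul_le_mul_of_nonneg_left h4 (show 0 ≤ x ^ 2 / 4 by positivity)
    linarith
  have hd0 : 0 ≤ x ^ 2 / 4 * (b ^ 2 / n * T * S.card) := by positivity
  have hgn : 0 ≤ gain μ 1 x E := gain_nonneg hG 1 hx
  have h6 : gain μ 1 x E ^ p ≤ g ^ p := pow_le_pow_left₀ hgn hg p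
  have h7 : (1 : ℝ) ≤ g ^ p := one_le_pow₀ hg1
  have h8 : (p.factorial : ℝ) ≤ p.factorial * g ^ p :=
    le_mul_of_one_le_right (by positivity) h7
  have h9 : (x ^ 2 / 4 * (b ^ 2 / n * T * S.card)) ^ p ≤ g ^ p := pow_le_pow_left₀ hd0 hd p
  have e1 : x ^ 2 / 4 * (b ^ 2 / n * T * (n : ℝ) ^ 2) = x ^ 2 * b ^ 2 * T * n / 4 := by
    field_simp
  obtain ⟨q, hq⟩ : ∃ q, q = x ^ 2 * b ^ 2 * T * n / 4 := ⟨_, rfl⟩
  have hq0 : 0 < q := by
    rw [hq]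
    positivity
  have e2 : 4 * g / (x ^ 2 * b ^ 2 * T * n) = g / q := by
    rw [hq]
    field_simp
  rw [e1, e2, ← hq]
  calc 2 ^ (p - 1) * (2 ^ (p - 1) * (gain μ 1 x E ^ p + p.factorial) +
        (x ^ 2 / 4 * (b ^ 2 / n * T * S.card)) ^ p) / q ^ p
      ≤ 2 ^ (p - 1) * (2 ^ (p - 1) * (g ^ p + p.factorial * g ^ p) + g ^ p) / q ^ p := by
        gcongr
    _ = Cp p * (g / q) ^ p := by
        unfold Cp
        rw [div_pow]
        ring

/-- **Tail of the two-spin number**, `T` the hidden bond share. -/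
theorem tail_num (hG : GM μ E M0) (hcf : Measurable cf)
    (hE : Bds E b cB fun p w => SkS p (cf w)) (hx : 0 < x) (hn : 0 < n)
    (hK : Disjoint K (Bst LF S BL1)) (hT : T = ∑ l ∈ BL1, cB l ^ 2) (hT1 : T ≤ 1)
    (hxb : x ^ 2 * b ^ 2 ≤ 4) (hg : gain μ 1 x E ≤ g) (r : ℝ) :
    eG μ E x (H317.ind r (CCg μ E x cf K S)) ≤
      Real.exp (g + 1 - x ^ 2 * b ^ 2 * T * n / 4 * r) := by
  have hn0 : (0 : ℝ) < n := by exact_mod_cast hn
  have htB : tB n b cB BL1 = b ^ 2 / n * T := by rw [hT]; rfl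
  have h1 := tail_ccg (S := S) hG hcf hE hx hn hK r
  rw [htB] at h1
  refine h1.trans (Real.exp_le_exp.2 ?_)
  have hd : x ^ 2 / 4 * (b ^ 2 / n * T * S.card) ≤ 1 := by
    have h4 : b ^ 2 / n * T * S.card ≤ b ^ 2 / n * 1 * n := by
      have := card_le' S
      gcongr
    have h6 : b ^ 2 / n * 1 * (n : ℝ) = b ^ 2 := by field_simp
    rw [h6] at h4
    have h7 := mul_le_mul_of_nonneg_left h4 (show 0 ≤ x ^ 2 / 4 by positivity)
    linarith
  have e1 : x ^ 2 / 4 * (b ^ 2 / n * T * (n : ℝ) ^ 2) = x ^ 2 * b ^ 2 * T * n / 4 := by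
    field_simp
  rw [e1]
  linarith

/-- **Tail of `Q`**, `T` the hidden bond share, `|h| ≤ 2`. -/
theorem tail_numQ (hG : GM μ E M0) (hcf : Measurable cf)
    (hE : Bds E b cB fun p w => SkS p (cf w)) (hx : 0 < x) (hn : 0 < n)
    (hK : Disjoint K (Bst LF S BL1)) (hT : T = ∑ l ∈ BL1, cB l ^ 2) (hT1 : T ≤ 1)
    (hxb : x ^ 2 * b ^ 2 ≤ 4) (hg : gain μ 1 x E ≤ g) {h : Ω → ℝ} (hh : H615.Bd h)
    (hC : ∀ w, |h w| ≤ 2) {U : ℝ} (hU : 0 ≤ U) :
    eG μ E x (H317.ind U (Qg μ E x cf h K S)) ≤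
      Real.exp (g + 1 - x ^ 2 * b ^ 2 * T * n / 4 * (U / 4) ^ 2) := by
  have hn0 : (0 : ℝ) < n := by exact_mod_cast hn
  have htB : tB n b cB BL1 = b ^ 2 / n * T := by rw [hT]; rfl
  have h1 := tail_Qg (S := S) hG hcf hE hx hn hK hh hC two_pos (show 0 ≤ U / 4 by positivity)
  rw [htB, show (2 : ℝ) ^ 2 * (U / 4) = U by ring] at h1
  refine h1.trans (Real.exp_le_exp.2 ?_)
  have hd : x ^ 2 / 4 * (b ^ 2 / n * T * S.card) ≤ 1 := by
    have h4 : b ^ 2 / n * T * S.card ≤ b ^ 2 / n * 1 * n := by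
      have := card_le' S
      gcongr
    have h6 : b ^ 2 / n * 1 * (n : ℝ) = b ^ 2 := by field_simp
    rw [h6] at h4
    have h7 := mul_le_mul_of_nonneg_left h4 (show 0 ≤ x ^ 2 / 4 by positivity)
    linarith
  have e1 : x ^ 2 / 4 * (b ^ 2 / n * T * (n : ℝ) ^ 2) = x ^ 2 * b ^ 2 * T * n / 4 := by
    field_simp
  rw [e1]
  linarith

/-- **The four-spin number**, `τ` the share of the bond levels `BL' \ BL`, `T` the hidden one. -/
theorem q4_num (hG : GM μ E M0) (hcf : Measurable cf)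
    (hE : Bds E b cB fun p w => SkS p (cf w)) (hx : 0 < x) (hx1 : x ≤ 1) (hn : 0 < n)
    (hb : b ≠ 0) (hBL : BL ⊆ BL') (h1 : Disjoint BL' BL1) (hτ : τ = ∑ l ∈ BL' \ BL, cB l ^ 2)
    (hT : T = ∑ l ∈ BL1, cB l ^ 2) (hτ0 : 0 < τ) (hT0 : 0 < T) (hg : gain μ 1 x E ≤ g)
    (hg1 : 1 ≤ g) (S : Finset (Fin n)) (FL : Finset LF) :
    eG μ E x (Q4g μ E x (Kset S BL FL) (sR cf) S) ≤ 2 * (n : ℝ) ^ 2 +
      64 * g * n ^ 2 / (x ^ 4 * b ^ 4 * (τ * T)) + 384 * g ^ 2 * n ^ 2 / (x ^ 4 * b ^ 4 * T ^ 2) := by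
  have hn0 : (0 : ℝ) < n := by exact_mod_cast hn
  have hb2 : 0 < b ^ 2 := by positivity
  have htB : tB n b cB BL1 = b ^ 2 / n * T := by rw [hT]; rfl
  have htB' : tB n b cB (BL' \ BL) = b ^ 2 / n * τ := by rw [hτ]; rfl
  have h2 := ex_q4_g hG hcf hE hx hx1 hBL h1 S FL (by rw [htB']; positivity)
    (by rw [htB]; positivity)
  rw [htB, htB'] at h2
  refine h2.trans ?_
  have hgn : 0 ≤ gain μ 1 x E := gain_nonneg hG 1 hx
  have h3 : (S.card : ℝ) ^ 2 ≤ (n : ℝ) ^ 2 :=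
    pow_le_pow_left₀ (Nat.cast_nonneg _) (card_le' S) 2
  have h4 : 8 * (4 * (gain μ 1 x E + 1) / (x ^ 4 * (b ^ 2 / n * τ * (b ^ 2 / n * T)))) ≤
      64 * g * n ^ 2 / (x ^ 4 * b ^ 4 * (τ * T)) := by
    have e : 8 * (4 * (gain μ 1 x E + 1) / (x ^ 4 * (b ^ 2 / n * τ * (b ^ 2 / n * T)))) =
        32 * (gain μ 1 x E + 1) * n ^ 2 / (x ^ 4 * b ^ 4 * (τ * T)) := by
      field_simp
      ring
    rw [e]
    refine div_le_div_of_nonneg_right (mul_le_mul_of_nonneg_right ?_ (by positivity))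
      (by positivity)
    linarith
  have h5 : 8 * (16 * (gain μ 1 x E ^ 2 + 2) / (x ^ 4 * (b ^ 2 / n * T) ^ 2)) ≤
      384 * g ^ 2 * n ^ 2 / (x ^ 4 * b ^ 4 * T ^ 2) := by
    have e : 8 * (16 * (gain μ 1 x E ^ 2 + 2) / (x ^ 4 * (b ^ 2 / n * T) ^ 2)) =
        128 * (gain μ 1 x E ^ 2 + 2) * n ^ 2 / (x ^ 4 * b ^ 4 * T ^ 2) := by
      field_simp
      ring
    rw [e]
    have h6 : gain μ 1 x E ^ 2 ≤ g ^ 2 := pow_le_pow_left₀ hgn hg 2
    have h7 : (1 : ℝ) ≤ g ^ 2 := one_le_pow₀ hg1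
    refine div_le_div_of_nonneg_right (mul_le_mul_of_nonneg_right ?_ (by positivity))
      (by positivity)
    linarith
  rw [mul_add]
  linarith

end num

/-! ### eventually -/

/-- `1 ≤ n ^ (1 + s1) y ^ 6`, with room -/
lemma G_ge {e s1 y : ℝ} (hs1 : 0 ≤ s1) (hn : 1 ≤ n) (hy : (n : ℝ) ^ (-(1 / 6) + e) ≤ y) :
    (n : ℝ) ^ (6 * e) ≤ (n : ℝ) ^ (1 + s1) * y ^ 6 := by
  have hn1 : (1 : ℝ) ≤ n := by exact_mod_cast hn
  have hn0 : (0 : ℝ) < n := by linarith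
  have h2 := ypow hn hy
  calc (n : ℝ) ^ (6 * e) ≤ (n : ℝ) ^ (s1 + 6 * e) :=
        Real.rpow_le_rpow_of_exponent_le hn1 (by linarith)
    _ = (n : ℝ) ^ (1 + s1) * (n : ℝ) ^ (-1 + 6 * e) := by
        rw [← Real.rpow_add hn0]
        congr 1
        ring
    _ ≤ _ := by gcongr

section evU

variable {e s0 s1 s2 : ℝ}

/-- the regularity class of the ensemble U with two classes -/
lemma gmUb (b : ℝ) (cB : LB → ℝ) (cF : LF → ℝ) (κ : LF → Bool) (hl : 0 < lam) (hη : 0 ≤ η)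
    (c : ℝ) : ∃ M1, GM (muA (Xs n) lam η c)
      (SU b cB cF fun l => αb η (κ l) : Co n LB LF → ℝ × Xs n → ℝ) M1 := gm_U hl hη c

/-- **Moments of the two-spin number in the ensemble U, eventually**: `T` is the hidden bond
share, `K` any block without the bonds of the levels `BL1` inside `S`. -/
theorem mom_evU (hb : 0 < b) (he : 0 < e) (hs0 : 0 ≤ s0) (hs : s0 < s1) :
    ∀ᶠ n : ℕ in atTop, ∀ (vp s lam η y V a : ℝ), Par b s0 e n vp s lam η y V a → 0 < vp →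
      y ^ 2 * b ^ 2 ≤ 4 →
      ∀ (LB LF : Type) [Fintype LB] [DecidableEq LB] [Fintype LF] [DecidableEq LF]
      (cB : LB → ℝ) (cF : LF → ℝ) (κ : LF → Bool), ∑ l, cB l ^ 2 = 1 →
      (∀ k, ∑ l with κ l = k, cF l ^ 2 = VFb vp s k) →
      ∀ (S : Finset (Fin n)) (K : Finset (Co n LB LF)) (BL1 : Finset LB) (T : ℝ),
      Disjoint K (Bst LF S BL1) → T = ∑ l ∈ BL1, cB l ^ 2 → 0 < T → ∀ p : ℕ,
      eG (muA (Xs n) lam η (cc n b s a)) (SU b cB cF fun l => αb η (κ l)) y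
        (fun z => CCg (muA (Xs n) lam η (cc n b s a)) (SU b cB cF fun l => αb η (κ l)) y
          Prod.snd K S z ^ p) ≤ Cp p * (4 * ((n : ℝ) ^ s1 * y ^ 4) / (b ^ 2 * T)) ^ p := by
  filter_upwards [gnU_ev hb he hs0 hs, eventually_ge_atTop 1] with n g1 g2
  intro vp s lam η y V a h hv hyb LB LF _ _ _ _ cB cF κ hB hF S K BL1 T hK hT hT0 p
  have hn1 : (1 : ℝ) ≤ n := by exact_mod_cast g2
  have hn0 : (0 : ℝ) < n := by linarith
  have hy0 : 0 < y := lt_of_lt_of_le (Real.rpow_pos_of_pos hn0 _) h.y0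
  have hl : 0 < lam := by linarith [h.lam1]
  obtain ⟨M1, hG⟩ := gmUb (n := n) b cB cF κ hl h.η0.le (cc n b s a)
  have hT1 : T ≤ 1 := by
    rw [hT, ← hB]
    exact Finset.sum_le_sum_of_subset_of_nonneg (Finset.subset_univ _) fun _ _ _ => sq_nonneg _
  have hg := g1 vp s lam η y V a h hv LB LF cB cF κ hB hF
  have hG1 : 1 ≤ (n : ℝ) ^ (1 + s1) * y ^ 6 :=
    (Real.one_le_rpow hn1 (by positivity)).trans (G_ge (by linarith) g2 h.y0)
  refine (mom_num hG measurable_snd (bdsU b cB cF _) hy0 (by omega) hb.ne' hK hT hT0 hT1 hyb hg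
    hG1 p).trans (le_of_eq ?_)
  congr 2
  rw [Real.rpow_add hn0, Real.rpow_one]
  field_simp

/-- **Tails in the ensemble U, eventually**: `U² T ≥ (n ^ s2 y²)²`. -/
theorem tail_evU (D : ℝ) (hb : 0 < b) (he : 0 < e) (hs0 : 0 ≤ s0) (hs : s0 < s1)
    (hs2 : s1 < 2 * s2) :
    ∀ᶠ n : ℕ in atTop, ∀ (vp s lam η y V a : ℝ), Par b s0 e n vp s lam η y V a → 0 < vp →
      y ^ 2 * b ^ 2 ≤ 4 →
      ∀ (LB LF : Type) [Fintype LB] [DecidableEq LB] [Fintype LF] [DecidableEq LF]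
      (cB : LB → ℝ) (cF : LF → ℝ) (κ : LF → Bool), ∑ l, cB l ^ 2 = 1 →
      (∀ k, ∑ l with κ l = k, cF l ^ 2 = VFb vp s k) →
      ∀ (S : Finset (Fin n)) (K : Finset (Co n LB LF)) (BL1 : Finset LB) (T : ℝ),
      Disjoint K (Bst LF S BL1) → T = ∑ l ∈ BL1, cB l ^ 2 → 0 < T → ∀ U : ℝ, 0 ≤ U →
      ((n : ℝ) ^ s2 * y ^ 2) ^ 2 ≤ U ^ 2 * T →
      eG (muA (Xs n) lam η (cc n b s a)) (SU b cB cF fun l => αb η (κ l)) y
        (H317.ind (U ^ 2) (CCg (muA (Xs n) lam η (cc n b s a)) (SU b cB cF fun l => αb η (κ l))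
          y Prod.snd K S)) ≤ (n : ℝ) ^ (-D) ∧
      ∀ h : ℝ × Xs n → ℝ, H615.Bd h → (∀ w, |h w| ≤ 2) →
      eG (muA (Xs n) lam η (cc n b s a)) (SU b cB cF fun l => αb η (κ l)) y
        (H317.ind U (Qg (muA (Xs n) lam η (cc n b s a)) (SU b cB cF fun l => αb η (κ l))
          y Prod.snd h K S)) ≤ (n : ℝ) ^ (-D) := by
  filter_upwards [gnU_ev hb he hs0 hs, eventually_ge_atTop 1,
    H178.ev_pow (show 0 < 2 * s2 - s1 by linarith) (64 * 3 / b ^ 2),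
    H178.ev_log (show 0 < 6 * e by positivity) (1 + |D|)] with n g1 g2 g3 g4
  intro vp s lam η y V a h hv hyb LB LF _ _ _ _ cB cF κ hB hF S K BL1 T hK hT hT0 U hU hU2
  have hn1 : (1 : ℝ) ≤ n := by exact_mod_cast g2
  have hn0 : (0 : ℝ) < n := by linarith
  have hlog : 0 ≤ Real.log n := Real.log_nonneg hn1
  have hy0 : 0 < y := lt_of_lt_of_le (Real.rpow_pos_of_pos hn0 _) h.y0
  have hl : 0 < lam := by linarith [h.lam1]
  obtain ⟨M1, hG'⟩ := gmUb (n := n) b cB cF κ hl h.η0.le (cc n b s a)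
  have hT1 : T ≤ 1 := by
    rw [hT, ← hB]
    exact Finset.sum_le_sum_of_subset_of_nonneg (Finset.subset_univ _) fun _ _ _ => sq_nonneg _
  have hg := g1 vp s lam η y V a h hv LB LF cB cF κ hB hF
  set G := (n : ℝ) ^ (1 + s1) * y ^ 6 with hG
  have h1 : (n : ℝ) ^ (6 * e) ≤ G := G_ge (by linarith) g2 h.y0
  have hD : (1 + |D|) * (1 + Real.log n) ≤ G := g4.trans h1
  have h3 : 3 * G ≤ y ^ 2 * b ^ 2 * T * n / 4 * (U / 4) ^ 2 := by
    have h4 : y ^ 2 * b ^ 2 * T * n / 4 * (U / 4) ^ 2 =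
        y ^ 2 * b ^ 2 * n / 64 * (U ^ 2 * T) := by ring
    rw [h4]
    have h5 : y ^ 2 * b ^ 2 * n / 64 * ((n : ℝ) ^ s2 * y ^ 2) ^ 2 ≤
        y ^ 2 * b ^ 2 * n / 64 * (U ^ 2 * T) :=
      mul_le_mul_of_nonneg_left hU2 (by positivity)
    refine le_trans ?_ h5
    have e1 : y ^ 2 * b ^ 2 * n / 64 * ((n : ℝ) ^ s2 * y ^ 2) ^ 2 =
        b ^ 2 / 64 * (n * ((n : ℝ) ^ s2) ^ 2 * y ^ 6) := by ring
    have e2 : n * ((n : ℝ) ^ s2) ^ 2 = (n : ℝ) ^ (1 + s1) * (n : ℝ) ^ (2 * s2 - s1) := by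
      rw [← Real.rpow_natCast, ← Real.rpow_mul hn0.le, ← Real.rpow_add hn0]
      nth_rewrite 1 [← Real.rpow_one (n : ℝ)]
      rw [← Real.rpow_add hn0]
      congr 1
      push_cast
      ring
    rw [e1, e2]
    have h6 : 3 ≤ b ^ 2 / 64 * (n : ℝ) ^ (2 * s2 - s1) := by
      rw [div_le_iff₀ (by positivity)] at g3
      linarith
    have h7 := mul_le_mul_of_nonneg_right h6
      (show 0 ≤ (n : ℝ) ^ (1 + s1) * y ^ 6 by positivity)
    rw [hG]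
    linarith
  have key : ∀ q : ℝ, y ^ 2 * b ^ 2 * T * n / 4 * (U / 4) ^ 2 ≤ q →
      Real.exp (G + 1 - q) ≤ (n : ℝ) ^ (-D) := by
    intro q hq
    rw [Real.rpow_def_of_pos hn0]
    refine Real.exp_le_exp.2 ?_
    have h8 : -|D| * Real.log n ≤ Real.log n * -D := by
      have := le_abs_self D
      nlinarith
    have h9 : (1 + |D|) * (1 + Real.log n) = 1 + |D| + Real.log n + |D| * Real.log n := by ring
    have h10 : 0 ≤ |D| := abs_nonneg D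
    nlinarith
  refine ⟨?_, fun h' hh' hC' => ?_⟩
  · refine (tail_num hG' measurable_snd (bdsU b cB cF _) hy0 (by omega) hK hT hT1 hyb
      hg (U ^ 2)).trans (key _ (mul_le_mul_of_nonneg_left ?_ (by positivity)))
    nlinarith
  · exact (tail_numQ hG' measurable_snd (bdsU b cB cF _) hy0 (by omega) hK hT hT1 hyb
      hg hh' hC' hU).trans (key _ le_rfl)

/-- **The four-spin number in the ensemble U, eventually.** -/
theorem q4_evU (hb : 0 < b) (he : 0 < e) (hs0 : 0 ≤ s0) (hs : s0 < s1) :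
    ∀ᶠ n : ℕ in atTop, ∀ (vp s lam η y V a : ℝ), Par b s0 e n vp s lam η y V a → 0 < vp →
      ∀ (LB LF : Type) [Fintype LB] [DecidableEq LB] [Fintype LF] [DecidableEq LF]
      (cB : LB → ℝ) (cF : LF → ℝ) (κ : LF → Bool), ∑ l, cB l ^ 2 = 1 →
      (∀ k, ∑ l with κ l = k, cF l ^ 2 = VFb vp s k) →
      ∀ (S : Finset (Fin n)) (FL : Finset LF) (BL BL' BL1 : Finset LB) (τ T : ℝ),
      BL ⊆ BL' → Disjoint BL' BL1 → τ = ∑ l ∈ BL' \ BL, cB l ^ 2 → T = ∑ l ∈ BL1, cB l ^ 2 →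
      0 < τ → 0 < T →
      eG (muA (Xs n) lam η (cc n b s a)) (SU b cB cF fun l => αb η (κ l)) y
        (Q4g (muA (Xs n) lam η (cc n b s a)) (SU b cB cF fun l => αb η (κ l)) y
          (Kset S BL FL) (sR Prod.snd) S) ≤
        2 * (n : ℝ) ^ 2 + 64 * (n ^ (3 + s1) * y ^ 2) / (b ^ 4 * (τ * T)) +
          384 * (n ^ (4 + 2 * s1) * y ^ 8) / (b ^ 4 * T ^ 2) := by
  filter_upwards [gnU_ev hb he hs0 hs, eventually_ge_atTop 1] with n g1 g2
  intro vp s lam η y V a h hv LB LF _ _ _ _ cB cF κ hB hF S FL BL BL' BL1 τ T hBL hd hτ hT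
    hτ0 hT0
  have hn1 : (1 : ℝ) ≤ n := by exact_mod_cast g2
  have hn0 : (0 : ℝ) < n := by linarith
  have hy0 : 0 < y := lt_of_lt_of_le (Real.rpow_pos_of_pos hn0 _) h.y0
  have hl : 0 < lam := by linarith [h.lam1]
  obtain ⟨M1, hG⟩ := gmUb (n := n) b cB cF κ hl h.η0.le (cc n b s a)
  have hg := g1 vp s lam η y V a h hv LB LF cB cF κ hB hF
  have hG1 : 1 ≤ (n : ℝ) ^ (1 + s1) * y ^ 6 :=
    (Real.one_le_rpow hn1 (by positivity)).trans (G_ge (by linarith) g2 h.y0)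
  refine (q4_num hG measurable_snd (bdsU b cB cF _) hy0 (by linarith [h.y1]) (by omega) hb.ne'
    hBL hd hτ hT hτ0 hT0 hg hG1 S FL).trans (le_of_eq ?_)
  have e1 : (n : ℝ) ^ (3 + s1) = (n : ℝ) ^ (1 + s1) * n ^ 2 := by
    rw [← Real.rpow_natCast (n : ℝ) 2, ← Real.rpow_add hn0]
    congr 1
    push_cast
    ring
  have e2 : (n : ℝ) ^ (4 + 2 * s1) = ((n : ℝ) ^ (1 + s1)) ^ 2 * n ^ 2 := by
    rw [← Real.rpow_natCast (n : ℝ) 2, ← Real.rpow_natCast ((n : ℝ) ^ (1 + s1)) 2,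
      ← Real.rpow_mul hn0.le, ← Real.rpow_add hn0]
    congr 1
    push_cast
    ring
  rw [e1, e2]
  congr 1
  · congr 1
    field_simp
  · field_simp

end evU

end Vale.Agent.P146.H412.U
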